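import Mathlib
import Crest.Prelude.Def_CStarRep

-- ▼ part R120/E1
section

/-! Module E of row 120: irreducible representations.  Part 1: unitality, cyclicity, trivial
commutant, unitary equivalence from equal vector states. -/

set_option autoImplicit false

namespace Crest.Agent.R120.Irr

open Crest.OpAlg

section

variable {A : Type*} [CStarAlgebra A]
variable {H : Type*} [NormedAddCommGroup H] [InnerProductSpace ℂ H] [CompleteSpace H]

/-- An irreducible representation of a unital algebra is unital. -/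
theorem irr_map_one {π : A →⋆ₙₐ[ℂ] (H →L[ℂ] H)} (hπ : IsIrreducibleRep π) : π 1 = 1 := by
  have hid : ∀ v, π 1 (π 1 v) = π 1 v := fun v => by
    have : π 1 * π 1 = π 1 := by rw [← map_mul, one_mul]
    exact congrArg (fun T : H →L[ℂ] H => T v) this
  let V : Submodule ℂ H := LinearMap.ker ((π 1 - 1 : H →L[ℂ] H) : H →ₗ[ℂ] H)
  have hVmem : ∀ v, v ∈ V ↔ π 1 v = v := fun v => by
    simp [V, LinearMap.mem_ker, sub_eq_zero]
  have hVc : IsClosed (V : Set H) := by
    have : (V : Set H) = {v | π 1 v = v} := by ext v; exact hVmem v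
    rw [this]
    exact isClosed_eq (π 1).continuous continuous_id
  have hinv : ∀ a : A, ∀ v ∈ V, π a v ∈ V := fun a v _ => by
    rw [hVmem]
    have : π 1 * π a = π a := by rw [← map_mul, one_mul]
    exact congrArg (fun T : H →L[ℂ] H => T v) this
  rcases hπ.2 V hVc hinv with h | h
  · exfalso
    apply hπ.1
    ext a v
    have h1 : π 1 (π a v) = 0 := by
      have : π 1 (π a v) ∈ V := (hVmem _).2 (hid _)
      rw [h] at this
      simpa using this
    have h2 : π 1 * π a = π a := by rw [← map_mul, one_mul]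
    have h3 : π 1 (π a v) = π a v := congrArg (fun T : H →L[ℂ] H => T v) h2
    rw [← h3, h1]; rfl
  · ext v
    have : v ∈ V := by rw [h]; trivial
    exact (hVmem v).1 this

/-- The orbit map `a ↦ π a ξ`. -/
noncomputable def orb (π : A →⋆ₙₐ[ℂ] (H →L[ℂ] H)) (ξ : H) : A →ₗ[ℂ] H where
  toFun a := π a ξ
  map_add' a b := by simp
  map_smul' c a := by simp

@[simp] theorem orb_apply (π : A →⋆ₙₐ[ℂ] (H →L[ℂ] H)) (ξ : H) (a : A) : orb π ξ a = π a ξ := rfl

/-- Every nonzero vector of an irreducible representation is cyclic. -/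
theorem irr_dense {π : A →⋆ₙₐ[ℂ] (H →L[ℂ] H)} (hπ : IsIrreducibleRep π) {ξ : H} (hξ : ξ ≠ 0) :
    DenseRange (orb π ξ) := by
  let V : Submodule ℂ H := (LinearMap.range (orb π ξ)).topologicalClosure
  have hVc : IsClosed (V : Set H) := Submodule.isClosed_topologicalClosure _
  have hinv : ∀ a : A, ∀ v ∈ V, π a v ∈ V := fun a v hv => by
    have h1 : Set.MapsTo (π a) (LinearMap.range (orb π ξ) : Set H)
        (LinearMap.range (orb π ξ) : Set H) := by
      rintro _ ⟨b, rfl⟩
      exact ⟨a * b, by simp⟩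
    exact h1.closure (π a).continuous hv
  rcases hπ.2 V hVc hinv with h | h
  · exfalso
    apply hξ
    have : ξ ∈ V := subset_closure ⟨1, by simp [irr_map_one hπ]⟩
    rw [h] at this
    simpa using this
  · intro v
    have : v ∈ V := by rw [h]; trivial
    exact this

theorem irr_nontrivial {π : A →⋆ₙₐ[ℂ] (H →L[ℂ] H)} (hπ : IsIrreducibleRep π) : Nontrivial H := by
  by_contra hn
  rw [not_nontrivial_iff_subsingleton] at hn
  exact hπ.1 (by ext a v; exact Subsingleton.elim _ _)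

/-- The commutant of an irreducible representation is trivial (self-adjoint version). -/
theorem irr_commutant {π : A →⋆ₙₐ[ℂ] (H →L[ℂ] H)} (hπ : IsIrreducibleRep π) {T : H →L[ℂ] H}
    (hT : IsSelfAdjoint T) (hc : ∀ a, Commute T (π a)) : ∃ s : ℝ, T = (s : ℂ) • (1 : H →L[ℂ] H) := by
  have := irr_nontrivial hπ
  have hne : (spectrum ℝ T).Nonempty := ContinuousFunctionalCalculus.spectrum_nonempty T hT
  obtain ⟨s, hs⟩ := hne
  refine ⟨s, ?_⟩
  have key : ∀ t ∈ spectrum ℝ T, t = s := by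
    intro t ht
    by_contra hts
    let f : ℝ → ℝ := fun x => max 0 (|t - s| / 2 - |x - s|)
    let g : ℝ → ℝ := fun x => max 0 (|t - s| / 2 - |x - t|)
    have hpos : 0 < |t - s| := abs_pos.2 (sub_ne_zero.2 hts)
    have hfc : Continuous f := by fun_prop
    have hgc : Continuous g := by fun_prop
    have hfg : ∀ x, f x * g x = 0 := by
      intro x
      by_contra hx
      obtain ⟨h1, h2⟩ := mul_ne_zero_iff.1 hx
      have h1' : |x - s| < |t - s| / 2 := by
        by_contra hh
        exact h1 (max_eq_left (by linarith [not_lt.1 hh]))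
      have h2' : |x - t| < |t - s| / 2 := by
        by_contra hh
        exact h2 (max_eq_left (by linarith [not_lt.1 hh]))
      have : |t - s| ≤ |x - s| + |x - t| := by
        have := abs_sub (x - s) (x - t)
        have e : (x - s) - (x - t) = t - s := by ring
        rw [e] at this
        exact this
      linarith
    have hmul : cfc f T * cfc g T = 0 := by
      rw [← cfc_mul f g T hfc.continuousOn hgc.continuousOn]
      have : (fun x => f x * g x) = fun _ => (0 : ℝ) := funext hfg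
      rw [this]
      simp
    have hf0 : cfc f T ≠ 0 := by
      intro h0
      have : f s ∈ spectrum ℝ (cfc f T) := by
        rw [cfc_map_spectrum (R := ℝ) f T (hf := hfc.continuousOn) (ha := hT)]
        exact ⟨s, hs, rfl⟩
      rw [h0, spectrum.zero_eq] at this
      have : f s = 0 := this
      simp only [f, sub_self, abs_zero, sub_zero] at this
      have h3 : |t - s| / 2 ≤ 0 := by rw [← this]; exact le_max_right _ _
      linarith
    have hg0 : cfc g T ≠ 0 := by
      intro h0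
      have : g t ∈ spectrum ℝ (cfc g T) := by
        rw [cfc_map_spectrum (R := ℝ) g T (hf := hgc.continuousOn) (ha := hT)]
        exact ⟨t, ht, rfl⟩
      rw [h0, spectrum.zero_eq] at this
      have : g t = 0 := this
      simp only [g, sub_self, abs_zero, sub_zero] at this
      have h3 : |t - s| / 2 ≤ 0 := by rw [← this]; exact le_max_right _ _
      linarith
    let V : Submodule ℂ H := LinearMap.ker ((cfc f T : H →L[ℂ] H) : H →ₗ[ℂ] H)
    have hVmem : ∀ v, v ∈ V ↔ cfc f T v = 0 := fun v => by simp [V, LinearMap.mem_ker]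
    have hVc : IsClosed (V : Set H) := by
      have : (V : Set H) = {v | cfc f T v = 0} := by ext v; exact hVmem v
      rw [this]
      exact isClosed_eq (cfc f T).continuous continuous_const
    have hinv : ∀ a : A, ∀ v ∈ V, π a v ∈ V := fun a v hv => by
      rw [hVmem] at hv ⊢
      have hcomm : Commute (cfc f T) (π a) := (hc a).cfc_real f
      have : cfc f T (π a v) = π a (cfc f T v) :=
        congrArg (fun S : H →L[ℂ] H => S v) hcomm.eq
      rw [this, hv, map_zero]
    rcases hπ.2 V hVc hinv with h | h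
    · apply hg0
      ext v
      have : cfc g T v ∈ V := by
        rw [hVmem]
        exact congrArg (fun S : H →L[ℂ] H => S v) hmul
      rw [h] at this
      simpa using this
    · apply hf0
      ext v
      have : v ∈ V := by rw [h]; trivial
      simpa using (hVmem v).1 this
  have h1 : cfc (id : ℝ → ℝ) T = cfc (fun _ : ℝ => s) T := cfc_congr (fun t ht => key t ht)
  rw [cfc_id ℝ T hT, cfc_const s T hT] at h1
  rw [h1, Algebra.algebraMap_eq_smul_one]
  ext v
  simp

end

section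

variable {A : Type*} [CStarAlgebra A]
variable {H₁ : Type*} [NormedAddCommGroup H₁] [InnerProductSpace ℂ H₁] [CompleteSpace H₁]
variable {H₂ : Type*} [NormedAddCommGroup H₂] [InnerProductSpace ℂ H₂] [CompleteSpace H₂]

/-- (E5) Two irreducible representations having nonzero vectors with the same vector functional
are unitarily equivalent. -/
theorem areUnitarilyEquivalent_of_state_eq {π₁ : A →⋆ₙₐ[ℂ] (H₁ →L[ℂ] H₁)}
    {π₂ : A →⋆ₙₐ[ℂ] (H₂ →L[ℂ] H₂)} (h₁ : IsIrreducibleRep π₁) (h₂ : IsIrreducibleRep π₂)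
    {ζ₁ : H₁} {ζ₂ : H₂} (hζ₁ : ζ₁ ≠ 0) (hζ₂ : ζ₂ ≠ 0)
    (h : ∀ a, inner ℂ ζ₁ (π₁ a ζ₁) = inner ℂ ζ₂ (π₂ a ζ₂)) :
    AreUnitarilyEquivalent π₁ π₂ := by
  have hn : ∀ a, ‖orb π₂ ζ₂ a‖ = ‖orb π₁ ζ₁ a‖ := by
    intro a
    have e1 : inner ℂ (π₁ a ζ₁) (π₁ a ζ₁) = inner ℂ ζ₁ (π₁ (star a * a) ζ₁) := by
      rw [map_mul, map_star, ContinuousLinearMap.mul_def, ContinuousLinearMap.comp_apply, ContinuousLinearMap.star_eq_adjoint,
        ContinuousLinearMap.adjoint_inner_right]
    have e2 : inner ℂ (π₂ a ζ₂) (π₂ a ζ₂) = inner ℂ ζ₂ (π₂ (star a * a) ζ₂) := by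
      rw [map_mul, map_star, ContinuousLinearMap.mul_def, ContinuousLinearMap.comp_apply, ContinuousLinearMap.star_eq_adjoint,
        ContinuousLinearMap.adjoint_inner_right]
    have e3 : inner ℂ (π₂ a ζ₂) (π₂ a ζ₂) = inner ℂ (π₁ a ζ₁) (π₁ a ζ₁) := by
      rw [e1, e2, h]
    rw [inner_self_eq_norm_sq_to_K, inner_self_eq_norm_sq_to_K] at e3
    have e4 : ‖π₂ a ζ₂‖ ^ 2 = ‖π₁ a ζ₁‖ ^ 2 := by exact_mod_cast e3
    have e5 := (sq_eq_sq₀ (norm_nonneg _) (norm_nonneg _)).1 e4
    simpa using e5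
  let U : H₁ ≃ₗᵢ[ℂ] H₂ := (LinearEquiv.refl ℂ A).extendOfIsometry (orb π₁ ζ₁) (orb π₂ ζ₂)
    (irr_dense h₁ hζ₁) (irr_dense h₂ hζ₂) (fun a => by simpa using hn a)
  have hU : ∀ a, U (π₁ a ζ₁) = π₂ a ζ₂ := fun a =>
    LinearEquiv.extendOfIsometry_eq (LinearEquiv.refl ℂ A) (orb π₁ ζ₁) (orb π₂ ζ₂)
      (irr_dense h₁ hζ₁) (irr_dense h₂ hζ₂) (fun a => by simpa using hn a) a
  refine ⟨U, fun a v => ?_⟩
  refine (irr_dense h₁ hζ₁).induction_on (p := fun v => U (π₁ a v) = π₂ a (U v)) v ?_ ?_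
  · exact isClosed_eq (U.continuous.comp (π₁ a).continuous) ((π₂ a).continuous.comp U.continuous)
  · intro b
    have e1 : π₁ a (π₁ b ζ₁) = π₁ (a * b) ζ₁ := by simp
    have e2 : π₂ a (π₂ b ζ₂) = π₂ (a * b) ζ₂ := by simp
    rw [orb_apply, e1, hU, hU, e2]

end

end Crest.Agent.R120.Irr
end

-- ▼ part R120/E2
section

/-! Module E of row 120: purity of vector states of irreducible representations and the
Hahn-Banach argument (E1, E2). -/

set_option autoImplicit false

namespace Crest.Agent.R120.Irr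

open Crest.OpAlg Filter Topology
open scoped ComplexOrder InnerProductSpace

section

variable {A : Type*} [CStarAlgebra A] [PartialOrder A] [StarOrderedRing A]
variable {H : Type*} [NormedAddCommGroup H] [InnerProductSpace ℂ H] [CompleteSpace H]

/-- Cauchy-Schwarz for positive functionals. -/
theorem pos_cauchy_schwarz (f : A →ₚ[ℂ] ℂ) (a b : A) :
    ‖f (star a * b)‖ ≤ √((f (star a * a)).re) * √((f (star b * b)).re) := by
  have h := norm_inner_le_norm (𝕜 := ℂ) (f.toPreGNS a) (f.toPreGNS b)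
  rw [f.preGNS_inner_def, f.preGNS_norm_def, f.preGNS_norm_def] at h
  simpa using h

omit [PartialOrder A] [StarOrderedRing A] in
theorem inner_rep_star (π : A →⋆ₙₐ[ℂ] (H →L[ℂ] H)) (a : A) (v w : H) :
    inner ℂ (π a v) w = inner ℂ v (π (star a) w) := by
  rw [map_star, ContinuousLinearMap.star_eq_adjoint, ContinuousLinearMap.adjoint_inner_right]

/-- (E1) A positive functional dominated by a vector functional of an irreducible representation
is a multiple of it. -/
theorem irr_pure {π : A →⋆ₙₐ[ℂ] (H →L[ℂ] H)} (hπ : IsIrreducibleRep π) {ξ : H} (hξ : ξ ≠ 0)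
    (f : A →ₚ[ℂ] ℂ) (h1 : ∀ a, (f (star a * a)).re ≤ ‖π a ξ‖ ^ 2) :
    ∃ s : ℝ, 0 ≤ s ∧ s ≤ 1 ∧ ∀ a, f a = s * inner ℂ ξ (π a ξ) := by
  have hsq : ∀ a, √((f (star a * a)).re) ≤ ‖π a ξ‖ := fun a =>
    (Real.sqrt_le_sqrt (h1 a)).trans (by rw [Real.sqrt_sq (norm_nonneg _)])
  have hcs : ∀ a b, ‖f (star a * b)‖ ≤ ‖π a ξ‖ * ‖π b ξ‖ := fun a b =>
    (pos_cauchy_schwarz f a b).trans
      (mul_le_mul (hsq a) (hsq b) (Real.sqrt_nonneg _) (norm_nonneg _))
  have hd := irr_dense hπ hξ
  -- the functionals `b ↦ f (a* b)`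
  let g : A → (A →ₗ[ℂ] ℂ) := fun a => (f.toLinearMap).comp (LinearMap.mulLeft ℂ (star a))
  have hg : ∀ a b, g a b = f (star a * b) := fun a b => rfl
  let G : A → (H →L[ℂ] ℂ) := fun a => (g a).extendOfNorm (orb π ξ)
  have hG : ∀ a b, G a (π b ξ) = f (star a * b) := fun a b =>
    LinearMap.extendOfNorm_eq hd ⟨‖π a ξ‖, fun b => hcs a b⟩ b
  have hGn : ∀ a, ‖G a‖ ≤ ‖π a ξ‖ := fun a =>
    LinearMap.opNorm_extendOfNorm_le hd (norm_nonneg _) (fun b => hcs a b)
  let η : A → H := fun a => (InnerProductSpace.toDual ℂ H).symm (G a)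
  have hη : ∀ a b, inner ℂ (η a) (π b ξ) = f (star a * b) := fun a b => by
    rw [← hG a b]; exact InnerProductSpace.toDual_symm_apply
  have hηn : ∀ a, ‖η a‖ ≤ ‖π a ξ‖ := fun a => by
    simp only [η, LinearIsometryEquiv.norm_map]; exact hGn a
  have hext : ∀ v w : H, (∀ b, inner ℂ v (π b ξ) = inner ℂ w (π b ξ)) → v = w := by
    intro v w h
    refine ext_inner_right ℂ (fun z => ?_)
    refine hd.induction_on (p := fun z => inner ℂ v z = inner ℂ w z) z ?_ (fun b => h b)
    exact isClosed_eq (by fun_prop) (by fun_prop)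
  let ηl : A →ₗ[ℂ] H :=
    { toFun := η
      map_add' := fun a a' => hext _ _ fun b => by
        rw [inner_add_left, hη, hη, hη, star_add, add_mul, map_add]
      map_smul' := fun c a => hext _ _ fun b => by
        rw [RingHom.id_apply, inner_smul_left, hη, hη, star_smul, smul_mul_assoc, map_smul,
          smul_eq_mul]
        rfl }
  let T : H →L[ℂ] H := ηl.extendOfNorm (orb π ξ)
  have hT : ∀ a, T (π a ξ) = η a := fun a =>
    LinearMap.extendOfNorm_eq hd ⟨1, fun b => by rw [one_mul]; exact hηn b⟩ a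
  have hTin : ∀ a b, inner ℂ (T (π a ξ)) (π b ξ) = f (star a * b) := fun a b => by
    rw [hT, hη]
  have hfstar : ∀ x, f (star x) = star (f x) := fun x => map_star f x
  have hTsa : IsSelfAdjoint T := by
    rw [ContinuousLinearMap.isSelfAdjoint_iff_isSymmetric]
    intro v w
    refine hd.induction_on (p := fun v => inner ℂ (T v) w = inner ℂ v (T w)) v ?_ (fun a => ?_)
    · exact isClosed_eq (by fun_prop) (by fun_prop)
    · refine hd.induction_on (p := fun w => inner ℂ (T (π a ξ)) w = inner ℂ (π a ξ) (T w)) w ?_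
        (fun b => ?_)
      · exact isClosed_eq (by fun_prop) (by fun_prop)
      · rw [orb_apply, hTin, ← inner_conj_symm, hTin]
        have : star a * b = star (star b * a) := by simp
        rw [this, hfstar]
        rfl
  have hTc : ∀ c, Commute T (π c) := by
    intro c
    ext v
    refine hd.induction_on (p := fun v => (T * π c) v = (π c * T) v) v ?_ (fun a => ?_)
    · exact isClosed_eq (by fun_prop) (by fun_prop)
    · refine hext _ _ fun b => ?_
      have e1 : (T * π c) (orb π ξ a) = T (π (c * a) ξ) := by simp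
      have e2 : (π c * T) (orb π ξ a) = π c (T (π a ξ)) := rfl
      rw [e1, e2, hTin, inner_rep_star]
      have e3 : π (star c) (π b ξ) = π (star c * b) ξ := by simp
      rw [e3, hTin, star_mul, mul_assoc]
  obtain ⟨s, hs⟩ := irr_commutant hπ hTsa hTc
  have hfa : ∀ a, f a = s * inner ℂ ξ (π a ξ) := by
    intro a
    have h2 := hTin 1 a
    rw [star_one, one_mul, irr_map_one hπ] at h2
    rw [← h2, hs]
    have : ((s : ℂ) • (1 : H →L[ℂ] H)) ((1 : H →L[ℂ] H) ξ) = (s : ℂ) • ξ := by simp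
    rw [this, inner_smul_left]
    simp
  have h3 := hfa 1
  have hξn : 0 < ‖ξ‖ ^ 2 := by positivity
  have hinner : inner ℂ ξ (π 1 ξ) = ((‖ξ‖ ^ 2 : ℝ) : ℂ) := by
    rw [irr_map_one hπ]
    have : (1 : H →L[ℂ] H) ξ = ξ := rfl
    rw [this, inner_self_eq_norm_sq_to_K]
    push_cast; rfl
  rw [hinner] at h3
  have h4 : (f 1).re = s * ‖ξ‖ ^ 2 := by
    rw [h3, ← Complex.ofReal_mul, Complex.ofReal_re]
  have h5 : 0 ≤ (f 1).re := by
    have : 0 ≤ f 1 := f.map_nonneg zero_le_one
    exact (Complex.nonneg_iff.1 this).1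
  have h6 : (f 1).re ≤ ‖ξ‖ ^ 2 := by
    have := h1 1
    rw [irr_map_one hπ] at this
    simpa using this
  refine ⟨s, ?_, ?_, hfa⟩
  · by_contra hneg
    rw [not_le] at hneg
    have := mul_neg_of_neg_of_pos hneg hξn
    linarith
  · by_contra hgt
    rw [not_le] at hgt
    have := mul_lt_mul_of_pos_right hgt hξn
    linarith

end

end Crest.Agent.R120.Irr
end

-- ▼ part R120/E3
section

/-! Module E of row 120: Hahn-Banach for pure functionals (E2) and excision (E3). -/

set_option autoImplicit false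

namespace Crest.Agent.R120.Irr

open Crest.OpAlg Filter Topology
open scoped ComplexOrder InnerProductSpace

section

variable {A : Type*} [CStarAlgebra A] [PartialOrder A] [StarOrderedRing A]

/-- purity of a positive functional, in the form given by `irr_pure`. -/
def IsPureFun (φ : A →ₚ[ℂ] ℂ) : Prop :=
  ∀ f : A →ₚ[ℂ] ℂ, (∀ a, 0 ≤ a → (f a).re ≤ (φ a).re) →
    ∃ s : ℝ, 0 ≤ s ∧ s ≤ 1 ∧ ∀ a, f a = s * φ a

/-- the sublinear functional `d ↦ inf {φ k | 0 ≤ k, d ≤ k}`. -/
noncomputable def domInf (φ : A →ₚ[ℂ] ℂ) (d : A) : ℝ :=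
  sInf {r : ℝ | ∃ k : A, 0 ≤ k ∧ d ≤ k ∧ r = (φ k).re}

theorem domSet_nonempty (φ : A →ₚ[ℂ] ℂ) {d : A} (hd : IsSelfAdjoint d) :
    {r : ℝ | ∃ k : A, 0 ≤ k ∧ d ≤ k ∧ r = (φ k).re}.Nonempty :=
  ⟨_, (algebraMap ℝ A ‖d‖), by
    have : (0 : A) = algebraMap ℝ A 0 := by simp
    rw [this]
    exact algebraMap_mono A (norm_nonneg d), hd.le_algebraMap_norm_self, rfl⟩

omit [StarOrderedRing A] in
theorem re_nonneg_of_pos (φ : A →ₚ[ℂ] ℂ) {k : A} (hk : 0 ≤ k) : 0 ≤ (φ k).re :=
  (Complex.nonneg_iff.1 (φ.map_nonneg hk)).1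

theorem domSet_bdd (φ : A →ₚ[ℂ] ℂ) (d : A) :
    BddBelow {r : ℝ | ∃ k : A, 0 ≤ k ∧ d ≤ k ∧ r = (φ k).re} :=
  ⟨0, by rintro r ⟨k, hk, -, rfl⟩; exact re_nonneg_of_pos φ hk⟩

theorem domInf_le (φ : A →ₚ[ℂ] ℂ) {d k : A} (hk : 0 ≤ k) (hdk : d ≤ k) :
    domInf φ d ≤ (φ k).re :=
  csInf_le (domSet_bdd φ d) ⟨k, hk, hdk, rfl⟩

theorem domInf_nonneg (φ : A →ₚ[ℂ] ℂ) (d : A) : 0 ≤ domInf φ d := by
  apply Real.sInf_nonneg
  rintro r ⟨k, hk, -, rfl⟩
  exact re_nonneg_of_pos φ hk

theorem exists_lt_of_domInf (φ : A →ₚ[ℂ] ℂ) {d : A} (hd : IsSelfAdjoint d) {ε : ℝ} (hε : 0 < ε) :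
    ∃ k : A, 0 ≤ k ∧ d ≤ k ∧ (φ k).re < domInf φ d + ε := by
  obtain ⟨r, ⟨k, hk, hdk, rfl⟩, hr⟩ := exists_lt_of_csInf_lt (domSet_nonempty φ hd)
    (show domInf φ d < domInf φ d + ε by linarith)
  exact ⟨k, hk, hdk, hr⟩

theorem domInf_add (φ : A →ₚ[ℂ] ℂ) {x y : A} (hx : IsSelfAdjoint x) (hy : IsSelfAdjoint y) :
    domInf φ (x + y) ≤ domInf φ x + domInf φ y := by
  refine le_of_forall_pos_le_add fun ε hε => ?_
  obtain ⟨k, hk, hxk, h1⟩ := exists_lt_of_domInf φ hx (half_pos hε)
  obtain ⟨l, hl, hyl, h2⟩ := exists_lt_of_domInf φ hy (half_pos hε)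
  have := domInf_le φ (d := x + y) (k := k + l) (add_nonneg hk hl) (add_le_add hxk hyl)
  rw [map_add, Complex.add_re] at this
  linarith

theorem domInf_smul_le (φ : A →ₚ[ℂ] ℂ) {x : A} (hx : IsSelfAdjoint x) {c : ℝ} (hc : 0 < c) :
    domInf φ (c • x) ≤ c * domInf φ x := by
  refine le_of_forall_pos_le_add fun ε hε => ?_
  obtain ⟨k, hk, hxk, h1⟩ := exists_lt_of_domInf φ hx (div_pos hε hc)
  have := domInf_le φ (d := c • x) (k := c • k) (smul_nonneg hc.le hk)
    (smul_le_smul_of_nonneg_left hxk hc.le)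
  have e : φ (c • k) = c • φ k := φ.map_smul_of_tower c k
  rw [e, Complex.smul_re, smul_eq_mul] at this
  have h2 : c * (φ k).re < c * (domInf φ x + ε / c) := mul_lt_mul_of_pos_left h1 hc
  have h3 : c * (domInf φ x + ε / c) = c * domInf φ x + ε := by field_simp
  linarith

theorem domInf_smul (φ : A →ₚ[ℂ] ℂ) {x : A} (hx : IsSelfAdjoint x) {c : ℝ} (hc : 0 < c) :
    domInf φ (c • x) = c * domInf φ x := by
  refine le_antisymm (domInf_smul_le φ hx hc) ?_
  have h := domInf_smul_le φ (x := c • x) ((IsSelfAdjoint.all c).smul hx) (inv_pos.2 hc)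
  rw [smul_smul, inv_mul_cancel₀ hc.ne', one_smul] at h
  have := mul_le_mul_of_nonneg_left h hc.le
  rwa [← mul_assoc, mul_inv_cancel₀ hc.ne', one_mul] at this

/-- (E2) -/
theorem pure_dom {φ : A →ₚ[ℂ] ℂ} (hφ : IsPureFun φ) {d : A} (hd : IsSelfAdjoint d) {ε : ℝ}
    (hε : 0 < ε) : ∃ k : A, 0 ≤ k ∧ d ≤ k ∧ (φ k).re < max 0 (φ d).re + ε := by
  rcases eq_or_ne d 0 with rfl | hd0
  · refine ⟨0, le_rfl, le_rfl, by simp [hε]⟩
  suffices h : domInf φ d ≤ max 0 (φ d).re by
    obtain ⟨k, hk, hdk, h1⟩ := exists_lt_of_domInf φ hd hε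
    exact ⟨k, hk, hdk, by linarith⟩
  let d' : selfAdjoint A := ⟨d, hd⟩
  have hd0' : d' ≠ 0 := fun h => hd0 (congrArg Subtype.val h)
  let f₀ : selfAdjoint A →ₗ.[ℝ] ℝ := LinearPMap.mkSpanSingleton d' (domInf φ d) hd0'
  obtain ⟨g, hg1, hg2⟩ := exists_extension_of_le_sublinear f₀ (fun x => domInf φ (x : A))
    (fun c hc x => by
      rw [selfAdjoint.val_smul]
      exact domInf_smul φ x.2 hc)
    (fun x y => by
      rw [AddSubgroup.coe_add]
      exact domInf_add φ x.2 y.2)
    (by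
      rintro ⟨x, hx⟩
      obtain ⟨t, rfl⟩ := Submodule.mem_span_singleton.1 hx
      have e : f₀ ⟨t • d', hx⟩ = t • domInf φ d :=
        LinearPMap.mkSpanSingleton'_apply (σ := RingHom.id ℝ) _ _ _ _ _
      rw [e]
      show t • domInf φ d ≤ domInf φ ((t • d' : selfAdjoint A) : A)
      rw [selfAdjoint.val_smul]
      rcases lt_or_ge 0 t with ht | ht
      · exact (domInf_smul φ hd ht).ge
      · exact (mul_nonpos_of_nonpos_of_nonneg ht (domInf_nonneg φ d)).trans (domInf_nonneg φ _))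
  have hgd : g d' = domInf φ d := by
    have hmem : d' ∈ Submodule.span ℝ {d'} := Submodule.mem_span_singleton_self d'
    have h := hg1 ⟨d', hmem⟩
    have h' : f₀ ⟨d', hmem⟩ = domInf φ d :=
      LinearPMap.mkSpanSingleton'_apply_self _ _ _ _
    rw [← h', ← h]
  have hgpos : ∀ x : selfAdjoint A, 0 ≤ (x : A) → 0 ≤ g x := by
    intro x hx
    have h := hg2 (-x)
    have h2 : domInf φ ((-x : selfAdjoint A) : A) ≤ (φ 0).re := domInf_le φ le_rfl (by
      rw [AddSubgroup.coe_neg]; simpa using hx)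
    rw [map_neg] at h
    simp only [map_zero, Complex.zero_re] at h2
    have h3 := h.trans h2
    linarith
  have hgle : ∀ x : selfAdjoint A, 0 ≤ (x : A) → g x ≤ (φ (x : A)).re := fun x hx =>
    (hg2 x).trans (domInf_le φ hx le_rfl)
  -- complexification
  let F₀ : A →ₗ[ℂ] ℂ :=
    { toFun := fun a => (g (realPart a) : ℂ) + Complex.I * (g (imaginaryPart a) : ℂ)
      map_add' := fun a b => by
        simp only [map_add, Complex.ofReal_add]; ring
      map_smul' := fun c a => by
        have h1 : realPart (c • a) = c.re • realPart a - c.im • imaginaryPart a :=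
          realPart_smul c a
        have h2 : imaginaryPart (c • a) = c.re • imaginaryPart a + c.im • realPart a :=
          imaginaryPart_smul c a
        rw [h1, h2]
        simp only [map_sub, map_add, map_smul, smul_eq_mul, RingHom.id_apply]
        apply Complex.ext
        · simp
        · simp }
  have hF₀ : ∀ x : selfAdjoint A, F₀ (x : A) = (g x : ℂ) := by
    intro x
    show (g (realPart (x : A)) : ℂ) + Complex.I * (g (imaginaryPart (x : A)) : ℂ) = _
    have h1 : realPart (x : A) = x := by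
      apply Subtype.ext
      exact IsSelfAdjoint.coe_realPart x.2
    have h2 : imaginaryPart (x : A) = 0 := IsSelfAdjoint.imaginaryPart x.2
    rw [h1, h2]; simp
  let F : A →ₚ[ℂ] ℂ := PositiveLinearMap.mk₀ F₀ (fun x hx => by
    have h := hF₀ ⟨x, IsSelfAdjoint.of_nonneg hx⟩
    rw [show ((⟨x, IsSelfAdjoint.of_nonneg hx⟩ : selfAdjoint A) : A) = x from rfl] at h
    rw [h]
    exact_mod_cast hgpos ⟨x, _⟩ hx)
  have hF : ∀ x : selfAdjoint A, F (x : A) = (g x : ℂ) := hF₀
  obtain ⟨s, hs0, hs1, hs⟩ := hφ F (fun a ha => by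
    have h := hF ⟨a, IsSelfAdjoint.of_nonneg ha⟩
    rw [show ((⟨a, IsSelfAdjoint.of_nonneg ha⟩ : selfAdjoint A) : A) = a from rfl] at h
    rw [h, Complex.ofReal_re]
    exact hgle ⟨a, _⟩ ha)
  have h4 : domInf φ d = s * (φ d).re := by
    have h := hs d
    have h' := hF d'
    rw [show (d' : A) = d from rfl] at h'
    rw [h', hgd] at h
    have := congrArg Complex.re h
    simpa using this
  rw [h4]
  rcases le_or_gt 0 (φ d).re with h | h
  · calc s * (φ d).re ≤ 1 * (φ d).re := mul_le_mul_of_nonneg_right hs1 h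
      _ ≤ _ := by rw [one_mul]; exact le_max_right _ _
  · calc s * (φ d).re ≤ 0 := mul_nonpos_of_nonneg_of_nonpos hs0 h.le
      _ ≤ _ := le_max_left _ _

end

end Crest.Agent.R120.Irr
end

-- ▼ part R120/E4

/-! Module E of row 120: excision for pure functionals (E3). -/

set_option autoImplicit false

namespace Crest.Agent.R120.Irr

open Crest.OpAlg Filter Topology
open scoped ComplexOrder InnerProductSpace

section

variable {A : Type*} [CStarAlgebra A] [PartialOrder A] [StarOrderedRing A]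

/-- consequence of (E2): lower bounds of finitely many elements with large value. -/
theorem pure_lower_bound {φ : A →ₚ[ℂ] ℂ} (hφ : IsPureFun φ) {m : ℝ} (c₀ : A)
    (hc₀ : IsSelfAdjoint c₀) (hm₀ : m ≤ (φ c₀).re) (S : Finset A) :
    (∀ c ∈ S, IsSelfAdjoint c ∧ m ≤ (φ c).re) → ∀ δ : ℝ, 0 < δ →
      ∃ h : A, IsSelfAdjoint h ∧ h ≤ c₀ ∧ (∀ c ∈ S, h ≤ c) ∧ m - δ ≤ (φ h).re := by
  classical
  induction S using Finset.induction_on with
  | empty =>
    intro _ δ hδ
    exact ⟨c₀, hc₀, le_rfl, by simp, by linarith⟩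
  | insert c S hcS ih =>
    intro hS δ hδ
    obtain ⟨h', hsa, h0, hle, hval⟩ := ih (fun c' hc' => hS c' (Finset.mem_insert_of_mem hc'))
      (δ / 2) (half_pos hδ)
    obtain ⟨hcsa, hcm⟩ := hS c (Finset.mem_insert_self c S)
    obtain ⟨k, hk, hdk, hkv⟩ := pure_dom hφ (d := h' - c) (hsa.sub hcsa) (half_pos hδ)
    refine ⟨h' - k, hsa.sub (IsSelfAdjoint.of_nonneg hk), ?_, ?_, ?_⟩
    · exact (sub_le_self h' hk).trans h0
    · intro c' hc'
      rcases Finset.mem_insert.1 hc' with rfl | hc'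
      · have : h' ≤ k + c' := sub_le_iff_le_add.1 hdk
        exact sub_le_iff_le_add'.2 this
      · exact (sub_le_self h' hk).trans (hle c' hc')
    · rw [map_sub, Complex.sub_re]
      rw [map_sub, Complex.sub_re] at hkv
      rcases le_total 0 ((φ h').re - (φ c).re) with h | h
      · rw [max_eq_right h] at hkv; linarith
      · rw [max_eq_left h] at hkv; linarith

theorem norm_le_of_le_of_neg_le {y : A} (hy : IsSelfAdjoint y) {ε : ℝ} (hε : 0 ≤ ε)
    (h1 : y ≤ algebraMap ℝ A ε) (h2 : -y ≤ algebraMap ℝ A ε) : ‖y‖ ≤ ε := by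
  have s1 := (le_algebraMap_iff_spectrum_le (R := ℝ) (r := ε) (a := y) hy).1 h1
  have h2' : algebraMap ℝ A (-ε) ≤ y := by
    rw [map_neg]; exact neg_le.1 h2
  have s2 := (algebraMap_le_iff_le_spectrum (R := ℝ) (r := -ε) (a := y) hy).1 h2'
  rcases subsingleton_or_nontrivial A with hA | hA
  · obtain rfl : y = 0 := Subsingleton.elim _ _
    simpa using hε
  · rcases CStarAlgebra.norm_or_neg_norm_mem_spectrum (a := y) hy with h | h
    · exact s1 _ h
    · have := s2 _ h
      linarith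

/-- the estimate behind (E3) -/
theorem norm_cfc_conj_le {h x : A} (hh : IsSelfAdjoint h) (h1 : h ≤ 1) {ε : ℝ} (hε : 0 < ε)
    (hx : IsSelfAdjoint x) (hx1 : x ≤ ε • (1 - h)) (hx2 : -x ≤ ε • (1 - h)) :
    ‖cfc (fun t : ℝ => max t 0) h * x * cfc (fun t : ℝ => max t 0) h‖ ≤ ε := by
  set a := cfc (fun t : ℝ => max t 0) h with ha
  have hspec : ∀ t ∈ spectrum ℝ h, t ≤ 1 := by
    have := (le_algebraMap_iff_spectrum_le (R := ℝ) (r := 1) (a := h) hh).1 (by simpa using h1)
    exact this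
  have hasa : IsSelfAdjoint a := cfc_predicate _ _
  have hk : a * (1 - h) * a ≤ 1 := by
    have e : a * (1 - h) * a = cfc (fun t : ℝ => max t 0 * (1 - t) * max t 0) h := by
      rw [cfc_mul (fun t : ℝ => max t 0 * (1 - t)) (fun t : ℝ => max t 0) h
        (by fun_prop) (by fun_prop),
        cfc_mul (fun t : ℝ => max t 0) (fun t : ℝ => 1 - t) h (by fun_prop) (by fun_prop),
        cfc_sub (fun _ : ℝ => (1 : ℝ)) (fun t : ℝ => t) h (by fun_prop) (by fun_prop)]
      rw [cfc_const_one ℝ h hh, cfc_id' ℝ h hh]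
    rw [e]
    refine cfc_le_one _ _ (fun t ht => ?_)
    have ht1 := hspec t ht
    rcases le_total t 0 with h0 | h0
    · simp [max_eq_right h0]
    · rw [max_eq_left h0]
      nlinarith [mul_nonneg h0 (sub_nonneg.2 ht1), mul_nonneg h0 h0]
  have hbound : ∀ y : A, y ≤ ε • (1 - h) → a * y * a ≤ algebraMap ℝ A ε := by
    intro y hy
    have e1 : a * y * a ≤ a * (ε • (1 - h)) * a := by
      have := star_left_conjugate_le_conjugate hy a
      rwa [hasa.star_eq] at this
    have e2 : a * (ε • (1 - h)) * a = ε • (a * (1 - h) * a) := by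
      rw [mul_smul_comm, smul_mul_assoc]
    rw [e2] at e1
    refine e1.trans ?_
    rw [Algebra.algebraMap_eq_smul_one]
    exact smul_le_smul_of_nonneg_left hk hε.le
  have hsa : IsSelfAdjoint (a * x * a) := by
    have := hx.conjugate' a
    rwa [hasa.star_eq] at this
  have hb1 := hbound x hx1
  have hb2 : -(a * x * a) ≤ algebraMap ℝ A ε := by
    have := hbound (-x) hx2
    simpa using this
  exact norm_le_of_le_of_neg_le hsa hε.le hb1 hb2

/-- (E3) excision of pure functionals -/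
theorem pure_excision {φ : A →ₚ[ℂ] ℂ} (hφ : IsPureFun φ) (hφ1 : φ 1 = 1) (F : Finset A) {ε : ℝ}
    (hε : 0 < ε) :
    ∃ a : A, 0 ≤ a ∧ a ≤ 1 ∧ 1 - ε ≤ (φ a).re ∧ ∀ b ∈ F, ‖a * (b - φ b • (1 : A)) * a‖ ≤ ε := by
  classical
  -- the self-adjoint elements with value zero
  let r : A → A := fun b => (realPart b : A) - ((φ (realPart b : A)).re : ℝ) • (1 : A)
  let i : A → A := fun b => (imaginaryPart b : A) - ((φ (imaginaryPart b : A)).re : ℝ) • (1 : A)
  have hsa_re : ∀ b : A, IsSelfAdjoint (realPart b : A) := fun b => (realPart b).2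
  have hsa_im : ∀ b : A, IsSelfAdjoint (imaginaryPart b : A) := fun b => (imaginaryPart b).2
  have hone : IsSelfAdjoint (1 : A) := IsSelfAdjoint.one A
  have hr : ∀ b, IsSelfAdjoint (r b) := fun b =>
    (hsa_re b).sub ((IsSelfAdjoint.all _).smul hone)
  have hi : ∀ b, IsSelfAdjoint (i b) := fun b =>
    (hsa_im b).sub ((IsSelfAdjoint.all _).smul hone)
  have hφsa : ∀ x : A, IsSelfAdjoint x → φ x = ((φ x).re : ℂ) := by
    intro x hx
    have h1 : star (φ x) = φ x := by rw [← map_star, hx.star_eq]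
    exact (Complex.conj_eq_iff_re.1 h1).symm
  have hsm : ∀ (t : ℝ), φ (t • (1 : A)) = (t : ℂ) := by
    intro t
    rw [φ.map_smul_of_tower, hφ1]; simp
  have hr0 : ∀ b, φ (r b) = 0 := fun b => by
    simp only [r, map_sub, hsm]
    rw [← hφsa _ (hsa_re b)]; simp
  have hi0 : ∀ b, φ (i b) = 0 := fun b => by
    simp only [i, map_sub, hsm]
    rw [← hφsa _ (hsa_im b)]; simp
  let δ : ℝ := ε / 2
  have hδ : 0 < δ := half_pos hε
  let c : A → A := fun x => 1 - δ⁻¹ • x
  let S : Finset A := (F.image fun b => c (r b)) ∪ (F.image fun b => c (-(r b))) ∪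
    (F.image fun b => c (i b)) ∪ (F.image fun b => c (-(i b)))
  have hc : ∀ x : A, IsSelfAdjoint x → φ x = 0 → IsSelfAdjoint (c x) ∧ (1 : ℝ) ≤ (φ (c x)).re := by
    intro x hx hx0
    refine ⟨hone.sub ((IsSelfAdjoint.all _).smul hx), ?_⟩
    simp only [c, map_sub, hφ1, φ.map_smul_of_tower, hx0]
    simp
  have hneg : ∀ x : A, φ x = 0 → φ (-x) = 0 := fun x hx => by rw [map_neg, hx, neg_zero]
  obtain ⟨h, hsa, h1, hle, hval⟩ := pure_lower_bound hφ (m := 1) (1 : A) hone
    (by rw [hφ1]; simp) S (by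
      intro x hx
      simp only [S, Finset.mem_union, Finset.mem_image] at hx
      rcases hx with ((⟨b, -, rfl⟩ | ⟨b, -, rfl⟩) | ⟨b, -, rfl⟩) | ⟨b, -, rfl⟩
      · exact hc _ (hr b) (hr0 b)
      · exact hc _ (hr b).neg (hneg _ (hr0 b))
      · exact hc _ (hi b) (hi0 b)
      · exact hc _ (hi b).neg (hneg _ (hi0 b))) ε hε
  set a := cfc (fun t : ℝ => max t 0) h with ha
  have hkey : ∀ x : A, h ≤ c x → x ≤ δ • (1 - h) := by
    intro x hx
    have e1 : δ⁻¹ • x ≤ 1 - h := by
      have h2 : h + δ⁻¹ • x ≤ 1 := by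
        have := add_le_add_left hx (δ⁻¹ • x)
        simpa [c] using this
      exact le_sub_iff_add_le'.2 h2
    have e2 := smul_le_smul_of_nonneg_left e1 hδ.le
    rwa [smul_smul, mul_inv_cancel₀ hδ.ne', one_smul] at e2
  refine ⟨a, cfc_nonneg fun t _ => le_max_right _ _, ?_, ?_, ?_⟩
  · refine cfc_le_one _ _ fun t ht => ?_
    have := (le_algebraMap_iff_spectrum_le (R := ℝ) (r := 1) (a := h) hsa).1 (by simpa using h1) t ht
    exact max_le this zero_le_one
  · have hha : h ≤ a := by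
      have h2 : cfc (fun t : ℝ => t) h ≤ a :=
        cfc_mono (fun t _ => le_max_left _ _) (by fun_prop) (by fun_prop)
      rwa [cfc_id' ℝ h hsa] at h2
    have h3 := (Complex.le_def.1 (OrderHomClass.mono φ hha)).1
    linarith
  · intro b hb
    have hmem1 : c (r b) ∈ S := Finset.mem_union_left _ (Finset.mem_union_left _
      (Finset.mem_union_left _ (Finset.mem_image_of_mem (fun b => c (r b)) hb)))
    have hmem2 : c (-(r b)) ∈ S := Finset.mem_union_left _ (Finset.mem_union_left _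
      (Finset.mem_union_right _ (Finset.mem_image_of_mem (fun b => c (-(r b))) hb)))
    have hmem3 : c (i b) ∈ S := Finset.mem_union_left _ (Finset.mem_union_right _
      (Finset.mem_image_of_mem (fun b => c (i b)) hb))
    have hmem4 : c (-(i b)) ∈ S := Finset.mem_union_right _
      (Finset.mem_image_of_mem (fun b => c (-(i b))) hb)
    have n1 : ‖a * r b * a‖ ≤ δ := norm_cfc_conj_le hsa h1 hδ (hr b) (hkey _ (hle _ hmem1))
      (hkey _ (hle _ hmem2))
    have n2 : ‖a * i b * a‖ ≤ δ := norm_cfc_conj_le hsa h1 hδ (hi b) (hkey _ (hle _ hmem3))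
      (hkey _ (hle _ hmem4))
    have hb' : b - φ b • (1 : A) = r b + Complex.I • i b := by
      have e1 : (realPart b : A) + Complex.I • (imaginaryPart b : A) = b :=
        realPart_add_I_smul_imaginaryPart b
      have e2 : φ b = ((φ (realPart b : A)).re : ℂ) +
          Complex.I * ((φ (imaginaryPart b : A)).re : ℂ) := by
        rw [← hφsa _ (hsa_re b), ← hφsa _ (hsa_im b)]
        conv_lhs => rw [← e1]
        rw [map_add, map_smul, smul_eq_mul]
      have e3 : b - φ b • (1 : A) = ((realPart b : A) + Complex.I • (imaginaryPart b : A)) -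
          (((φ (realPart b : A)).re : ℂ) + Complex.I * ((φ (imaginaryPart b : A)).re : ℂ)) •
            (1 : A) := by rw [e1, ← e2]
      rw [e3]
      simp only [r, i]
      rw [smul_sub, add_smul, mul_smul]
      simp only [Complex.coe_smul]
      abel
    rw [hb', mul_add, add_mul, mul_smul_comm, smul_mul_assoc]
    calc ‖a * r b * a + Complex.I • (a * i b * a)‖
        ≤ ‖a * r b * a‖ + ‖Complex.I • (a * i b * a)‖ := norm_add_le _ _
      _ ≤ δ + δ := by
          rw [norm_smul, Complex.norm_I, one_mul]; exact add_le_add n1 n2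
      _ = ε := by simp only [δ]; ring

end

end Crest.Agent.R120.Irr
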