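import Mathlib
import Crest.Agent.R120.TypeI

-- ▼ part R120/BasicCore
section

set_option autoImplicit false

namespace Crest.Agent.R120.BC

open scoped ComplexOrder

variable {M : Type*} [CStarAlgebra M]

/-- `P` a projection, `G` a self-adjoint unitary, `G = P G + G P`. -/
structure FreeInv (P G : M) : Prop where
  P_sa : star P = P
  P_idem : P * P = P
  G_sa : star G = G
  G_sq : G * G = 1
  split : G = P * G + G * P

namespace FreeInv

variable {P G : M}


lemma norm_G_le (h : FreeInv P G) : ‖G‖ ≤ 1 := by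
  have h1 : ‖G‖ * ‖G‖ = ‖(1 : M)‖ := by
    rw [← CStarRing.norm_star_mul_self, h.G_sa, h.G_sq]
  rcases subsingleton_or_nontrivial M with hM | hM
  · rw [Subsingleton.elim G 0]; simp
  · rw [CStarRing.norm_one] at h1
    nlinarith [norm_nonneg G]

end FreeInv

lemma norm_proj_le {P : M} (h1 : star P = P) (h2 : P * P = P) : ‖P‖ ≤ 1 := by
  have h3 : ‖P‖ * ‖P‖ = ‖P‖ := by
    rw [← CStarRing.norm_star_mul_self, h1, h2]
  nlinarith [norm_nonneg P]

/-- Compressing a free conjugate by a projection almost orthogonal to `P`. -/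
lemma core_diag {P G p x : M} {δ : ℝ} (h : FreeInv P G) (hp : star p = p) (hp2 : p * p = p)
    (hδ : ‖p * P‖ ≤ δ) (hx : P * x * P = 0) : ‖p * G * x * G * p‖ ≤ 2 * δ * ‖x‖ := by
  have hG := h.norm_G_le
  have hpn := norm_proj_le hp hp2
  have hδ0 : 0 ≤ δ := (norm_nonneg _).trans hδ
  have hPp : ‖P * p‖ ≤ δ := by
    rw [← norm_star, star_mul, hp, h.P_sa]; exact hδ
  have e : p * G * x * G * p = (p * P) * (G * x * G * p) + (p * (G * P) * x * G) * (P * p) := by
    have e1 : p * G * x * G * p = p * (P * G + G * P) * x * (P * G + G * P) * p := by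
      rw [← h.split]
    have e2 : (p * P) * (G * x * G * p) = p * P * G * x * (P * G + G * P) * p := by
      rw [← h.split]; simp only [mul_assoc]
    have e3 : p * G * P * x * P * G * p = 0 := by
      have : p * G * P * x * P * G * p = p * G * (P * x * P) * G * p := by simp only [mul_assoc]
      rw [this, hx]; simp
    rw [e1, e2]
    simp only [mul_add, add_mul, ← mul_assoc]
    rw [e3]
    abel
  rw [e]
  refine (norm_add_le _ _).trans ?_
  have b1 : ‖(p * P) * (G * x * G * p)‖ ≤ δ * ‖x‖ := by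
    refine (norm_mul_le _ _).trans ?_
    refine mul_le_mul hδ ?_ (norm_nonneg _) hδ0
    calc ‖G * x * G * p‖ ≤ ‖G‖ * ‖x‖ * ‖G‖ * ‖p‖ := by
          refine (norm_mul_le _ _).trans ?_
          gcongr
          refine (norm_mul_le _ _).trans ?_
          gcongr
          exact norm_mul_le _ _
      _ ≤ 1 * ‖x‖ * 1 * 1 := by gcongr
      _ = ‖x‖ := by ring
  have b2 : ‖(p * (G * P) * x * G) * (P * p)‖ ≤ δ * ‖x‖ := by
    refine (norm_mul_le _ _).trans ?_
    rw [mul_comm δ]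
    refine mul_le_mul ?_ hPp (norm_nonneg _) (norm_nonneg _)
    have hP := norm_proj_le h.P_sa h.P_idem
    calc ‖p * (G * P) * x * G‖ ≤ ‖p‖ * (‖G‖ * ‖P‖) * ‖x‖ * ‖G‖ := by
          refine (norm_mul_le _ _).trans ?_
          gcongr
          refine (norm_mul_le _ _).trans ?_
          gcongr
          refine (norm_mul_le _ _).trans ?_
          gcongr
          exact norm_mul_le _ _
      _ ≤ 1 * (1 * 1) * ‖x‖ * 1 := by gcongr
      _ = ‖x‖ := by ring
  linarith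

/-- Compressing a mixed product. -/
lemma core_off {P₁ G₁ P₂ G₂ p x : M} {δ β : ℝ} (h₁ : FreeInv P₁ G₁) (h₂ : FreeInv P₂ G₂)
    (hp : star p = p) (hp2 : p * p = p) (hδ₁ : ‖p * P₁‖ ≤ δ) (hδ₂ : ‖p * P₂‖ ≤ δ)
    (hx : P₁ * x * P₂ = 0) (hx1 : ‖x‖ ≤ 1) (hl : ‖P₁ * x‖ ≤ β) (hr : ‖x * P₂‖ ≤ β) :
    ‖p * G₁ * x * G₂ * p‖ ≤ 2 * δ * β + δ ^ 2 := by
  have hG1 := h₁.norm_G_le
  have hG2 := h₂.norm_G_le
  have hpn := norm_proj_le hp hp2
  have hδ0 : 0 ≤ δ := (norm_nonneg _).trans hδ₁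
  have hβ0 : 0 ≤ β := (norm_nonneg _).trans hl
  have hPp : ‖P₂ * p‖ ≤ δ := by
    rw [← norm_star, star_mul, hp, h₂.P_sa]; exact hδ₂
  have e : p * G₁ * x * G₂ * p = (p * P₁) * G₁ * (x * P₂) * (G₂ * p)
      + (p * P₁) * G₁ * x * G₂ * (P₂ * p) + (p * G₁) * (P₁ * x) * G₂ * (P₂ * p) := by
    have e1 : p * G₁ * x * G₂ * p = p * (P₁ * G₁ + G₁ * P₁) * x * (P₂ * G₂ + G₂ * P₂) * p := by
      rw [← h₁.split, ← h₂.split]
    have e3 : p * G₁ * P₁ * x * P₂ * G₂ * p = 0 := by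
      have : p * G₁ * P₁ * x * P₂ * G₂ * p = p * G₁ * (P₁ * x * P₂) * G₂ * p := by
        simp only [mul_assoc]
      rw [this, hx]; simp
    rw [e1]
    simp only [mul_add, add_mul, ← mul_assoc]
    rw [e3]
    abel
  rw [e]
  have b1 : ‖(p * P₁) * G₁ * (x * P₂) * (G₂ * p)‖ ≤ δ * β := by
    calc ‖(p * P₁) * G₁ * (x * P₂) * (G₂ * p)‖ ≤ ‖p * P₁‖ * ‖G₁‖ * ‖x * P₂‖ * (‖G₂‖ * ‖p‖) := by
          refine (norm_mul_le _ _).trans ?_
          gcongr
          · refine (norm_mul_le _ _).trans ?_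
            gcongr
            exact norm_mul_le _ _
          · exact norm_mul_le _ _
      _ ≤ δ * 1 * β * (1 * 1) := by gcongr
      _ = δ * β := by ring
  have b2 : ‖(p * P₁) * G₁ * x * G₂ * (P₂ * p)‖ ≤ δ ^ 2 := by
    calc ‖(p * P₁) * G₁ * x * G₂ * (P₂ * p)‖ ≤ ‖p * P₁‖ * ‖G₁‖ * ‖x‖ * ‖G₂‖ * ‖P₂ * p‖ := by
          refine (norm_mul_le _ _).trans ?_
          gcongr
          refine (norm_mul_le _ _).trans ?_
          gcongr
          refine (norm_mul_le _ _).trans ?_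
          gcongr
          exact norm_mul_le _ _
      _ ≤ δ * 1 * 1 * 1 * δ := by gcongr
      _ = δ ^ 2 := by ring
  have b3 : ‖(p * G₁) * (P₁ * x) * G₂ * (P₂ * p)‖ ≤ δ * β := by
    calc ‖(p * G₁) * (P₁ * x) * G₂ * (P₂ * p)‖ ≤ (‖p‖ * ‖G₁‖) * ‖P₁ * x‖ * ‖G₂‖ * ‖P₂ * p‖ := by
          refine (norm_mul_le _ _).trans ?_
          gcongr
          refine (norm_mul_le _ _).trans ?_
          gcongr
          refine (norm_mul_le _ _).trans ?_
          gcongr
          exact norm_mul_le _ _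
      _ ≤ (1 * 1) * β * 1 * δ := by gcongr
      _ = δ * β := by ring
  refine (norm_add₃_le).trans ?_
  linarith

end Crest.Agent.R120.BC
end

-- ▼ part R120/BasicCore2
section

set_option autoImplicit false

namespace Crest.Agent.R120.BC

open scoped ComplexOrder

variable {M : Type*} [CStarAlgebra M] [PartialOrder M] [StarOrderedRing M]

lemma neg_norm_smul_le_conj {p w : M} (hp : star p = p) (hp2 : p * p = p) (hw : star w = w)
    (hpw : p * w * p = w) {r : ℝ} (hr : ‖w‖ ≤ r) : -(r • p) ≤ w := by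
  have h1 : star p * (-w) * p ≤ ‖-w‖ • (star p * p) :=
    CStarAlgebra.star_left_conjugate_le_norm_smul (a := p) (b := -w)
      (hb := by rw [isSelfAdjoint_iff, star_neg, hw])
  rw [hp, hp2, norm_neg, mul_neg, neg_mul, hpw] at h1
  have h2 : ‖w‖ • p ≤ r • p := by
    have hp0 : 0 ≤ p := by
      have := star_mul_self_nonneg p
      rwa [hp, hp2] at this
    exact smul_le_smul_of_nonneg_right hr hp0
  exact neg_le.mp (h1.trans h2)

/-- The lower bound `T* T ≥ (c₁/2) p`. -/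
lemma core_lower {P₁ G₁ P₂ G₂ p A₁ b₂ : M} {δ β c₁ m : ℝ} (h₁ : FreeInv P₁ G₁)
    (h₂ : FreeInv P₂ G₂)
    (hp : star p = p) (hp2 : p * p = p) (hδ₁ : ‖p * P₁‖ ≤ δ) (hδ₂ : ‖p * P₂‖ ≤ δ)
    (hA : star A₁ = A₁) (hA1 : ‖A₁‖ ≤ 1) (hb1 : ‖b₂‖ ≤ 1)
    (hx : P₁ * (A₁ * A₁ * b₂) * P₂ = 0) (hl : ‖P₁ * (A₁ * A₁ * b₂)‖ ≤ β)
    (hr : ‖(A₁ * A₁ * b₂) * P₂‖ ≤ β) (hm : 0 ≤ m) (hc₀ : 0 ≤ c₁) (hc₁ : c₁ ≤ 1)
    (hdiag : P₁ * (A₁ * A₁ - c₁ • (1 : M)) * P₁ = 0)
    (hsmall : 4 * δ + 2 * m * (2 * δ * β + δ ^ 2) ≤ c₁ / 2) :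
    (c₁ / 2) • p ≤ star (A₁ * G₁ * p + m • (A₁ * b₂ * G₂ * p)) *
      (A₁ * G₁ * p + m • (A₁ * b₂ * G₂ * p)) := by
  set Y := A₁ * b₂ * G₂ * p with hY
  set Z := p * G₁ * (A₁ * A₁ * b₂) * G₂ * p with hZ
  set D := p * G₁ * (A₁ * A₁ - c₁ • (1 : M)) * G₁ * p with hD
  have hδ0 : 0 ≤ δ := (norm_nonneg _).trans hδ₁
  have hβ0 : 0 ≤ β := (norm_nonneg _).trans hl
  have e : star (A₁ * G₁ * p + m • Y) * (A₁ * G₁ * p + m • Y) =
      c₁ • p + (m ^ 2) • (star Y * Y) + (D + m • (Z + star Z)) := by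
    have e1 : star (A₁ * G₁ * p) * (A₁ * G₁ * p) = c₁ • p + D := by
      have : p * G₁ * (c₁ • (1 : M)) * G₁ * p = c₁ • p := by
        rw [mul_smul_comm, mul_one, smul_mul_assoc, smul_mul_assoc, mul_assoc p G₁ G₁, h₁.G_sq,
          mul_one, hp2]
      rw [hD, mul_sub, sub_mul, sub_mul, this]
      simp only [star_mul, hp, hA, h₁.G_sa, mul_assoc]
      abel
    have e2 : star (A₁ * G₁ * p) * Y = Z := by
      simp only [hY, hZ, star_mul, hp, hA, h₁.G_sa, mul_assoc]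
    have e3 : star Y * (A₁ * G₁ * p) = star Z := by
      rw [← e2, star_mul (star (A₁ * G₁ * p)) Y, star_star]
    rw [star_add, star_smul, star_trivial m, add_mul, mul_add, mul_add, e1]
    simp only [smul_mul_assoc, mul_smul_comm, smul_smul, e2, e3]
    rw [smul_add, ← pow_two]
    abel
  rw [e]
  have nA : ‖A₁ * A₁‖ ≤ 1 := (norm_mul_le _ _).trans (mul_le_one₀ hA1 (norm_nonneg _) hA1)
  have nx : ‖A₁ * A₁ * b₂‖ ≤ 1 := (norm_mul_le _ _).trans (mul_le_one₀ nA (norm_nonneg _) hb1)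
  have nD : ‖D‖ ≤ 4 * δ := by
    have h := core_diag h₁ hp hp2 hδ₁ hdiag
    have hn : ‖A₁ * A₁ - c₁ • (1 : M)‖ ≤ 2 := by
      refine (norm_sub_le _ _).trans ?_
      have : ‖c₁ • (1 : M)‖ ≤ 1 := by
        rw [norm_smul, Real.norm_of_nonneg hc₀]
        rcases subsingleton_or_nontrivial M with hM | hM
        · rw [Subsingleton.elim (1 : M) 0]; simp
        · rw [CStarRing.norm_one]; linarith
      linarith
    nlinarith
  have nZ : ‖Z‖ ≤ 2 * δ * β + δ ^ 2 := core_off h₁ h₂ hp hp2 hδ₁ hδ₂ hx nx hl hr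
  have nW : ‖D + m • (Z + star Z)‖ ≤ c₁ / 2 := by
    refine (norm_add_le _ _).trans ?_
    rw [norm_smul, Real.norm_of_nonneg hm]
    have : ‖Z + star Z‖ ≤ 2 * (2 * δ * β + δ ^ 2) := by
      refine (norm_add_le _ _).trans ?_
      rw [norm_star]; linarith
    nlinarith
  have hWsa : star (D + m • (Z + star Z)) = D + m • (Z + star Z) := by
    have : star D = D := by
      simp only [hD, star_mul, hp, h₁.G_sa, star_sub, hA, star_smul, star_one, star_trivial,
        mul_assoc]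
    rw [star_add, this, star_smul, star_trivial m, star_add, star_star, add_comm (star Z) Z]
  have hpW : p * (D + m • (Z + star Z)) * p = D + m • (Z + star Z) := by
    have a1 : p * D * p = D := by
      have : p * D * p = (p * p) * G₁ * (A₁ * A₁ - c₁ • (1 : M)) * G₁ * (p * p) := by
        simp only [hD, mul_assoc]
      rw [this, hp2]
    have a2 : p * Z * p = Z := by
      have : p * Z * p = (p * p) * G₁ * (A₁ * A₁ * b₂) * G₂ * (p * p) := by
        simp only [hZ, mul_assoc]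
      rw [this, hp2]
    have a3 : p * star Z * p = star Z := by
      have := congrArg star a2
      rw [star_mul, star_mul, hp, ← mul_assoc] at this
      exact this
    rw [mul_add, add_mul, a1, mul_smul_comm, smul_mul_assoc, mul_add, add_mul, a2, a3]
  have key := neg_norm_smul_le_conj hp hp2 hWsa hpW nW
  have hYY : 0 ≤ (m ^ 2) • (star Y * Y) := smul_nonneg (sq_nonneg m) (star_mul_self_nonneg Y)
  calc (c₁ / 2) • p = c₁ • p + 0 + -((c₁ / 2) • p) := by
        rw [add_zero, ← sub_eq_add_neg, ← sub_smul]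
        congr 1; ring
    _ ≤ c₁ • p + (m ^ 2) • (star Y * Y) + (D + m • (Z + star Z)) := by
        gcongr

end Crest.Agent.R120.BC
end

-- ▼ part R120/BasicCore3
section

set_option autoImplicit false

namespace Crest.Agent.R120.BC

open scoped ComplexOrder

variable {M : Type*} [CStarAlgebra M] [PartialOrder M] [StarOrderedRing M]

/-- inverse square root of an element bounded below -/
lemma exists_inv_sqrt {R : M} {c : ℝ} (hR : IsSelfAdjoint R) (hc : 0 < c)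
    (hcR : c • (1 : M) ≤ R) {S : StarSubalgebra ℂ M} (hS : IsClosed (S : Set M)) (hRS : R ∈ S) :
    ∃ r ∈ S, star r = r ∧ r * r * R = 1 ∧ ∀ x : M, Commute R x → Commute r x := by
  have hsp : ∀ x ∈ spectrum ℝ R, c ≤ x := by
    rw [← algebraMap_le_iff_le_spectrum (a := R) (ha := hR), Algebra.algebraMap_eq_smul_one]
    exact hcR
  have hcont : ContinuousOn (fun x : ℝ => (√x)⁻¹) (spectrum ℝ R) := by
    apply ContinuousOn.inv₀
    · exact Real.continuous_sqrt.continuousOn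
    · intro x hx
      exact (Real.sqrt_pos.mpr (hc.trans_le (hsp x hx))).ne'
  refine ⟨cfc (fun x : ℝ => (√x)⁻¹) R, ?_, ?_, ?_, ?_⟩
  · have : IsClosed (S : Set M) := hS
    exact cfc_mem (fun x : ℝ => (√x)⁻¹) hRS
  · exact (cfc_predicate (fun x : ℝ => (√x)⁻¹) R).star_eq
  · rw [← cfc_mul _ _ R hcont hcont]
    nth_rewrite 2 [← cfc_id' ℝ R]
    rw [← cfc_mul (fun x : ℝ => (√x)⁻¹ * (√x)⁻¹) (fun x : ℝ => x) R (hcont.mul hcont)
      continuousOn_id]
    rw [← cfc_const_one ℝ R]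
    apply cfc_congr
    intro x hx
    have hx0 : 0 < x := hc.trans_le (hsp x hx)
    have h2 : √x ≠ 0 := (Real.sqrt_pos.mpr hx0).ne'
    have h3 : √x * √x = x := Real.mul_self_sqrt hx0.le
    show (√x)⁻¹ * (√x)⁻¹ * x = 1
    nth_rewrite 3 [← h3]
    field_simp
  · intro x hx
    exact hx.cfc_real _

lemma core_polar {p T : M} {c : ℝ} (hp : star p = p) (hp2 : p * p = p) (hTp : T * p = T)
    (hc : 0 < c) (hc1 : c ≤ 1) (hT : c • p ≤ star T * T) {S : StarSubalgebra ℂ M}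
    (hS : IsClosed (S : Set M)) (hpS : p ∈ S) (hTS : T ∈ S) :
    ∃ r ∈ S, star (T * r) * (T * r) = p ∧ (T * r) * star (T * r) * T = T := by
  set R := star T * T + (1 - p) with hR
  have hpT : p * star T = star T := by
    have := congrArg star hTp
    rwa [star_mul, hp] at this
  have hRsa : IsSelfAdjoint R := by
    rw [isSelfAdjoint_iff, hR, star_add, star_mul, star_star, star_sub, star_one, hp]
  have hpp : (1 - p) * (1 - p) = 1 - p := IsIdempotentElem.one_sub hp2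
  have h1p : 0 ≤ (1 - p) := by
    have : star (1 - p) * (1 - p) = 1 - p := by
      rw [star_sub, star_one, hp, hpp]
    rw [← this]; exact star_mul_self_nonneg _
  have hcR : c • (1 : M) ≤ R := by
    have h2 : c • (1 - p) ≤ (1 : ℝ) • (1 - p) := smul_le_smul_of_nonneg_right hc1 h1p
    rw [one_smul, smul_sub] at h2
    calc c • (1 : M) = c • p + (c • (1 : M) - c • p) := by abel
      _ ≤ R := add_le_add hT h2
  have hRS : R ∈ S := add_mem (mul_mem (star_mem hTS) hTS) (sub_mem (one_mem S) hpS)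
  obtain ⟨r, hrS, hrsa, hrR, hrc⟩ := exists_inv_sqrt hRsa hc hcR hS hRS
  have hRp : (1 - p) * R = 1 - p := by
    rw [hR, mul_add, ← mul_assoc, sub_mul, one_mul, hpT, sub_self, zero_mul, zero_add, hpp]
  have hRp' : R * (1 - p) = 1 - p := by
    have := congrArg star hRp
    rwa [star_mul, star_sub, star_one, hp, hRsa.star_eq] at this
  have hcomm : Commute R (1 - p) := by
    rw [commute_iff_eq, hRp, hRp']
  have hrcomm : Commute r (1 - p) := hrc _ hcomm
  have hrRc : Commute r R := hrc _ (Commute.refl R)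
  have hr2p : r * r * (1 - p) = 1 - p := by
    calc r * r * (1 - p) = r * r * (R * (1 - p)) := by rw [hRp']
      _ = r * r * R * (1 - p) := by rw [mul_assoc (r * r)]
      _ = 1 - p := by rw [hrR, one_mul]
  have hTT : star T * T = R - (1 - p) := by rw [hR]; abel
  refine ⟨r, hrS, ?_, ?_⟩
  · rw [star_mul, hrsa]
    calc r * star T * (T * r) = r * (star T * T) * r := by simp only [mul_assoc]
      _ = r * R * r - r * (1 - p) * r := by rw [hTT, mul_sub, sub_mul]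
      _ = r * r * R - r * r * (1 - p) := by
          rw [mul_assoc r R r, ← hrRc.eq, ← mul_assoc, mul_assoc r (1 - p) r, ← hrcomm.eq,
            ← mul_assoc]
      _ = p := by rw [hrR, hr2p]; abel
  · rw [star_mul, hrsa]
    calc T * r * (r * star T) * T = T * (r * r * (star T * T)) := by simp only [mul_assoc]
      _ = T * (r * r * R - r * r * (1 - p)) := by rw [hTT, mul_sub]
      _ = T * p := by rw [hrR, hr2p]; congr 1; abel
      _ = T := hTp

end Crest.Agent.R120.BC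
end

-- ▼ part R120/BasicCore4
section

set_option autoImplicit false

namespace Crest.Agent.R120.BC

open scoped ComplexOrder

variable {M : Type*} [CStarAlgebra M]

/-- A seminorm compatible with left multiplication (for instance `Z ↦ ψ((Zs)*(Zs))^{1/2}`). -/
structure LSN (N : M → ℝ) : Prop where
  nonneg : ∀ x, 0 ≤ N x
  add : ∀ x y, N (x + y) ≤ N x + N y
  mul : ∀ x y, N (x * y) ≤ ‖x‖ * N y

namespace LSN

variable {N : M → ℝ}

lemma zero (h : LSN N) : N 0 = 0 := by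
  have h1 := h.mul 0 0
  rw [norm_zero, zero_mul, zero_mul] at h1
  exact le_antisymm h1 (h.nonneg 0)

lemma smul_le (h : LSN N) (r : ℝ) (x : M) : N (r • x) ≤ |r| * N x := by
  have h1 := h.mul (r • (1 : M)) x
  rw [smul_mul_assoc, one_mul] at h1
  refine h1.trans ?_
  have h2 : ‖r • (1 : M)‖ ≤ |r| := by
    rw [norm_smul, Real.norm_eq_abs]
    rcases subsingleton_or_nontrivial M with hM | hM
    · rw [Subsingleton.elim (1 : M) 0]; simp
    · rw [CStarRing.norm_one, mul_one]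
  exact mul_le_mul_of_nonneg_right h2 (h.nonneg x)

lemma neg_le (h : LSN N) (x : M) : N (-x) ≤ N x := by
  have := h.smul_le (-1) x
  simpa using this

lemma sub_le (h : LSN N) (x y : M) : N (x - y) ≤ N x + N y := by
  rw [sub_eq_add_neg]
  exact (h.add _ _).trans (by linarith [h.neg_le y])

lemma mul_le' (h : LSN N) (x y : M) {c : ℝ} (hx : ‖x‖ ≤ c) : N (x * y) ≤ c * N y :=
  (h.mul x y).trans (mul_le_mul_of_nonneg_right hx (h.nonneg y))

lemma mul_zero' (h : LSN N) (x : M) {y : M} (hy : N y = 0) : N (x * y) = 0 := by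
  have := h.mul x y
  rw [hy, mul_zero] at this
  exact le_antisymm this (h.nonneg _)

end LSN

lemma conj_expand {P G x : M} (h : FreeInv P G) (hx : P * x * P = 0) :
    G * x * G = P * G * x * G + G * P * x * G * P := by
  have e3 : G * P * x * P * G = 0 := by
    have : G * P * x * P * G = G * (P * x * P) * G := by simp only [mul_assoc]
    rw [this, hx]; simp
  calc G * x * G = (P * G + G * P) * x * G := by rw [← h.split]
    _ = P * G * x * G + G * P * x * G := by rw [add_mul, add_mul]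
    _ = P * G * x * G + G * P * x * (P * G + G * P) := by rw [← h.split]
    _ = P * G * x * G + (G * P * x * P * G + G * P * x * G * P) := by
        rw [mul_add]; simp only [mul_assoc]
    _ = _ := by rw [e3, zero_add]

/-- The estimate of `1 - v v*` in the seminorm of the state. -/
lemma core_est {P₂ G₁ G₂ p A₁ b₂ E : M} {δ β t m : ℝ} {N : M → ℝ} (hN : LSN N)
    (h₂ : FreeInv P₂ G₂) (hG₁ : ‖G₁‖ ≤ 1)
    (hp2 : p * p = p) (hδ₂ : ‖p * P₂‖ ≤ δ)
    (hA1 : ‖A₁‖ ≤ 1) (hb : ‖A₁ * b₂ * P₂‖ ≤ β)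
    (ht : 0 < t) (hm : 0 < m) (hp0 : P₂ * (p - t • (1 : M)) * P₂ = 0)
    (hE : ‖E‖ ≤ 1) (hET : E * (A₁ * G₁ * p + m • (A₁ * b₂ * G₂ * p)) = 0)
    (hN1 : N 1 ≤ 1) (hNP : N P₂ = 0) :
    N E ≤ N (1 - A₁) + N (1 - b₂) + (m * t)⁻¹ * δ + t⁻¹ * (β * (δ + t)) := by
  set T := A₁ * G₁ * p + m • (A₁ * b₂ * G₂ * p) with hT
  set p0 := p - t • (1 : M) with hp0d
  have hδ0 : 0 ≤ δ := (norm_nonneg _).trans hδ₂
  have hβ0 : 0 ≤ β := (norm_nonneg _).trans hb
  have hG2 := h₂.norm_G_le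
  have hNG : N G₂ ≤ 1 := by
    have := hN.mul_le' G₂ 1 hG2
    rw [mul_one, one_mul] at this
    exact this.trans hN1
  have hNpG : N (p * G₂) ≤ δ := by
    have e : p * G₂ = (p * P₂) * G₂ + (p * G₂) * P₂ := by
      nth_rewrite 1 [h₂.split]
      rw [mul_add]; simp only [mul_assoc]
    rw [e]
    refine (hN.add _ _).trans ?_
    rw [hN.mul_zero' _ hNP, add_zero]
    refine (hN.mul_le' _ _ hδ₂).trans ?_
    nlinarith
  have hNp0G : N (p0 * G₂) ≤ δ + t := by
    rw [hp0d, sub_mul, smul_mul_assoc, one_mul]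
    refine (hN.sub_le _ _).trans ?_
    have := hN.smul_le t G₂
    rw [abs_of_pos ht] at this
    nlinarith
  have hmt : 0 < m * t := mul_pos hm ht
  have eGpG : G₂ * p * G₂ = t • (1 : M) + (P₂ * G₂ * p0 * G₂ + G₂ * P₂ * p0 * G₂ * P₂) := by
    rw [← conj_expand h₂ hp0, hp0d, mul_sub, sub_mul, mul_smul_comm, mul_one, smul_mul_assoc,
      h₂.G_sq]
    abel
  have key : E = E * ((1 - A₁) + A₁ * (1 - b₂) - (m * t)⁻¹ • (A₁ * G₁ * (p * G₂))
      - t⁻¹ • ((A₁ * b₂ * P₂) * (G₂ * (p0 * G₂)))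
      - t⁻¹ • ((A₁ * b₂ * G₂ * P₂ * p0 * G₂) * P₂)) := by
    have e1 : T * ((m * t)⁻¹ • (p * G₂)) = (m * t)⁻¹ • (A₁ * G₁ * (p * G₂)) +
        t⁻¹ • (A₁ * b₂ * (G₂ * p * G₂)) := by
      rw [hT, add_mul, mul_smul_comm]
      congr 1
      · congr 1
        calc A₁ * G₁ * p * (p * G₂) = A₁ * G₁ * (p * p) * G₂ := by simp only [mul_assoc]
          _ = _ := by rw [hp2]; simp only [mul_assoc]
      · rw [smul_mul_assoc, mul_smul_comm, smul_smul]
        have : m * (m * t)⁻¹ = t⁻¹ := by field_simp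
        rw [this]
        congr 1
        calc A₁ * b₂ * G₂ * p * (p * G₂) = A₁ * b₂ * G₂ * (p * p) * G₂ := by
              simp only [mul_assoc]
          _ = _ := by rw [hp2]; simp only [mul_assoc]
    have e2 : (1 - A₁) + A₁ * (1 - b₂) - (m * t)⁻¹ • (A₁ * G₁ * (p * G₂))
      - t⁻¹ • ((A₁ * b₂ * P₂) * (G₂ * (p0 * G₂)))
      - t⁻¹ • ((A₁ * b₂ * G₂ * P₂ * p0 * G₂) * P₂) = 1 - T * ((m * t)⁻¹ • (p * G₂)) := by
      rw [e1, eGpG, mul_add, mul_smul_comm, mul_one, smul_add, smul_smul, inv_mul_cancel₀ ht.ne',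
        one_smul, mul_add, smul_add, mul_sub, mul_one]
      simp only [mul_assoc]
      abel
    rw [e2, mul_sub, mul_one, ← mul_assoc, hET, zero_mul, sub_zero]
  rw [key]
  refine (hN.mul_le' _ _ hE).trans ?_
  rw [one_mul]
  have b1 : N (A₁ * (1 - b₂)) ≤ N (1 - b₂) := by
    have := hN.mul_le' A₁ (1 - b₂) hA1
    rwa [one_mul] at this
  have b2 : N ((m * t)⁻¹ • (A₁ * G₁ * (p * G₂))) ≤ (m * t)⁻¹ * δ := by
    refine (hN.smul_le _ _).trans ?_
    rw [abs_of_pos (inv_pos.mpr hmt)]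
    refine mul_le_mul_of_nonneg_left ?_ (inv_pos.mpr hmt).le
    have hAG : ‖A₁ * G₁‖ ≤ 1 := (norm_mul_le _ _).trans (mul_le_one₀ hA1 (norm_nonneg _) hG₁)
    refine (hN.mul_le' _ _ hAG).trans ?_
    rw [one_mul]; exact hNpG
  have b3 : N (t⁻¹ • ((A₁ * b₂ * P₂) * (G₂ * (p0 * G₂)))) ≤ t⁻¹ * (β * (δ + t)) := by
    refine (hN.smul_le _ _).trans ?_
    rw [abs_of_pos (inv_pos.mpr ht)]
    refine mul_le_mul_of_nonneg_left ?_ (inv_pos.mpr ht).le
    refine (hN.mul_le' _ _ hb).trans ?_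
    refine mul_le_mul_of_nonneg_left ?_ hβ0
    refine (hN.mul_le' _ _ hG2).trans ?_
    rw [one_mul]; exact hNp0G
  have b4 : N (t⁻¹ • ((A₁ * b₂ * G₂ * P₂ * p0 * G₂) * P₂)) ≤ 0 := by
    refine (hN.smul_le _ _).trans ?_
    rw [hN.mul_zero' _ hNP, mul_zero]
  calc N ((1 - A₁) + A₁ * (1 - b₂) - (m * t)⁻¹ • (A₁ * G₁ * (p * G₂))
      - t⁻¹ • ((A₁ * b₂ * P₂) * (G₂ * (p0 * G₂)))
      - t⁻¹ • ((A₁ * b₂ * G₂ * P₂ * p0 * G₂) * P₂))
      ≤ N ((1 - A₁) + A₁ * (1 - b₂) - (m * t)⁻¹ • (A₁ * G₁ * (p * G₂))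
      - t⁻¹ • ((A₁ * b₂ * P₂) * (G₂ * (p0 * G₂)))) +
        N (t⁻¹ • ((A₁ * b₂ * G₂ * P₂ * p0 * G₂) * P₂)) := hN.sub_le _ _
    _ ≤ N ((1 - A₁) + A₁ * (1 - b₂) - (m * t)⁻¹ • (A₁ * G₁ * (p * G₂)))
        + N (t⁻¹ • ((A₁ * b₂ * P₂) * (G₂ * (p0 * G₂)))) + 0 := by
        gcongr
        exact hN.sub_le _ _
    _ ≤ N ((1 - A₁) + A₁ * (1 - b₂)) + N ((m * t)⁻¹ • (A₁ * G₁ * (p * G₂)))
        + t⁻¹ * (β * (δ + t)) + 0 := by
        gcongr
        exact hN.sub_le _ _
    _ ≤ N (1 - A₁) + N (A₁ * (1 - b₂)) + (m * t)⁻¹ * δ + t⁻¹ * (β * (δ + t)) + 0 := by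
        gcongr
        exact hN.add _ _
    _ ≤ _ := by linarith

end Crest.Agent.R120.BC
end

-- ▼ part R120/BasicCut
section

set_option autoImplicit false

namespace Crest.Agent.R120.BC

open scoped ComplexOrder

variable {M : Type*} [CStarAlgebra M] [PartialOrder M] [StarOrderedRing M]

/-- functional calculus cut-off of a positive contraction. -/
lemma exists_cut {c : M} (h0 : 0 ≤ c) (h1 : c ≤ 1) {B : StarSubalgebra ℂ M}
    (hB : IsClosed (B : Set M)) (hc : c ∈ B) :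
    ∃ A ∈ B, ∃ g : M, star A = A ∧ 0 ≤ A ∧ A ≤ 1 ∧ star g = g ∧ ‖g‖ ≤ 2 ∧ c * g * A = A ∧
      1 - A ≤ (2 : ℝ) • (1 - c) := by
  have hcsa : IsSelfAdjoint c := .of_nonneg h0
  have hsp1 : ∀ x ∈ spectrum ℝ c, x ≤ 1 := (CFC.le_one_iff c hcsa).mp h1
  have hsp0 : ∀ x ∈ spectrum ℝ c, 0 ≤ x := fun x hx => spectrum_nonneg_of_nonneg h0 hx
  have hf : Continuous (fun t : ℝ => max 0 (2 * t - 1)) := by fun_prop
  have hg : Continuous (fun t : ℝ => (max t (1 / 2))⁻¹) := by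
    refine Continuous.inv₀ (by fun_prop) (fun t => ?_)
    have : (1 / 2 : ℝ) ≤ max t (1 / 2) := le_max_right _ _
    exact (by linarith : (0 : ℝ) < max t (1 / 2)).ne'
  have : IsClosed (B : Set M) := hB
  refine ⟨cfc (fun t : ℝ => max 0 (2 * t - 1)) c, cfc_mem _ hc,
    cfc (fun t : ℝ => (max t (1 / 2))⁻¹) c, ?_, ?_, ?_, ?_, ?_, ?_, ?_⟩
  · exact (cfc_predicate (fun t : ℝ => max 0 (2 * t - 1)) c).star_eq
  · exact cfc_nonneg (fun x _ => le_max_left _ _)
  · rw [cfc_le_one_iff _ c hf.continuousOn hcsa]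
    intro x hx
    have := hsp1 x hx
    exact max_le (by norm_num) (by linarith)
  · exact (cfc_predicate (fun t : ℝ => (max t (1 / 2))⁻¹) c).star_eq
  · refine norm_cfc_le (by norm_num) (fun x hx => ?_)
    have h2 : (1 / 2 : ℝ) ≤ max x (1 / 2) := le_max_right _ _
    have h3 : (0 : ℝ) < max x (1 / 2) := by linarith
    rw [Real.norm_of_nonneg (inv_pos.mpr h3).le]
    rw [inv_le_comm₀ h3 (by norm_num)]
    linarith
  · nth_rewrite 1 [← cfc_id' ℝ c]
    rw [← cfc_mul (fun t : ℝ => t) _ c continuousOn_id hg.continuousOn,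
      ← cfc_mul (fun t : ℝ => t * (max t (1 / 2))⁻¹) _ c (continuousOn_id.mul hg.continuousOn)
        hf.continuousOn]
    apply cfc_congr
    intro x hx
    show x * (max x (1 / 2))⁻¹ * max 0 (2 * x - 1) = max 0 (2 * x - 1)
    rcases le_total x (1 / 2) with h | h
    · rw [max_eq_left (by linarith : 2 * x - 1 ≤ 0), mul_zero]
    · rw [max_eq_left h, mul_inv_cancel₀ (by linarith), one_mul]
  · have e1 : 1 - cfc (fun t : ℝ => max 0 (2 * t - 1)) c =
        cfc (fun t : ℝ => 1 - max 0 (2 * t - 1)) c := by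
      rw [cfc_sub (fun _ => (1 : ℝ)) _ c continuousOn_const hf.continuousOn, cfc_const_one ℝ c]
    have e2 : (2 : ℝ) • (1 - c) = cfc (fun t : ℝ => 2 * (1 - t)) c := by
      rw [cfc_const_mul 2 (fun t : ℝ => 1 - t) c (by fun_prop),
        cfc_sub (fun _ => (1 : ℝ)) (fun t : ℝ => t) c continuousOn_const continuousOn_id,
        cfc_const_one ℝ c, cfc_id' ℝ c]
    rw [e1, e2]
    refine cfc_mono (fun x hx => ?_) (by fun_prop) (by fun_prop)
    have := hsp1 x hx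
    rcases le_total (2 * x - 1) 0 with h | h
    · rw [max_eq_left h]; linarith
    · rw [max_eq_right h]; linarith

end Crest.Agent.R120.BC
end

-- ▼ part R120/BasicLemma

/-!
# The basic lemma (blueprint section 4)
-/

set_option autoImplicit false

namespace Crest.Agent.R120

open scoped ComplexOrder
open Filter Topology

variable {𝔹 : Type} [CStarAlgebra 𝔹] [PartialOrder 𝔹] [StarOrderedRing 𝔹] {X : Type}
variable (M : PP 𝔹 X)

namespace BC

lemma freeInv (x : X) : FreeInv (M.P x) (M.G x) where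
  P_sa := (M.P_proj x).isSelfAdjoint.star_eq
  P_idem := (M.P_proj x).isIdempotentElem.eq
  G_sa := M.G_sa x
  G_sq := M.G_sq x
  split := M.G_eq x

lemma sn_lsn (ψ : 𝔹 →ₚ[ℂ] ℂ) : LSN (sn ψ) := ⟨sn_nonneg ψ, sn_add_le ψ, sn_mul_le ψ⟩

lemma apply_real (ψ : 𝔹 →ₚ[ℂ] ℂ) {x : 𝔹} (hx : star x = x) : ψ x = ((ψ x).re : ℂ) := by
  have h1 := apply_star ψ x
  rw [hx] at h1
  exact (Complex.conj_eq_iff_re.mp h1.symm).symm

omit [StarOrderedRing 𝔹] in
lemma re_mono (ψ : 𝔹 →ₚ[ℂ] ℂ) {x y : 𝔹} (h : x ≤ y) : (ψ x).re ≤ (ψ y).re :=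
  (Complex.le_def.1 (OrderHomClass.mono ψ h)).1

omit [StarOrderedRing 𝔹] in
lemma re_nonneg (ψ : 𝔹 →ₚ[ℂ] ℂ) {x : 𝔹} (h : 0 ≤ x) : 0 ≤ (ψ x).re := by
  have := re_mono ψ h
  simpa using this

/-- The part of the basic lemma after the choice of all parameters. -/
lemma basic_final {Y : Set X} {x₁ x₂ : X} (hx₁ : x₁ ∉ Y) (hx₂ : x₂ ∉ Y) (hne : x₁ ≠ x₂)
    {B S : StarSubalgebra ℂ 𝔹} (hBU : B ≤ M.U Y) (hS : IsClosed (S : Set 𝔹)) (hBS : B ≤ S)
    (hG₁ : M.G x₁ ∈ S) (hG₂ : M.G x₂ ∈ S) {m : ℕ} (hpB : M.p m ∈ B)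
    {A b : 𝔹} (hA : A ∈ B) (hb : b ∈ B) (hAsa : star A = A) (hA1 : ‖A‖ ≤ 1)
    (hb1 : ‖b‖ ≤ 1) {c₁ K : ℝ} (hc₁ : 0 < c₁) (hc₁' : c₁ ≤ 1)
    (hτ : M.τ (A * A) = (c₁ : ℂ)) (hK : 0 < K)
    (hsm : (4 + 2 * K) * √((1 / 2 : ℝ) ^ m) + 4 * K * sn M.τ b ≤ c₁ / 2)
    {ρ : 𝔹 →ₚ[ℂ] ℂ} (hρ : ρ 1 = 1) (hρP : sn ρ (M.P x₂) = 0) :
    ∃ v ∈ S, star v * v = M.p m ∧ (∀ z : 𝔹, z * A = A → z * v = v) ∧
      sn ρ (1 - v * star v) ≤ sn ρ (1 - A) + sn ρ (1 - b) + K⁻¹ +
        sn M.τ b * ((√((1 / 2 : ℝ) ^ m))⁻¹ + 1) := by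
  set t : ℝ := (1 / 2 : ℝ) ^ m with ht
  have ht0 : 0 < t := by positivity
  set δ : ℝ := √t with hδ
  have hδ0 : 0 < δ := Real.sqrt_pos.mpr ht0
  have hδ2 : δ ^ 2 = t := Real.sq_sqrt ht0.le
  set β : ℝ := sn M.τ b with hβ
  have hβ0 : 0 ≤ β := sn_nonneg _ _
  set mm : ℝ := K / δ with hmm
  have hmm0 : 0 < mm := by positivity
  have hp : star (M.p m) = M.p m := (M.p_dec.proj m).isSelfAdjoint.star_eq
  have hp2 : M.p m * M.p m = M.p m := (M.p_dec.proj m).isIdempotentElem.eq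
  have hBuniv : B ≤ M.U Set.univ := hBU.trans (M.U_mono _ _ (Set.subset_univ _))
  have hpP : ∀ x, x ∉ Y → ‖M.p m * M.P x‖ ≤ δ := by
    intro x hx
    rw [M.norm_mul_P hx (hBU hpB)]
    have h1 := sn_proj_sq M.τ (M.p_dec.proj m)
    have h2 : (M.τ (M.p m)).re = t := by
      rw [M.τ_p, ht]
      have : ((1 / 2 : ℂ)) ^ m = (((1 / 2 : ℝ) ^ m : ℝ) : ℂ) := by push_cast; rfl
      rw [this, Complex.ofReal_re]
    rw [h2] at h1
    rw [hδ]
    exact Real.le_sqrt_of_sq_le h1.le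
  have hAA : A * A ∈ B := mul_mem hA hA
  have hAAn : ‖A * A‖ ≤ 1 := (norm_mul_le _ _).trans (mul_le_one₀ hA1 (norm_nonneg _) hA1)
  have hX : A * A * b ∈ B := mul_mem hAA hb
  have hsnX : sn M.τ (A * A * b) ≤ β := by
    refine (sn_mul_le M.τ _ _).trans ?_
    have := mul_le_mul_of_nonneg_right hAAn hβ0
    rwa [one_mul] at this
  have hsnY : sn M.τ (A * b) ≤ β := by
    refine (sn_mul_le M.τ _ _).trans ?_
    have := mul_le_mul_of_nonneg_right hA1 hβ0
    rwa [one_mul] at this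
  have f₁ := freeInv M x₁
  have f₂ := freeInv M x₂
  set T : 𝔹 := A * M.G x₁ * M.p m + mm • (A * b * M.G x₂ * M.p m) with hT
  have hlow : (c₁ / 2) • M.p m ≤ star T * T := by
    refine core_lower (β := β) (δ := δ) f₁ f₂ hp hp2 (hpP x₁ hx₁) (hpP x₂ hx₂) hAsa hA1 hb1
      ?_ ?_ ?_ hmm0.le hc₁.le hc₁' ?_ ?_
    · exact M.PTP_ne Y x₁ x₂ _ hx₁ hx₂ hne (hBU hX)
    · rw [M.norm_P_mul hx₁ (hBU hX)]; exact hsnX
    · rw [M.norm_mul_P hx₂ (hBU hX)]; exact hsnX
    · rw [mul_sub, sub_mul, M.PTP_same Y x₁ _ hx₁ (hBU hAA), hτ, mul_smul_comm, mul_one,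
        smul_mul_assoc, f₁.P_idem, Complex.coe_smul, sub_self]
    · have e : 4 * δ + 2 * mm * (2 * δ * β + δ ^ 2) = (4 + 2 * K) * δ + 4 * K * β := by
        rw [hmm]; field_simp; ring
      rw [e]; exact hsm
  have hTp : T * M.p m = T := by
    rw [hT, add_mul, smul_mul_assoc, mul_assoc _ (M.p m) (M.p m), hp2,
      mul_assoc _ (M.p m) (M.p m), hp2]
  have hTS : T ∈ S := by
    have h1 : A * M.G x₁ * M.p m ∈ S := mul_mem (mul_mem (hBS hA) hG₁) (hBS hpB)
    have h2 : A * b * M.G x₂ * M.p m ∈ S :=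
      mul_mem (mul_mem (mul_mem (hBS hA) (hBS hb)) hG₂) (hBS hpB)
    refine add_mem h1 ?_
    rw [← Complex.coe_smul]
    exact S.smul_mem h2 _
  obtain ⟨r, hrS, hv1, hv2⟩ := core_polar hp hp2 hTp (by positivity) (by linarith) hlow hS
    (hBS hpB) hTS
  have hsub : IsStarProjection (1 - T * r * star (T * r)) := by
    have h1 : IsStarProjection (T * r * star (T * r)) := by
      refine ⟨?_, ?_⟩
      · rw [IsIdempotentElem]
        have hpv : T * r * M.p m = T * r := by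
          have h3 : star (T * r * (1 - M.p m)) * (T * r * (1 - M.p m)) = 0 := by
            rw [star_mul, star_sub, star_one, hp]
            calc (1 - M.p m) * star (T * r) * (T * r * (1 - M.p m))
                = (1 - M.p m) * (star (T * r) * (T * r)) * (1 - M.p m) := by
                  simp only [mul_assoc]
              _ = 0 := by rw [hv1, sub_mul, one_mul, hp2, sub_self, zero_mul]
          have h4 := CStarRing.star_mul_self_eq_zero_iff _ |>.mp h3
          rw [mul_sub, mul_one, sub_eq_zero] at h4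
          exact h4.symm
        calc T * r * star (T * r) * (T * r * star (T * r))
            = T * r * (star (T * r) * (T * r)) * star (T * r) := by simp only [mul_assoc]
          _ = T * r * star (T * r) := by rw [hv1, hpv]
      · rw [isSelfAdjoint_iff, star_mul, star_star]
    exact h1.one_sub
  refine ⟨T * r, mul_mem hTS hrS, hv1, ?_, ?_⟩
  · intro z hz
    rw [← mul_assoc]
    congr 1
    rw [hT, mul_add, mul_smul_comm]
    simp only [← mul_assoc]
    rw [hz]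
  · have hE1 : ‖1 - T * r * star (T * r)‖ ≤ 1 :=
      norm_proj_le hsub.isSelfAdjoint.star_eq hsub.isIdempotentElem.eq
    have hET : (1 - T * r * star (T * r)) * T = 0 := by
      rw [sub_mul, one_mul, hv2, sub_self]
    have key := core_est (β := β) (δ := δ) (t := t) (m := mm) (sn_lsn ρ) f₂ f₁.norm_G_le hp2
      (hpP x₂ hx₂) hA1 (by rw [M.norm_mul_P hx₂ (hBU (mul_mem hA hb))]; exact hsnY) ht0 hmm0
      ?_ hE1 hET (sn_one ρ hρ).le hρP
    · have e1 : (mm * t)⁻¹ * δ = K⁻¹ := by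
        rw [hmm, ← hδ2]; field_simp
      have e2 : t⁻¹ * (β * (δ + t)) = β * (δ⁻¹ + 1) := by
        rw [← hδ2]; field_simp
      rw [e1, e2] at key
      exact key
    · rw [mul_sub, sub_mul, M.PTP_same Y x₂ _ hx₂ (hBU hpB), M.τ_p, mul_smul_comm, mul_one,
        smul_mul_assoc, f₂.P_idem, ht]
      have : ((1 / 2 : ℂ)) ^ m = (((1 / 2 : ℝ) ^ m : ℝ) : ℂ) := by push_cast; rfl
      rw [this, Complex.coe_smul, sub_self]

end BC

theorem PP.basic {Y : Set X} {x₁ x₂ : X} (hx₁ : x₁ ∉ Y) (hx₂ : x₂ ∉ Y) (hne : x₁ ≠ x₂)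
    {B : StarSubalgebra ℂ 𝔹} (hB : IsClosed (B : Set 𝔹)) (hBU : B ≤ M.U Y)
    (hbase : cs M.base ≤ B) {ψ : 𝔹 →ₚ[ℂ] ℂ} {a : ℕ → 𝔹} (h : Exc B ψ a)
    (hperp : ∀ c ∈ B, Tendsto (fun n => sn ψ (M.p n * c)) atTop (𝓝 0))
    {k : ℕ} (hk : 1 / 2 ≤ (ψ (M.p k)).re) (F : Finset 𝔹) (hF : ∀ b ∈ F, b ∈ B)
    {ε : ℝ} (hε : 0 < ε) :
    ∃ m > k, ∃ v ∈ cs ((B : Set 𝔹) ∪ {M.G x₁, M.G x₂}),
      star v * v = M.p m ∧ (M.p k - M.p m) * v = v ∧
      (ψ (M.p k)).re - ε ≤ (ψ (v * star v)).re ∧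
      ∀ b ∈ F, ∃ μ : ℂ, ‖star v * (b - μ • 1) * v‖ ≤ ε := by
  have hBuniv : B ≤ M.U Set.univ := hBU.trans (M.U_mono _ _ (Set.subset_univ _))
  have hpB : ∀ n, M.p n ∈ B := fun n => hbase (M.p_mem n)
  have hpsa : ∀ n, star (M.p n) = M.p n := fun n => (M.p_dec.proj n).isSelfAdjoint.star_eq
  have hpid : ∀ n, M.p n * M.p n = M.p n := fun n => (M.p_dec.proj n).isIdempotentElem.eq
  have hmul : ∀ n m, n ≤ m → M.p n * M.p m = M.p m := M.p_dec.mul
  have hmul' : ∀ n m, n ≤ m → M.p m * M.p n = M.p m := by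
    intro n m hnm
    have := congrArg star (hmul n m hnm)
    rwa [star_mul, hpsa, hpsa] at this
  -- choice of `m₀`
  have hsn0 : Tendsto (fun n => (ψ (M.p n)).re) atTop (𝓝 0) := by
    have h1 := (hperp 1 (one_mem B)).pow 2
    simp only [mul_one] at h1
    have h2 : (fun n => sn ψ (M.p n) ^ 2) = fun n => (ψ (M.p n)).re := by
      funext n; exact sn_proj_sq ψ (M.p_dec.proj n)
    rw [h2] at h1
    simpa using h1
  obtain ⟨m₀, hm₀k, hm₀⟩ : ∃ m₀, k < m₀ ∧ (ψ (M.p m₀)).re ≤ min (ε / 2) (1 / 4) := by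
    have h1 : ∀ᶠ n in atTop, (ψ (M.p n)).re < min (ε / 2) (1 / 4) :=
      hsn0.eventually_lt_const (by positivity)
    obtain ⟨n, hn1, hn2⟩ := (h1.and (eventually_gt_atTop k)).exists
    exact ⟨n, hn2, hn1.le⟩
  have hm₀a : (ψ (M.p m₀)).re ≤ ε / 2 := hm₀.trans (min_le_left _ _)
  have hm₀b : (ψ (M.p m₀)).re ≤ 1 / 4 := hm₀.trans (min_le_right _ _)
  set s : 𝔹 := M.p k - M.p m₀ with hs
  have hssa : star s = s := by rw [hs, star_sub, hpsa, hpsa]
  have hsid : s * s = s := by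
    rw [hs, sub_mul, mul_sub, mul_sub, hpid, hpid, hmul _ _ hm₀k.le, hmul' _ _ hm₀k.le]
    abel
  have hsB : s ∈ B := sub_mem (hpB _) (hpB _)
  set σ : ℝ := (ψ s).re with hσ
  have hσe : σ = (ψ (M.p k)).re - (ψ (M.p m₀)).re := by
    rw [hσ, hs, map_sub, Complex.sub_re]
  have hσ4 : 1 / 4 ≤ σ := by rw [hσe]; linarith
  have hσ0 : 0 < σ := by linarith
  have hψs : ψ s = (σ : ℂ) := BC.apply_real ψ hssa
  have hσ1 : σ ≤ 1 := by
    have h1 := norm_apply_le ψ h.one s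
    have h2 : ‖s‖ ≤ 1 := BC.norm_proj_le hssa hsid
    rw [hψs, Complex.norm_real, Real.norm_of_nonneg hσ0.le] at h1
    linarith
  set d : 𝔹 := (((√σ)⁻¹ : ℝ) : ℂ) • s with hd
  have hdB : d ∈ B := B.smul_mem hsB _
  have hdsa : star d = d := by
    rw [hd, star_smul, hssa]
    congr 1
    simp
  have hdd : ∀ z : 𝔹, ψ (star d * z * d) = ((σ⁻¹ : ℝ) : ℂ) * ψ (s * z * s) := by
    intro z
    rw [hdsa, hd]
    simp only [smul_mul_assoc, mul_smul_comm, smul_smul, map_smul, smul_eq_mul]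
    congr 1
    rw [← Complex.ofReal_mul, ← mul_inv, Real.mul_self_sqrt hσ0.le]
  have hd1 : ψ (star d * d) = 1 := by
    have := hdd 1
    rw [mul_one, mul_one, hsid, hψs, ← Complex.ofReal_mul, inv_mul_cancel₀ hσ0.ne'] at this
    rw [this]; simp
  obtain ⟨a', ha', hsa'⟩ : ∃ a' : ℕ → 𝔹, Exc B (conj ψ d) a' ∧ ∀ j, s * a' j = a' j := by
    refine ⟨_, h.conj hdB hd1, fun j => ?_⟩
    have hsd : s * d = d := by rw [hd, mul_smul_comm, hsid]
    simp only [mul_smul_comm, ← mul_assoc, hsd]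
  set ρ := conj ψ d with hρdef
  have hρ : ρ 1 = 1 := by
    rw [hρdef, conj_apply, mul_one, hd1]
  have hρP : sn ρ (M.P x₂) = 0 := by
    rw [hρdef, sn_conj]
    have := M.sn_mul_P_mul hx₂ hBU hbase h hdB 1
    rwa [one_mul] at this
  -- choice of `c`
  set η : ℝ := min (1 / 4) (ε / 128) with hη
  have hη0 : 0 < η := by positivity
  obtain ⟨j₁, hj1, hj2⟩ : ∃ j, 1 - (ρ (a' j)).re ≤ η ∧
      ∀ b ∈ F, ‖a' j * b * a' j - ρ b • (a' j * a' j)‖ ≤ ε / 4 := by
    have h1 : ∀ᶠ j in atTop, 1 - (ρ (a' j)).re < η := by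
      have h2 : Tendsto (fun j => 1 - (ρ (a' j)).re) atTop (𝓝 (1 - (1 : ℂ).re)) :=
        (Complex.continuous_re.continuousAt.tendsto.comp ha'.tend).const_sub 1
      rw [Complex.one_re, sub_self] at h2
      exact h2.eventually_lt_const hη0
    have h3 : ∀ᶠ j in atTop, ∀ b ∈ F, ‖a' j * b * a' j - ρ b • (a' j * a' j)‖ < ε / 4 := by
      rw [Filter.eventually_all_finset]
      intro b hb
      exact (ha'.exc b (hF b hb)).eventually_lt_const (by positivity)
    obtain ⟨j, hj, hj'⟩ := (h1.and h3).exists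
    exact ⟨j, hj.le, fun b hb => (hj' b hb).le⟩
  set c := a' j₁ with hc
  have hcsa : star c = c := (IsSelfAdjoint.of_nonneg (ha'.nonneg j₁)).star_eq
  obtain ⟨A, hAB, g, hAsa, hA0, hAle, hgsa, hg2, hcgA, hcut⟩ :=
    BC.exists_cut (ha'.nonneg j₁) (ha'.le_one j₁) hB (ha'.mem j₁)
  have hA1 : ‖A‖ ≤ 1 := (CStarAlgebra.norm_le_one_iff_of_nonneg A).2 hAle
  have hρA : 1 - (ρ A).re ≤ 2 * η := by
    have h1 := BC.re_mono ρ hcut
    rw [← Complex.coe_smul, map_smul, smul_eq_mul, map_sub, map_sub, hρ, Complex.re_ofReal_mul,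
      Complex.sub_re, Complex.sub_re, Complex.one_re] at h1
    linarith
  have hAne : A ≠ 0 := by
    intro h0
    rw [h0, map_zero, Complex.zero_re] at hρA
    have : η ≤ 1 / 4 := min_le_left _ _
    linarith
  set c₁ : ℝ := (M.τ (A * A)).re with hc₁
  have hAAsa : star (A * A) = A * A := by rw [star_mul, hAsa]
  have hτA : M.τ (A * A) = (c₁ : ℂ) := BC.apply_real M.τ hAAsa
  have hc₁0 : 0 < c₁ := by
    have h1 : 0 ≤ c₁ := by
      have := BC.re_nonneg M.τ (star_mul_self_nonneg A)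
      rwa [hAsa] at this
    refine lt_of_le_of_ne h1 (fun h2 => hAne ?_)
    refine M.τ_faithful A (hBuniv hAB) ?_
    rw [hAsa, hτA, ← h2, Complex.ofReal_zero]
  have hc₁1 : c₁ ≤ 1 := by
    have h1 := norm_apply_le M.τ M.τ_one (A * A)
    rw [hτA, Complex.norm_real, Real.norm_of_nonneg hc₁0.le] at h1
    exact h1.trans ((norm_mul_le _ _).trans (mul_le_one₀ hA1 (norm_nonneg _) hA1))
  -- choice of `K` and `m`
  set θ : ℝ := √ε / 8 with hθ
  have hθ0 : 0 < θ := by positivity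
  set K : ℝ := θ⁻¹ with hK
  have hK0 : 0 < K := by positivity
  obtain ⟨m, hmm₀, hmsm⟩ : ∃ m, m₀ ≤ m ∧ (4 + 2 * K) * √((1 / 2 : ℝ) ^ m) ≤ c₁ / 4 := by
    have h1 : Tendsto (fun m : ℕ => (4 + 2 * K) * √((1 / 2 : ℝ) ^ m)) atTop
        (𝓝 ((4 + 2 * K) * √0)) := by
      refine Tendsto.const_mul _ ?_
      exact (Real.continuous_sqrt.tendsto 0).comp
        (tendsto_pow_atTop_nhds_zero_of_lt_one (by norm_num) (by norm_num))
    rw [Real.sqrt_zero, mul_zero] at h1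
    have h2 := h1.eventually_lt_const (show (0 : ℝ) < c₁ / 4 by positivity)
    obtain ⟨n, hn1, hn2⟩ := (h2.and (eventually_ge_atTop m₀)).exists
    exact ⟨n, hn2, hn1.le⟩
  -- choice of `b`
  obtain ⟨j₂, hj3, hj4, hj5⟩ : ∃ j, 1 - (ρ (a' j)).re ≤ η ∧ 4 * K * sn M.τ (a' j) ≤ c₁ / 4 ∧
      sn M.τ (a' j) * ((√((1 / 2 : ℝ) ^ m))⁻¹ + 1) ≤ θ := by
    have h1 : ∀ᶠ j in atTop, 1 - (ρ (a' j)).re < η := by
      have h2 : Tendsto (fun j => 1 - (ρ (a' j)).re) atTop (𝓝 (1 - (1 : ℂ).re)) :=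
        (Complex.continuous_re.continuousAt.tendsto.comp ha'.tend).const_sub 1
      rw [Complex.one_re, sub_self] at h2
      exact h2.eventually_lt_const hη0
    have h2 := M.diffuse hBuniv hbase ha'
    have h3 := h2.const_mul (4 * K)
    rw [mul_zero] at h3
    have h4 := h2.mul_const ((√((1 / 2 : ℝ) ^ m))⁻¹ + 1)
    rw [zero_mul] at h4
    obtain ⟨j, ⟨h5, h6⟩, h7⟩ := ((h1.and (h3.eventually_lt_const
      (show (0 : ℝ) < c₁ / 4 by positivity))).and (h4.eventually_lt_const hθ0)).exists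
    exact ⟨j, h5.le, h6.le, h7.le⟩
  set S := cs ((B : Set 𝔹) ∪ {M.G x₁, M.G x₂}) with hS
  have hBS : B ≤ S := fun z hz => subset_cs _ (Or.inl hz)
  have hG₁ : M.G x₁ ∈ S := subset_cs _ (Or.inr (Or.inl rfl))
  have hG₂ : M.G x₂ ∈ S := subset_cs _ (Or.inr (Or.inr rfl))
  obtain ⟨v, hvS, hvv, hzv, hest⟩ := BC.basic_final M hx₁ hx₂ hne hBU (cs_isClosed _) hBS hG₁ hG₂
    (hpB m) hAB (ha'.mem j₂) hAsa hA1 (ha'.norm_le_one j₂) hc₁0 hc₁1 hτA hK0
    (by linarith) hρ hρP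
  have hsA : s * A = A := by
    rw [← hcgA, ← mul_assoc, ← mul_assoc, hsa' j₁]
  have hsv : s * v = v := hzv s hsA
  have hcgv : c * g * v = v := hzv (c * g) hcgA
  have hvn : ‖v‖ ≤ 1 := by
    have h1 : ‖v‖ * ‖v‖ ≤ 1 := by
      rw [← CStarRing.norm_star_mul_self, hvv]
      exact BC.norm_proj_le (hpsa m) (hpid m)
    nlinarith [norm_nonneg v]
  refine ⟨m, lt_of_lt_of_le hm₀k hmm₀, v, hvS, hvv, ?_, ?_, ?_⟩
  · -- `(p k - p m) v = v`
    have h1 : (M.p k - M.p m) * s = s := by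
      rw [hs, sub_mul, mul_sub, mul_sub, hpid, hmul _ _ hm₀k.le, hmul' _ _ (hm₀k.le.trans hmm₀),
        hmul' _ _ hmm₀]
      abel
    calc (M.p k - M.p m) * v = (M.p k - M.p m) * (s * v) := by rw [hsv]
      _ = (M.p k - M.p m) * s * v := by rw [mul_assoc]
      _ = v := by rw [h1, hsv]
  · -- the estimate
    have hN : sn ρ (1 - v * star v) ≤ √ε / 2 := by
      refine hest.trans ?_
      have n1 : sn ρ (1 - A) ≤ √ε / 8 := by
        have h1 := sn_one_sub_sq_le ρ hρ hA0 hAle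
        have h2 : η ≤ ε / 128 := min_le_right _ _
        refine abs_le_of_sq_le_sq' ?_ (by positivity) |>.2
        rw [div_pow, Real.sq_sqrt hε.le]
        linarith
      have n2 : sn ρ (1 - a' j₂) ≤ √ε / 8 := by
        have h1 := sn_one_sub_sq_le ρ hρ (ha'.nonneg j₂) (ha'.le_one j₂)
        have h2 : η ≤ ε / 128 := min_le_right _ _
        refine abs_le_of_sq_le_sq' ?_ (by positivity) |>.2
        rw [div_pow, Real.sq_sqrt hε.le]
        linarith
      have n3 : K⁻¹ = √ε / 8 := by rw [hK, inv_inv]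
      rw [n3]
      linarith
    have hvsv : star v * s = star v := by
      have := congrArg star hsv
      rwa [star_mul, hssa] at this
    have hEproj : star (1 - v * star v) * (1 - v * star v) = 1 - v * star v := by
      have hpv : v * M.p m = v := by
        have h3 : star (v * (1 - M.p m)) * (v * (1 - M.p m)) = 0 := by
          rw [star_mul, star_sub, star_one, hpsa]
          calc (1 - M.p m) * star v * (v * (1 - M.p m))
              = (1 - M.p m) * (star v * v) * (1 - M.p m) := by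
                simp only [mul_assoc]
            _ = 0 := by rw [hvv, sub_mul, one_mul, hpid, sub_self, zero_mul]
        have h4 := CStarRing.star_mul_self_eq_zero_iff _ |>.mp h3
        rw [mul_sub, mul_one, sub_eq_zero] at h4
        exact h4.symm
      have hq : v * star v * (v * star v) = v * star v := by
        calc v * star v * (v * star v) = v * (star v * v) * star v := by simp only [mul_assoc]
          _ = v * star v := by rw [hvv, hpv]
      rw [star_sub, star_one, star_mul, star_star, sub_mul, one_mul, mul_sub, mul_one, hq]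
      abel
    have h1 : (sn ρ (1 - v * star v)) ^ 2 = 1 - σ⁻¹ * (ψ (v * star v)).re := by
      rw [sn_sq, hEproj, map_sub, hρ, Complex.sub_re, Complex.one_re, hρdef, conj_apply, hdd,
        Complex.re_ofReal_mul]
      congr 4
      calc s * (v * star v) * s = (s * v) * (star v * s) := by simp only [mul_assoc]
        _ = v * star v := by rw [hsv, hvsv]
    have h2 : (sn ρ (1 - v * star v)) ^ 2 ≤ ε / 4 := by
      have := pow_le_pow_left₀ (sn_nonneg _ _) hN 2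
      rw [div_pow, Real.sq_sqrt hε.le] at this
      linarith
    rw [h1] at h2
    have h3 : (ψ (v * star v)).re = σ * (σ⁻¹ * (ψ (v * star v)).re) := by
      rw [← mul_assoc, mul_inv_cancel₀ hσ0.ne', one_mul]
    rw [h3]
    have h4 : 1 - ε / 4 ≤ σ⁻¹ * (ψ (v * star v)).re := by linarith
    have h5 : σ * (1 - ε / 4) ≤ σ * (σ⁻¹ * (ψ (v * star v)).re) :=
      mul_le_mul_of_nonneg_left h4 hσ0.le
    refine le_trans ?_ h5
    have h6 : σ * (ε / 4) ≤ ε / 4 := by nlinarith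
    rw [mul_sub, mul_one]
    linarith
  · intro b hb
    refine ⟨ρ b, ?_⟩
    have e : star v * (b - ρ b • 1) * v = (star v * g) * (c * b * c - ρ b • (c * c)) * (g * v) := by
      have h1 : star v = star v * g * c := by
        have := congrArg star hcgv
        rw [star_mul, star_mul, hgsa, hcsa, ← mul_assoc] at this
        exact this.symm
      calc star v * (b - ρ b • 1) * v = (star v * g * c) * (b - ρ b • 1) * (c * g * v) := by
            rw [← h1, hcgv]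
        _ = (star v * g) * (c * (b - ρ b • 1) * c) * (g * v) := by simp only [mul_assoc]
        _ = _ := by
            congr 2
            rw [mul_sub, sub_mul, mul_smul_comm, mul_one, smul_mul_assoc]
    rw [e]
    calc ‖(star v * g) * (c * b * c - ρ b • (c * c)) * (g * v)‖
        ≤ (‖star v‖ * ‖g‖) * ‖c * b * c - ρ b • (c * c)‖ * (‖g‖ * ‖v‖) := by
          refine (norm_mul_le _ _).trans ?_
          gcongr
          · refine (norm_mul_le _ _).trans ?_
            gcongr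
            exact norm_mul_le _ _
          · exact norm_mul_le _ _
      _ ≤ (1 * 2) * (ε / 4) * (2 * 1) := by
          rw [norm_star]
          gcongr
          exact hj2 b hb
      _ = ε := by ring

end Crest.Agent.R120
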