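import Crest.Agent.R120.Defs
import Crest.Agent.R120.ExcBasic
import Crest.Agent.R120.TypeI

-- ▼ part R120/Tower
section

/-! Module D, part 2 (helper820): generated C*-algebras, chain induction over a well-ordered set of
generators, and the disjointness lemma (DISJ). -/

set_option autoImplicit false

open Filter Topology
open scoped ComplexOrder

namespace Crest.Agent.R120

section gen

variable {M : Type} [CStarAlgebra M]


lemma subset_cs' (S : Set M) : S ⊆ (cs S : Set M) :=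
  (StarAlgebra.subset_adjoin ℂ S).trans (StarSubalgebra.le_topologicalClosure _)

lemma isClosed_cs' (S : Set M) : IsClosed (cs S : Set M) :=
  StarSubalgebra.isClosed_topologicalClosure _

lemma cs_le' {S : Set M} {B : StarSubalgebra ℂ M} (hB : IsClosed (B : Set M))
    (h : S ⊆ (B : Set M)) : cs S ≤ B :=
  StarSubalgebra.topologicalClosure_minimal (StarAlgebra.adjoin_le h) hB

lemma cs_mono' {S T : Set M} (h : S ⊆ T) : cs S ≤ cs T :=
  cs_le' (isClosed_cs' T) (h.trans (subset_cs' T))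

lemma cs_induction_closed' {S : Set M} {P : M → Prop} (hP : IsClosed {x | P x})
    (h : ∀ x ∈ StarAlgebra.adjoin ℂ S, P x) : ∀ x ∈ cs S, P x := by
  intro x hx
  have : closure ((StarAlgebra.adjoin ℂ S : StarSubalgebra ℂ M) : Set M) ⊆ {x | P x} :=
    closure_minimal (fun y hy => h y hy) hP
  exact this hx

/-- If a closed additive subgroup (closed under scalars) contains `1` and is stable under left
multiplication by the generators and their adjoints, it contains the generated C*-algebra. -/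
lemma cs_subset_of_left_stable' {S : Set M} (X : Submodule ℂ M) (hX : IsClosed (X : Set M))
    (h1 : (1 : M) ∈ X) (hS : ∀ s ∈ S, ∀ x ∈ X, s * x ∈ X)
    (hS' : ∀ s ∈ S, ∀ x ∈ X, star s * x ∈ X) : ∀ x ∈ cs S, x ∈ X := by
  have key : ∀ z ∈ StarAlgebra.adjoin ℂ S, ∀ x ∈ X, z * x ∈ X := by
    intro z hz
    rw [← StarSubalgebra.mem_toSubalgebra, StarAlgebra.adjoin_toSubalgebra] at hz
    induction hz using Algebra.adjoin_induction with
    | mem z hz =>
      rcases hz with hz | hz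
      · exact hS z hz
      · intro x hx
        have := hS' (star z) hz x hx
        simpa using this
    | algebraMap r =>
      intro x hx
      rw [← Algebra.smul_def]
      exact X.smul_mem r hx
    | add a b _ _ ha hb =>
      intro x hx
      rw [add_mul]
      exact X.add_mem (ha x hx) (hb x hx)
    | mul a b _ _ ha hb =>
      intro x hx
      rw [mul_assoc]
      exact ha _ (hb x hx)
  refine cs_induction_closed' (P := fun x => x ∈ X) hX ?_
  intro x hx
  have := key x hx 1 h1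
  simpa using this

end gen

section alg

variable {M : Type} [CStarAlgebra M] {ι : Type*}

/-- The C*-algebra generated by a base set and the `u i`, `i ∈ L`. -/
noncomputable def Alg (base : Set M) (u : ι → M) (L : Set ι) : StarSubalgebra ℂ M :=
  cs (base ∪ u '' L)

lemma Alg_mono (base : Set M) (u : ι → M) {K L : Set ι} (h : K ⊆ L) :
    Alg base u K ≤ Alg base u L :=
  cs_mono' (Set.union_subset_union_right _ (Set.image_mono h))

lemma isClosed_Alg (base : Set M) (u : ι → M) (L : Set ι) :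
    IsClosed (Alg base u L : Set M) := isClosed_cs' _

lemma base_mem_Alg {base : Set M} {u : ι → M} {L : Set ι} {x : M} (h : x ∈ base) :
    x ∈ Alg base u L := subset_cs' _ (Or.inl h)

lemma u_mem_Alg {base : Set M} {u : ι → M} {L : Set ι} {i : ι} (h : i ∈ L) :
    u i ∈ Alg base u L := subset_cs' _ (Or.inr ⟨i, h, rfl⟩)

lemma Alg_le {base : Set M} {u : ι → M} {L : Set ι} {B : StarSubalgebra ℂ M}
    (hB : IsClosed (B : Set M)) (hbase : base ⊆ (B : Set M)) (hu : ∀ i ∈ L, u i ∈ B) :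
    Alg base u L ≤ B := by
  refine cs_le' hB ?_
  rintro x (hx | ⟨i, hi, rfl⟩)
  · exact hbase hx
  · exact hu i hi

/-- Adding one generator. -/
lemma Alg_insert_le (base : Set M) (u : ι → M) (L : Set ι) (j : ι) :
    Alg base u (insert j L) ≤ cs ((Alg base u L : Set M) ∪ {u j}) := by
  refine Alg_le (isClosed_cs' _) ?_ ?_
  · intro x hx
    exact subset_cs' _ (Or.inl (base_mem_Alg hx))
  · rintro i (rfl | hi)
    · exact subset_cs' _ (Or.inr rfl)
    · exact subset_cs' _ (Or.inl (u_mem_Alg hi))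


end alg

section tower

variable {M : Type} [CStarAlgebra M] {ι : Type*} [LinearOrder ι] [WellFoundedLT ι]

/-- CHAIN INDUCTION. -/
theorem chain_induction (base : Set M) (u : ι → M) {K L : Set ι} (hKL : K ⊆ L)
    {P : M → Prop} (hP : IsClosed {x | P x})
    (h0 : ∀ x ∈ Alg base u K, P x)
    (hstep : ∀ j ∈ L, j ∉ K → (∀ x ∈ Alg base u (K ∪ {l ∈ L | l < j}), P x) →
      ∀ x ∈ Alg base u (insert j (K ∪ {l ∈ L | l < j})), P x) :
    ∀ x ∈ Alg base u L, P x := by
  -- auxiliary: for a set `D` of allowed new indices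
  have aux : ∀ D : Set ι, (∀ j ∈ D, ∀ i, i ≤ j → i ∈ D) →
      (∀ j ∈ D, j ∈ L → j ∉ K → ∀ x ∈ Alg base u (insert j (K ∪ {l ∈ L | l < j})), P x) →
      ∀ x ∈ Alg base u (K ∪ {l ∈ L | l ∈ D}), P x := by
    intro D hD hQ
    refine cs_induction_closed' hP ?_
    intro x hx
    have hx' : x ∈ Alg base u K ∨ ∃ j ∈ D, j ∈ L ∧ j ∉ K ∧
        x ∈ Alg base u (insert j (K ∪ {l ∈ L | l < j})) := by
      have hmono : ∀ j₁ j₂ : ι, j₁ ∈ L → j₁ ≤ j₂ → Alg base u (insert j₁ (K ∪ {l ∈ L | l < j₁})) ≤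
          Alg base u (insert j₂ (K ∪ {l ∈ L | l < j₂})) := by
        intro j₁ j₂ hj₁ h12
        refine Alg_mono base u ?_
        rintro l (rfl | hl | hl)
        · rcases eq_or_lt_of_le h12 with h | h
          · left; exact h
          · right; right; exact ⟨hj₁, h⟩
        · right; left; exact hl
        · right; right; exact ⟨hl.1, lt_of_lt_of_le hl.2 h12⟩
      have hmono0 : ∀ j : ι, Alg base u K ≤ Alg base u (insert j (K ∪ {l ∈ L | l < j})) := by
        intro j
        exact Alg_mono base u (Set.subset_union_left.trans (Set.subset_insert _ _))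
      -- binary closure
      have bin : ∀ (f : M → M → M),
          (∀ (B : StarSubalgebra ℂ M) (a b : M), a ∈ B → b ∈ B → f a b ∈ B) →
          ∀ a b : M, (a ∈ Alg base u K ∨ ∃ j ∈ D, j ∈ L ∧ j ∉ K ∧
            a ∈ Alg base u (insert j (K ∪ {l ∈ L | l < j}))) →
          (b ∈ Alg base u K ∨ ∃ j ∈ D, j ∈ L ∧ j ∉ K ∧
            b ∈ Alg base u (insert j (K ∪ {l ∈ L | l < j}))) →
          (f a b ∈ Alg base u K ∨ ∃ j ∈ D, j ∈ L ∧ j ∉ K ∧
            f a b ∈ Alg base u (insert j (K ∪ {l ∈ L | l < j}))) := by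
        intro f hf a b ha hb
        rcases ha with ha | ⟨j, hjD, hjL, hjK, ha⟩
        · rcases hb with hb | ⟨j', hjD', hjL', hjK', hb⟩
          · exact Or.inl (hf _ _ _ ha hb)
          · exact Or.inr ⟨j', hjD', hjL', hjK', hf _ _ _ (hmono0 j' ha) hb⟩
        · rcases hb with hb | ⟨j', hjD', hjL', hjK', hb⟩
          · exact Or.inr ⟨j, hjD, hjL, hjK, hf _ _ _ ha (hmono0 j hb)⟩
          · rcases le_total j j' with h | h
            · exact Or.inr ⟨j', hjD', hjL', hjK', hf _ _ _ (hmono j j' hjL h ha) hb⟩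
            · exact Or.inr ⟨j, hjD, hjL, hjK, hf _ _ _ ha (hmono j' j hjL' h hb)⟩
      induction hx using StarAlgebra.adjoin_induction with
      | mem x hx =>
        rcases hx with hx | ⟨i, hi, rfl⟩
        · exact Or.inl (base_mem_Alg hx)
        · by_cases hiK : i ∈ K
          · exact Or.inl (u_mem_Alg hiK)
          · rcases hi with hi | hi
            · exact absurd hi hiK
            · exact Or.inr ⟨i, hi.2, hi.1, hiK, u_mem_Alg (Set.mem_insert _ _)⟩
      | algebraMap r => exact Or.inl (algebraMap_mem _ r)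
      | add a b _ _ ha hb => exact bin (· + ·) (fun B a b ha hb => add_mem ha hb) a b ha hb
      | mul a b _ _ ha hb => exact bin (· * ·) (fun B a b ha hb => mul_mem ha hb) a b ha hb
      | star a _ ha =>
        rcases ha with ha | ⟨j, hjD, hjL, hjK, ha⟩
        · exact Or.inl (star_mem ha)
        · exact Or.inr ⟨j, hjD, hjL, hjK, star_mem ha⟩
    rcases hx' with hx' | ⟨j, hjD, hjL, hjK, hx'⟩
    · exact h0 x hx'
    · exact hQ j hjD hjL hjK x hx'
  -- well-founded induction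
  have main : ∀ j : ι, ∀ x ∈ Alg base u (K ∪ {l ∈ L | l < j}), P x := by
    intro j
    induction j using WellFoundedLT.induction with
    | ind j IH =>
      refine aux {l | l < j} (fun a ha b hb => lt_of_le_of_lt hb ha) ?_
      intro i hi hiL hiK
      exact hstep i hiL hiK (IH i hi)
  have := aux Set.univ (fun _ _ _ _ => trivial) (fun j _ hjL hjK => hstep j hjL hjK (main j))
  have hset : K ∪ {l ∈ L | l ∈ (Set.univ : Set ι)} = L := by
    ext l
    constructor
    · rintro (h | h)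
      · exact hKL h
      · exact h.1
    · intro h
      exact Or.inr ⟨h, trivial⟩
  rw [hset] at this
  exact this

end tower

section approx

variable {M : Type} [CStarAlgebra M]

/-- Elements that, in front of the sequence `z`, are approximable by elements of `B`. -/
def approxSub (B : StarSubalgebra ℂ M) (z : ℕ → M) (hz : ∀ n, ‖z n‖ ≤ 1) : Submodule ℂ M where
  carrier := {x | ∀ ε : ℝ, 0 < ε → ∃ b ∈ B, ∀ᶠ n in atTop, ‖(x - b) * z n‖ ≤ ε}
  zero_mem' := by
    intro ε hε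
    exact ⟨0, zero_mem B, Eventually.of_forall fun n => by simpa using hε.le⟩
  add_mem' := by
    intro x y hx hy ε hε
    obtain ⟨b, hb, hxb⟩ := hx (ε / 2) (by positivity)
    obtain ⟨c, hc, hyc⟩ := hy (ε / 2) (by positivity)
    refine ⟨b + c, add_mem hb hc, ?_⟩
    filter_upwards [hxb, hyc] with n h1 h2
    have : (x + y - (b + c)) * z n = (x - b) * z n + (y - c) * z n := by noncomm_ring
    rw [this]
    calc ‖(x - b) * z n + (y - c) * z n‖ ≤ ‖(x - b) * z n‖ + ‖(y - c) * z n‖ := norm_add_le _ _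
      _ ≤ ε / 2 + ε / 2 := add_le_add h1 h2
      _ = ε := by ring
  smul_mem' := by
    intro r x hx ε hε
    obtain ⟨b, hb, hxb⟩ := hx (ε / (‖r‖ + 1)) (by positivity)
    refine ⟨r • b, B.smul_mem hb r, ?_⟩
    filter_upwards [hxb] with n h1
    have : (r • x - r • b) * z n = r • ((x - b) * z n) := by
      rw [← smul_sub, smul_mul_assoc]
    rw [this, norm_smul]
    calc ‖r‖ * ‖(x - b) * z n‖ ≤ (‖r‖ + 1) * (ε / (‖r‖ + 1)) := by
          apply mul_le_mul _ h1 (norm_nonneg _) (by positivity)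
          linarith
      _ = ε := by field_simp


lemma self_mem_approxSub {B : StarSubalgebra ℂ M} {z : ℕ → M} {hz : ∀ n, ‖z n‖ ≤ 1} {x : M}
    (hx : x ∈ B) : x ∈ approxSub B z hz := by
  intro ε hε
  exact ⟨x, hx, Eventually.of_forall fun n => by simpa using hε.le⟩

lemma approxSub_approx {B : StarSubalgebra ℂ M} {z : ℕ → M} {hz : ∀ n, ‖z n‖ ≤ 1} {x : M}
    (h : ∀ ε : ℝ, 0 < ε → ∃ x' ∈ approxSub B z hz, ∀ᶠ n in atTop, ‖(x - x') * z n‖ ≤ ε) :
    x ∈ approxSub B z hz := by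
  intro ε hε
  obtain ⟨x', hx', h'⟩ := h (ε / 2) (by positivity)
  obtain ⟨b, hb, hb'⟩ := hx' (ε / 2) (by positivity)
  refine ⟨b, hb, ?_⟩
  filter_upwards [h', hb'] with n h1 h2
  have : (x - b) * z n = (x - x') * z n + (x' - b) * z n := by noncomm_ring
  rw [this]
  calc _ ≤ ‖(x - x') * z n‖ + ‖(x' - b) * z n‖ := norm_add_le _ _
    _ ≤ ε / 2 + ε / 2 := add_le_add h1 h2
    _ = ε := by ring

lemma isClosed_approxSub {B : StarSubalgebra ℂ M} {z : ℕ → M} {hz : ∀ n, ‖z n‖ ≤ 1} :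
    IsClosed (approxSub B z hz : Set M) := by
  refine isClosed_of_closure_subset ?_
  intro x hx
  refine approxSub_approx ?_
  intro ε hε
  obtain ⟨x', hx', hd⟩ := Metric.mem_closure_iff.1 hx ε hε
  refine ⟨x', hx', Eventually.of_forall fun n => ?_⟩
  calc ‖(x - x') * z n‖ ≤ ‖x - x'‖ * ‖z n‖ := norm_mul_le _ _
    _ ≤ ‖x - x'‖ * 1 := by gcongr; exact hz n
    _ ≤ ε := by
      rw [mul_one, ← dist_eq_norm]
      exact hd.le

/-- Stability under left multiplication by `c` follows from `c * b ∈ approxSub` for `b ∈ B`. -/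
lemma approxSub_mul_left {B : StarSubalgebra ℂ M} {z : ℕ → M} {hz : ∀ n, ‖z n‖ ≤ 1} {c : M}
    (hc : ∀ b ∈ B, c * b ∈ approxSub B z hz) :
    ∀ x ∈ approxSub B z hz, c * x ∈ approxSub B z hz := by
  intro x hx
  refine approxSub_approx ?_
  intro ε hε
  obtain ⟨b, hb, hb'⟩ := hx (ε / (‖c‖ + 1)) (by positivity)
  refine ⟨c * b, hc b hb, ?_⟩
  filter_upwards [hb'] with n h1
  have : (c * x - c * b) * z n = c * ((x - b) * z n) := by noncomm_ring
  rw [this]
  calc ‖c * ((x - b) * z n)‖ ≤ ‖c‖ * ‖(x - b) * z n‖ := norm_mul_le _ _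
    _ ≤ (‖c‖ + 1) * (ε / (‖c‖ + 1)) := by
      apply mul_le_mul _ h1 (norm_nonneg _) (by positivity)
      linarith
    _ = ε := by field_simp

end approx

section proj

variable {M : Type} [CStarAlgebra M]

lemma projT_norm_le {q : M} (hq : IsStarProjection q) : ‖q‖ ≤ 1 := by
  have h : ‖q‖ = ‖q‖ * ‖q‖ := by
    conv_lhs => rw [← hq.isIdempotentElem.eq]
    have := CStarRing.norm_star_mul_self (x := q)
    rwa [hq.isSelfAdjoint.star_eq] at this
  rcases eq_or_lt_of_le (norm_nonneg q) with h0 | h0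
  · rw [← h0]; norm_num
  · have : 1 = ‖q‖ := by
      have h2 : ‖q‖ * 1 = ‖q‖ * ‖q‖ := by rw [mul_one]; exact h
      exact mul_left_cancel₀ h0.ne' h2
    exact this.symm.le

variable {p : ℕ → M}

lemma DecProj.normT_le (hp : DecProj p) (n : ℕ) : ‖p n‖ ≤ 1 := projT_norm_le (hp.proj n)

lemma DecProj.starT_eq (hp : DecProj p) (n : ℕ) : star (p n) = p n :=
  (hp.proj n).isSelfAdjoint.star_eq


lemma DecProj.idemT (hp : DecProj p) (n : ℕ) : p n * p n = p n := (hp.proj n).isIdempotentElem.eq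

/-- right compression is monotone -/
lemma DecProj.normT_mul_right_le (hp : DecProj p) (x : M) {m n : ℕ} (h : m ≤ n) :
    ‖x * p n‖ ≤ ‖x * p m‖ := by
  have : x * p n = (x * p m) * p n := by rw [mul_assoc, hp.mul m n h]
  rw [this]
  calc _ ≤ ‖x * p m‖ * ‖p n‖ := norm_mul_le _ _
    _ ≤ ‖x * p m‖ * 1 := by gcongr; exact hp.normT_le n
    _ = _ := mul_one _

/-- DISJ, one step. -/
lemma disj_step (hp : DecProj p) {B : StarSubalgebra ℂ M} {y yh : M} (hy : y ∈ unitary M)
    (hyh : ‖yh‖ ≤ 1) (ha : ∀ n, y * (1 - p n) ∈ B)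
    (h1 : ∀ b ∈ B, Tendsto (fun n => ‖p n * b * yh * p n‖) atTop (𝓝 0))
    (h2 : ∀ b ∈ B, Tendsto (fun n => ‖p n * star (b * yh) * y * p n‖) atTop (𝓝 0)) :
    ∀ x ∈ cs ((B : Set M) ∪ {y}), Tendsto (fun n => ‖p n * x * yh * p n‖) atTop (𝓝 0) := by
  have hyn : ‖y‖ ≤ 1 := by
    rcases subsingleton_or_nontrivial M with h | h
    · rw [Subsingleton.elim y 0]; simp
    · exact (CStarRing.norm_of_mem_unitary hy).le
  have hz : ∀ n, ‖yh * p n‖ ≤ 1 := fun n =>
    calc ‖yh * p n‖ ≤ ‖yh‖ * ‖p n‖ := norm_mul_le _ _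
      _ ≤ 1 * 1 := mul_le_mul hyh (hp.normT_le n) (norm_nonneg _) zero_le_one
      _ = 1 := one_mul 1
  have hX : ∀ x ∈ cs ((B : Set M) ∪ {y}), x ∈ approxSub B (fun n => yh * p n) hz := by
    have hyB : ∀ x ∈ approxSub B (fun n => yh * p n) hz, y * x ∈ approxSub B (fun n => yh * p n) hz := by
      refine approxSub_mul_left ?_
      intro b hb ε hε
      have := (h1 b hb).eventually (ge_mem_nhds hε)
      obtain ⟨m, hm⟩ := this.exists
      refine ⟨y * (1 - p m) * b, mul_mem (ha m) hb, ?_⟩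
      filter_upwards [eventually_ge_atTop m] with n hn
      have e : (y * b - y * (1 - p m) * b) * (yh * p n) = y * ((p m * b * yh) * p n) := by noncomm_ring
      rw [e]
      calc ‖y * ((p m * b * yh) * p n)‖ ≤ ‖y‖ * ‖(p m * b * yh) * p n‖ := norm_mul_le _ _
        _ ≤ 1 * ‖(p m * b * yh) * p m‖ := by
          apply mul_le_mul hyn (hp.normT_mul_right_le _ hn) (norm_nonneg _) zero_le_one
        _ ≤ ε := by rw [one_mul]; exact hm
    have hyB' : ∀ x ∈ approxSub B (fun n => yh * p n) hz,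
        star y * x ∈ approxSub B (fun n => yh * p n) hz := by
      refine approxSub_mul_left ?_
      intro b hb ε hε
      have := (h2 b hb).eventually (ge_mem_nhds hε)
      obtain ⟨m, hm⟩ := this.exists
      have hmem : (1 - p m) * star y ∈ B := by
        have := star_mem (ha m)
        rwa [star_mul, star_sub, star_one, hp.starT_eq] at this
      refine ⟨(1 - p m) * star y * b, mul_mem hmem hb, ?_⟩
      filter_upwards [eventually_ge_atTop m] with n hn
      have e : (star y * b - (1 - p m) * star y * b) * (yh * p n)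
          = (p m * star y * b * yh) * p n := by noncomm_ring
      rw [e]
      have e2 : ‖(p m * star y * b * yh) * p m‖ = ‖p m * star (b * yh) * y * p m‖ := by
        rw [← norm_star]
        congr 1
        simp only [star_mul, star_star, hp.starT_eq]
        noncomm_ring
      calc ‖(p m * star y * b * yh) * p n‖ ≤ ‖(p m * star y * b * yh) * p m‖ :=
            hp.normT_mul_right_le _ hn
        _ ≤ ε := by rw [e2]; exact hm
    refine cs_subset_of_left_stable' _ isClosed_approxSub (self_mem_approxSub (one_mem B)) ?_ ?_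
    · rintro s (hs | hs)
      · refine approxSub_mul_left ?_
        intro b hb
        exact self_mem_approxSub (mul_mem hs hb)
      · rw [Set.mem_singleton_iff] at hs
        subst hs
        exact hyB
    · rintro s (hs | hs)
      · refine approxSub_mul_left ?_
        intro b hb
        exact self_mem_approxSub (mul_mem (star_mem hs) hb)
      · rw [Set.mem_singleton_iff] at hs
        subst hs
        exact hyB'
  intro x hx
  rw [Metric.tendsto_atTop']
  intro ε hε
  obtain ⟨b, hb, hb'⟩ := hX x hx (ε / 3) (by positivity)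
  have h3 := (h1 b hb).eventually (ge_mem_nhds (show (0:ℝ) < ε / 3 by positivity))
  obtain ⟨N, hN⟩ := (hb'.and h3).exists_forall_of_atTop
  refine ⟨N, fun n hn => ?_⟩
  obtain ⟨hn1, hn2⟩ := hN n hn.le
  rw [Real.dist_eq, sub_zero, abs_of_nonneg (norm_nonneg _)]
  have e : p n * x * yh * p n = p n * ((x - b) * (yh * p n)) + p n * b * yh * p n := by noncomm_ring
  rw [e]
  calc _ ≤ ‖p n * ((x - b) * (yh * p n))‖ + ‖p n * b * yh * p n‖ := norm_add_le _ _
    _ ≤ ‖p n‖ * ‖(x - b) * (yh * p n)‖ + ‖p n * b * yh * p n‖ := by gcongr; exact norm_mul_le _ _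
    _ ≤ 1 * (ε / 3) + ε / 3 := by
      gcongr
      exact hp.normT_le n
    _ < ε := by linarith

end proj

end Crest.Agent.R120
end

-- ▼ part R120/TypeII
section

/-!
# Type II extensions (blueprint section 3)
-/

set_option autoImplicit false

namespace Crest.Agent.R120

open scoped ComplexOrder
open Filter Topology

/-! ### general approximation lemma -/

section approx

variable {𝔹 : Type} [CStarAlgebra 𝔹]

/-- If a linear set `A0` of approximants is approximately stable (when tested on the right against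
the contractions `t n`) under left multiplication by the generators and their adjoints, then every
element of the generated algebra is approximated by an element of `A0`. -/
theorem approx_of_left_stable {S A0 : Set 𝔹} {t : ℕ → 𝔹} (ht : ∀ n, ‖t n‖ ≤ 1)
    (hadd : ∀ x ∈ A0, ∀ y ∈ A0, x + y ∈ A0) (hsmul : ∀ (c : ℂ), ∀ x ∈ A0, c • x ∈ A0)
    (h1 : (1 : 𝔹) ∈ A0)
    (hs : ∀ s ∈ S, ∀ w ∈ A0, ∀ ε > 0, ∃ w' ∈ A0, ∀ᶠ n in atTop, ‖(s * w - w') * t n‖ ≤ ε)
    (hs' : ∀ s ∈ S, ∀ w ∈ A0, ∀ ε > 0, ∃ w' ∈ A0, ∀ᶠ n in atTop, ‖(star s * w - w') * t n‖ ≤ ε) :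
    ∀ x ∈ cs S, ∀ ε > 0, ∃ w ∈ A0, ∀ᶠ n in atTop, ‖(x - w) * t n‖ ≤ ε := by
  set W : Set 𝔹 := {x | ∀ ε > 0, ∃ w ∈ A0, ∀ᶠ n in atTop, ‖(x - w) * t n‖ ≤ ε} with hW
  have hstep : ∀ s : 𝔹, (∀ w ∈ A0, ∀ ε > 0, ∃ w' ∈ A0, ∀ᶠ n in atTop,
      ‖(s * w - w') * t n‖ ≤ ε) → ∀ x ∈ W, s * x ∈ W := by
    intro s hs x hx ε hε
    obtain ⟨w, hw, hwx⟩ := hx (ε / (2 * (‖s‖ + 1))) (by positivity)
    obtain ⟨w', hw', hww'⟩ := hs w hw (ε / 2) (by positivity)
    refine ⟨w', hw', ?_⟩
    filter_upwards [hwx, hww'] with n h2 h3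
    have e : (s * x - w') * t n = s * ((x - w) * t n) + (s * w - w') * t n := by noncomm_ring
    rw [e]
    have h4 : ‖s * ((x - w) * t n)‖ ≤ ε / 2 := by
      calc _ ≤ ‖s‖ * ‖(x - w) * t n‖ := norm_mul_le _ _
        _ ≤ (‖s‖ + 1) * (ε / (2 * (‖s‖ + 1))) := by
            gcongr
            linarith
        _ = ε / 2 := by field_simp
    calc _ ≤ _ := norm_add_le _ _
      _ ≤ ε / 2 + ε / 2 := add_le_add h4 h3
      _ = ε := by ring
  have hWc : IsClosed W := by
    rw [← closure_subset_iff_isClosed]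
    intro x hx ε hε
    obtain ⟨z, hz, hxz⟩ := Metric.mem_closure_iff.mp hx (ε / 2) (by positivity)
    rw [dist_eq_norm] at hxz
    obtain ⟨w, hw, hwz⟩ := hz (ε / 2) (by positivity)
    refine ⟨w, hw, ?_⟩
    filter_upwards [hwz] with n hn
    have e : (x - w) * t n = (x - z) * t n + (z - w) * t n := by noncomm_ring
    rw [e]
    have h4 : ‖(x - z) * t n‖ ≤ ε / 2 := by
      calc _ ≤ ‖x - z‖ * ‖t n‖ := norm_mul_le _ _
        _ ≤ (ε / 2) * 1 := by gcongr; exact ht n
        _ = _ := mul_one _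
    calc _ ≤ _ := norm_add_le _ _
      _ ≤ ε / 2 + ε / 2 := add_le_add h4 hn
      _ = ε := by ring
  refine mem_of_left_stable (W := W) hWc ?_ ?_ ?_ ?_ ?_
  · intro x hx y hy ε hε
    obtain ⟨w, hw, hwx⟩ := hx (ε / 2) (by positivity)
    obtain ⟨w', hw', hwy⟩ := hy (ε / 2) (by positivity)
    refine ⟨w + w', hadd _ hw _ hw', ?_⟩
    filter_upwards [hwx, hwy] with n h2 h3
    have e : (x + y - (w + w')) * t n = (x - w) * t n + (y - w') * t n := by noncomm_ring
    rw [e]
    calc _ ≤ _ := norm_add_le _ _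
      _ ≤ ε / 2 + ε / 2 := add_le_add h2 h3
      _ = ε := by ring
  · intro c x hx ε hε
    obtain ⟨w, hw, hwx⟩ := hx (ε / (‖c‖ + 1)) (by positivity)
    refine ⟨c • w, hsmul _ _ hw, ?_⟩
    filter_upwards [hwx] with n h2
    rw [← smul_sub, smul_mul_assoc, norm_smul]
    calc ‖c‖ * ‖(x - w) * t n‖ ≤ (‖c‖ + 1) * (ε / (‖c‖ + 1)) := by gcongr; linarith
      _ = ε := by field_simp
  · intro ε hε
    refine ⟨1, h1, Eventually.of_forall (fun n => ?_)⟩
    simpa using hε.le
  · intro s hsS x hx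
    exact hstep s (hs s hsS) x hx
  · intro s hsS x hx
    exact hstep (star s) (hs' s hsS) x hx

theorem DecProj.norm_le_one {p : ℕ → 𝔹} (hp : DecProj p) (n : ℕ) : ‖p n‖ ≤ 1 := by
  have h1 := CStarRing.norm_star_mul_self (x := p n)
  rw [(hp.proj n).isSelfAdjoint.star_eq, (hp.proj n).isIdempotentElem.eq] at h1
  by_contra hcon
  push Not at hcon
  nlinarith [norm_nonneg (p n)]

theorem DecProj.star_eq {p : ℕ → 𝔹} (hp : DecProj p) (n : ℕ) : star (p n) = p n :=
  (hp.proj n).isSelfAdjoint.star_eq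

theorem DecProj.mul' {p : ℕ → 𝔹} (hp : DecProj p) {n m : ℕ} (h : n ≤ m) : p m * p n = p m := by
  have := congrArg star (hp.mul n m h)
  rwa [star_mul, hp.star_eq, hp.star_eq] at this

theorem DecProj.norm_mul_le {p : ℕ → 𝔹} (hp : DecProj p) (n : ℕ) (x : 𝔹) : ‖p n * x‖ ≤ ‖x‖ := by
  calc _ ≤ ‖p n‖ * ‖x‖ := _root_.norm_mul_le _ _
    _ ≤ 1 * ‖x‖ := by gcongr; exact hp.norm_le_one n
    _ = _ := one_mul _

theorem DecProj.norm_mul_le' {p : ℕ → 𝔹} (hp : DecProj p) (n : ℕ) (x : 𝔹) : ‖x * p n‖ ≤ ‖x‖ := by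
  calc _ ≤ ‖x‖ * ‖p n‖ := _root_.norm_mul_le _ _
    _ ≤ ‖x‖ * 1 := by gcongr; exact hp.norm_le_one n
    _ = _ := mul_one _

/-- conjugating a decreasing sequence of projections by a unitary -/
theorem DecProj.conj {p : ℕ → 𝔹} (hp : DecProj p) {y : 𝔹} (hy : y ∈ unitary 𝔹) :
    DecProj (fun n => y * p n * star y) := by
  have hyy' : star y * y = 1 := Unitary.star_mul_self_of_mem hy
  have hmul : ∀ n m, y * p n * star y * (y * p m * star y) = y * (p n * p m) * star y := by
    intro n m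
    calc y * p n * star y * (y * p m * star y) = y * p n * (star y * y) * p m * star y := by
          simp only [mul_assoc]
      _ = _ := by rw [hyy']; simp only [mul_one, mul_assoc]
  refine ⟨fun n => ⟨?_, ?_⟩, fun n m hnm => ?_⟩
  · change _ * _ = _
    rw [hmul, (hp.proj n).isIdempotentElem.eq]
  · change star _ = _
    rw [star_mul, star_mul, star_star, hp.star_eq]
    simp only [mul_assoc]
  · change _ * _ = _
    rw [hmul, hp.mul n m hnm]

end approx

variable {𝔹 : Type} [CStarAlgebra 𝔹] [PartialOrder 𝔹] [StarOrderedRing 𝔹]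
variable {B : StarSubalgebra ℂ 𝔹} {p : ℕ → 𝔹} {φ : 𝔹 →ₚ[ℂ] ℂ} {y : 𝔹}

/-! ### states with `φ (p n) = 1` -/

theorem sn_one_sub_eq_zero (hφ1 : φ 1 = 1) {q : 𝔹} (hq : IsStarProjection q) (h : φ q = 1) :
    sn φ (1 - q) = 0 := by
  have h1 := sn_proj_sq φ hq.one_sub
  rw [map_sub, hφ1, h] at h1
  simpa using h1

theorem apply_eq_compress (hφ1 : φ 1 = 1) {q : 𝔹} (hq : IsStarProjection q) (h : φ q = 1)
    (T : 𝔹) : φ T = φ (q * T * q) := by
  have hs := sn_one_sub_eq_zero hφ1 hq h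
  have e : T = q * T * q + ((1 - q) * T + q * T * (1 - q)) := by noncomm_ring
  have h1 : φ ((1 - q) * T) = 0 := by
    have := norm_mul_le_sn_star hφ1 (1 - q) T
    rw [star_sub, star_one, hq.isSelfAdjoint.star_eq, hs, zero_mul] at this
    exact norm_le_zero_iff.mp this
  have h2 : φ (q * T * (1 - q)) = 0 := by
    have := norm_mul_le_sn hφ1 (q * T) (1 - q)
    rw [hs, mul_zero] at this
    exact norm_le_zero_iff.mp this
  conv_lhs => rw [e]
  rw [map_add, map_add, h1, h2]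
  simp

theorem norm_apply_le_compress (hφ1 : φ 1 = 1) {q : 𝔹} (hq : IsStarProjection q) (h : φ q = 1)
    (T : 𝔹) : ‖φ T‖ ≤ ‖q * T * q‖ := by
  rw [apply_eq_compress hφ1 hq h T]
  exact norm_apply_le φ hφ1 _

theorem apply_eq_zero_of_C0 (hφ1 : φ 1 = 1) (hp : DecProj p) (h : ∀ n, φ (p n) = 1) {T : 𝔹}
    (hT : T ∈ C0 p) : φ T = 0 := by
  have h1 : ‖φ T‖ ≤ 0 :=
    ge_of_tendsto (show Tendsto _ _ _ from hT) (Eventually.of_forall
      (fun n => norm_apply_le_compress hφ1 (hp.proj n) (h n) T))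
  exact norm_le_zero_iff.mp h1

theorem N0_unitary_iff (hy : y ∈ unitary 𝔹) {x : 𝔹} :
    x ∈ N0 (fun n => y * p n * star y) (conj φ y) ↔ star y * x * y ∈ N0 p φ := by
  have e : ∀ n, ‖y * p n * star y * x * (y * p n * star y) - conj φ y x • (y * p n * star y)‖ =
      ‖p n * (star y * x * y) * p n - φ (star y * x * y) • p n‖ := by
    intro n
    have e1 : y * p n * star y * x * (y * p n * star y) - conj φ y x • (y * p n * star y) =
        y * (p n * (star y * x * y) * p n - φ (star y * x * y) • p n) * star y := by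
      rw [conj_apply]
      simp only [mul_sub, sub_mul, mul_smul_comm, smul_mul_assoc, mul_assoc]
    rw [e1, CStarRing.norm_mul_mem_unitary _ (Unitary.star_mem hy),
      CStarRing.norm_mem_unitary_mul _ hy]
  constructor
  · intro h
    exact (show Tendsto _ _ _ from h).congr e
  · intro h
    exact (show Tendsto _ _ _ from h).congr (fun n => (e n).symm)

namespace TII

theorem norm_y_mul (h : TII B p φ y) (x : 𝔹) : ‖y * x‖ = ‖x‖ :=
  CStarRing.norm_mem_unitary_mul _ h.uni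


theorem star_mul_y (h : TII B p φ y) : star y * y = 1 := Unitary.star_mul_self_of_mem h.uni

theorem y_mul_star (h : TII B p φ y) : y * star y = 1 := Unitary.mul_star_self_of_mem h.uni

theorem starmem (h : TII B p φ y) (n : ℕ) : (1 - p n) * star y ∈ B := by
  have := star_mem (h.ymem n)
  rwa [star_mul, star_sub, star_one, h.dec.star_eq] at this

theorem emem (h : TII B p φ y) (n : ℕ) : y * p n * star y ∈ B := by
  have h1 := mul_mem (h.ymem n) (h.starmem n)
  have h2 : y * (1 - p n) * ((1 - p n) * star y) = 1 - y * p n * star y := by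
    have hi : (1 - p n) * (1 - p n) = 1 - p n := (h.dec.proj n).one_sub.isIdempotentElem.eq
    calc y * (1 - p n) * ((1 - p n) * star y) = y * ((1 - p n) * (1 - p n)) * star y := by
          simp only [mul_assoc]
      _ = y * star y - y * p n * star y := by rw [hi]; noncomm_ring
      _ = _ := by rw [h.y_mul_star]
  rw [h2] at h1
  have h3 := sub_mem (one_mem B) h1
  simpa using h3

/-- (0~) -/
theorem N0_ext (h : TII B p φ y) : ∀ x ∈ cs ((B : Set 𝔹) ∪ {y}), x ∈ N0 p φ := by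
  have hp := h.dec
  set A0 : Set 𝔹 := {w | ∃ b ∈ B, ∃ b' ∈ B, w = b + b' * y} with hA0
  have key : ∀ x ∈ cs ((B : Set 𝔹) ∪ {y}), ∀ ε > 0, ∃ w ∈ A0, ∀ᶠ n in atTop,
      ‖(x - w) * p n‖ ≤ ε := by
    have hBstep : ∀ s ∈ B, ∀ w ∈ A0, ∀ ε > 0, ∃ w' ∈ A0, ∀ᶠ n in atTop,
        ‖(s * w - w') * p n‖ ≤ ε := by
      rintro s hs w ⟨b, hb, b', hb', rfl⟩ ε hε
      refine ⟨s * (b + b' * y), ⟨s * b, mul_mem hs hb, s * b', mul_mem hs hb', by noncomm_ring⟩, ?_⟩
      refine Eventually.of_forall (fun n => ?_)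
      simpa using hε.le
    refine approx_of_left_stable (t := p) hp.norm_le_one ?_ ?_ ?_ ?_ ?_
    · rintro _ ⟨b, hb, b', hb', rfl⟩ _ ⟨c, hc, c', hc', rfl⟩
      exact ⟨b + c, add_mem hb hc, b' + c', add_mem hb' hc', by noncomm_ring⟩
    · rintro c _ ⟨b, hb, b', hb', rfl⟩
      exact ⟨c • b, B.smul_mem hb c, c • b', B.smul_mem hb' c, by
        rw [smul_add, smul_mul_assoc]⟩
    · exact ⟨1, one_mem _, 0, zero_mem _, by simp⟩
    · rintro s (hs | hs) w hw ε hε
      · exact hBstep s hs w hw ε hε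
      · obtain rfl : s = y := hs
        obtain ⟨b, hb, b', hb', rfl⟩ := hw
        -- y b ≈ y (1 - p_m) b + φ(b) y ;  y b' y ≈ y (1 - p_m) b' y
        have h1 : Tendsto (fun n => ‖p n * b * p n - φ b • p n‖) atTop (𝓝 0) := h.h0 b hb
        have h2 : Tendsto (fun n => ‖p n * (b' * s) * p n‖) atTop (𝓝 0) := h.hc b' hb'
        obtain ⟨m, hm1, hm2⟩ := ((h1.eventually (gt_mem_nhds (half_pos hε))).and
          (h2.eventually (gt_mem_nhds (half_pos hε)))).exists
        refine ⟨s * (1 - p m) * b + (φ b • (1 : 𝔹) + s * (1 - p m) * b') * s,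
          ⟨_, mul_mem (h.ymem m) hb, _, add_mem (B.smul_mem (one_mem B) _)
            (mul_mem (h.ymem m) hb'), rfl⟩, ?_⟩
        filter_upwards [eventually_ge_atTop m] with n hn
        have hmn : p m * p n = p n := hp.mul m n hn
        have e : (s * (b + b' * s) - (s * (1 - p m) * b +
            (φ b • (1 : 𝔹) + s * (1 - p m) * b') * s)) * p n =
            s * ((p m * b * p m - φ b • p m) * p n) + s * ((p m * (b' * s) * p m) * p n) := by
          have e1 : (p m * b * p m - φ b • p m) * p n = p m * b * p n - φ b • p n := by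
            rw [sub_mul, mul_assoc (p m * b), hmn, smul_mul_assoc, hmn]
          have e2 : (p m * (b' * s) * p m) * p n = p m * (b' * s) * p n := by
            rw [mul_assoc (p m * (b' * s)), hmn]
          rw [e1, e2]
          simp only [mul_sub, sub_mul, mul_add, add_mul, mul_one, one_mul, smul_mul_assoc,
            mul_smul_comm, mul_assoc]
          abel
        rw [e]
        refine (norm_add_le _ _).trans ?_
        rw [h.norm_y_mul, h.norm_y_mul]
        have h3 := hp.norm_mul_le' n (p m * b * p m - φ b • p m)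
        have h4 := hp.norm_mul_le' n (p m * (b' * s) * p m)
        linarith
    · rintro s (hs | hs) w hw ε hε
      · exact hBstep _ (star_mem hs) w hw ε hε
      · obtain rfl : s = y := hs
        obtain ⟨b, hb, b', hb', rfl⟩ := hw
        -- y* b ≈ (1 - p_m) y* b ; y* b' y ≈ (1-p_m) y* b' y + φ(y* b' y)
        have h1 : Tendsto (fun n => ‖p n * (star s * b' * s) * p n - φ (star s * b' * s) • p n‖)
          atTop (𝓝 0) := h.hb b' hb'
        have h2 : Tendsto (fun n => ‖p n * (star b * s) * p n‖) atTop (𝓝 0) :=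
          h.hc _ (star_mem hb)
        obtain ⟨m, hm1, hm2⟩ := ((h1.eventually (gt_mem_nhds (half_pos hε))).and
          (h2.eventually (gt_mem_nhds (half_pos hε)))).exists
        have hm2' : ‖p m * (star s * b) * p m‖ < ε / 2 := by
          have : p m * (star s * b) * p m = star (p m * (star b * s) * p m) := by
            simp only [star_mul, star_star, hp.star_eq, mul_assoc]
          rw [this, norm_star]; exact hm2
        refine ⟨((1 - p m) * star s * b + φ (star s * b' * s) • (1 : 𝔹)) +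
          ((1 - p m) * star s * b') * s,
          ⟨_, add_mem (mul_mem (h.starmem m) hb) (B.smul_mem (one_mem B) _), _,
            (mul_mem (h.starmem m) hb'), rfl⟩, ?_⟩
        filter_upwards [eventually_ge_atTop m] with n hn
        have hmn : p m * p n = p n := hp.mul m n hn
        have e : (star s * (b + b' * s) - (((1 - p m) * star s * b +
            φ (star s * b' * s) • (1 : 𝔹)) + ((1 - p m) * star s * b') * s)) * p n =
            (p m * (star s * b' * s) * p m - φ (star s * b' * s) • p m) * p n +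
            (p m * (star s * b) * p m) * p n := by
          have e1 : (p m * (star s * b' * s) * p m - φ (star s * b' * s) • p m) * p n =
              p m * (star s * b' * s) * p n - φ (star s * b' * s) • p n := by
            rw [sub_mul, mul_assoc (p m * (star s * b' * s)), hmn, smul_mul_assoc, hmn]
          have e2 : (p m * (star s * b) * p m) * p n = p m * (star s * b) * p n := by
            rw [mul_assoc (p m * (star s * b)), hmn]
          rw [e1, e2]
          simp only [mul_sub, sub_mul, mul_add, add_mul, mul_one, one_mul, smul_mul_assoc,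
            mul_smul_comm, mul_assoc]
          abel
        rw [e]
        refine (norm_add_le _ _).trans ?_
        have h3 := hp.norm_mul_le' n (p m * (star s * b' * s) * p m - φ (star s * b' * s) • p m)
        have h4 := hp.norm_mul_le' n (p m * (star s * b) * p m)
        linarith
  intro x hx
  change Tendsto _ _ _
  rw [Metric.tendsto_atTop]
  intro ε hε
  obtain ⟨w, ⟨b, hb, b', hb', rfl⟩, hw⟩ := key x hx (ε / 8) (by positivity)
  have h1 : Tendsto (fun n => ‖p n * b * p n - φ b • p n‖) atTop (𝓝 0) := h.h0 b hb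
  have h2 : Tendsto (fun n => ‖p n * (b' * y) * p n‖) atTop (𝓝 0) := h.hc b' hb'
  have hφb' : φ (b' * y) = 0 := apply_eq_zero_of_C0 h.φ_one hp h.φ_p (h.hc b' hb')
  obtain ⟨N, hN⟩ := eventually_atTop.mp ((hw.and (h1.eventually (gt_mem_nhds
    (show (0 : ℝ) < ε / 8 by positivity)))).and (h2.eventually (gt_mem_nhds
    (show (0 : ℝ) < ε / 8 by positivity))))
  have hφx : ‖φ x - φ b‖ ≤ ε / 8 := by
    have e : φ x - φ b = φ (x - (b + b' * y)) := by simp [hφb']
    rw [e]
    refine (norm_apply_le_compress h.φ_one (hp.proj N) (h.φ_p N) _).trans ?_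
    rw [mul_assoc]
    exact (hp.norm_mul_le N _).trans (hN N le_rfl).1.1
  refine ⟨N, fun n hn => ?_⟩
  obtain ⟨⟨g1, g2⟩, g3⟩ := hN n hn
  rw [dist_zero_right, norm_norm]
  have e : p n * x * p n - φ x • p n = p n * ((x - (b + b' * y)) * p n) +
      (p n * b * p n - φ b • p n) + p n * (b' * y) * p n - (φ x - φ b) • p n := by
    simp only [mul_sub, sub_mul, mul_add, add_mul, sub_smul, mul_assoc]
    abel
  rw [e]
  have g4 : ‖p n * ((x - (b + b' * y)) * p n)‖ ≤ ε / 8 := (hp.norm_mul_le n _).trans g1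
  have g5 : ‖(φ x - φ b) • p n‖ ≤ ε / 8 := by
    rw [norm_smul]
    calc _ ≤ ε / 8 * 1 := by gcongr; exact hp.norm_le_one n
      _ = _ := mul_one _
  calc _ ≤ ‖p n * ((x - (b + b' * y)) * p n)‖ + ‖p n * b * p n - φ b • p n‖ +
        ‖p n * (b' * y) * p n‖ + ‖(φ x - φ b) • p n‖ := by
        refine (norm_sub_le _ _).trans ?_
        gcongr
        exact norm_add₃_le
    _ < ε := by linarith

end TII

theorem mul_self_le_norm_smul {E : 𝔹} (hE : 0 ≤ E) : E * E ≤ ‖E‖ • E := by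
  have hs : 0 ≤ CFC.sqrt E := CFC.sqrt_nonneg E
  have hss : CFC.sqrt E * CFC.sqrt E = E := CFC.sqrt_mul_sqrt_self E hE
  set s := CFC.sqrt E with hsdef
  have hsst : star s = s := (IsSelfAdjoint.of_nonneg hs).star_eq
  have h2 := CStarAlgebra.star_left_conjugate_le_norm_smul (a := s) (b := E)
    (hb := .of_nonneg hE)
  rw [hsst, hss] at h2
  have h3 : s * E * s = E * E := by
    calc s * E * s = s * (s * s) * s := by rw [hss]
      _ = (s * s) * (s * s) := by simp only [mul_assoc]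
      _ = E * E := by rw [hss]
  rwa [h3] at h2

/-- the final norm estimate of the transfer lemma -/
theorem transfer_est {aj x E : 𝔹} {μ : ℂ} {r ε : ℝ} (haj : ‖aj‖ ≤ 1) (hj : ‖(1 - E) * aj‖ ≤ r)
    (hj' : ‖aj * (1 - E)‖ ≤ r) (hE2 : ‖E‖ ≤ 2) (hExE : ‖E * x * E - μ • E‖ ≤ ε) (hr0 : 0 ≤ r)
    (hε0 : 0 ≤ ε) :
    ‖aj * x * aj - μ • (aj * aj)‖ ≤ (3 * ‖x‖ + ‖μ‖) * r + ε := by
  have e1 : aj * x * aj - μ • (aj * aj) =
      (aj * (1 - E)) * (x * aj) + aj * (E * x) * ((1 - E) * aj) +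
      aj * (E * x * E - μ • E) * aj - μ • (aj * ((1 - E) * aj)) := by
    simp only [mul_sub, sub_mul, smul_sub, mul_one, one_mul, mul_smul_comm,
      smul_mul_assoc, mul_assoc]
    abel
  have g1 : ‖(aj * (1 - E)) * (x * aj)‖ ≤ r * ‖x‖ := by
    calc _ ≤ ‖aj * (1 - E)‖ * ‖x * aj‖ := norm_mul_le _ _
      _ ≤ r * (‖x‖ * 1) := by
          gcongr
          exact (norm_mul_le _ _).trans (by gcongr)
      _ = _ := by rw [mul_one]
  have g2 : ‖aj * (E * x) * ((1 - E) * aj)‖ ≤ 2 * ‖x‖ * r := by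
    calc _ ≤ ‖aj * (E * x)‖ * ‖(1 - E) * aj‖ := norm_mul_le _ _
      _ ≤ (1 * (2 * ‖x‖)) * r := by
          gcongr
          refine (norm_mul_le _ _).trans ?_
          gcongr
          exact (norm_mul_le _ _).trans (by gcongr)
      _ = _ := by ring
  have g3 : ‖aj * (E * x * E - μ • E) * aj‖ ≤ ε := by
    calc _ ≤ ‖aj * (E * x * E - μ • E)‖ * ‖aj‖ := norm_mul_le _ _
      _ ≤ (1 * ε) * 1 := by
          gcongr
          exact (norm_mul_le _ _).trans (by gcongr)
      _ = _ := by ring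
  have g4 : ‖μ • (aj * ((1 - E) * aj))‖ ≤ ‖μ‖ * r := by
    rw [norm_smul]
    calc _ ≤ ‖μ‖ * (1 * r) := by
          gcongr
          exact (norm_mul_le _ _).trans (by gcongr)
      _ = _ := by ring
  rw [e1]
  calc _ ≤ ‖(aj * (1 - E)) * (x * aj)‖ + ‖aj * (E * x) * ((1 - E) * aj)‖ +
        ‖aj * (E * x * E - μ • E) * aj‖ + ‖μ • (aj * ((1 - E) * aj))‖ := by
        refine (norm_sub_le _ _).trans ?_
        gcongr
        exact norm_add₃_le
    _ ≤ r * ‖x‖ + 2 * ‖x‖ * r + ε + ‖μ‖ * r := by gcongr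
    _ = _ := by ring

/-- TRANSFER LEMMA -/
theorem Exc.transfer {B' : StarSubalgebra ℂ 𝔹} {e : ℕ → 𝔹} {ρ : 𝔹 →ₚ[ℂ] ℂ} (hBB : B ≤ B')
    (he : DecProj e) (heB : ∀ n, e n ∈ B) (hρ1 : ρ 1 = 1)
    (h0 : ∀ x ∈ B', x ∈ N0 e ρ) {ψ : 𝔹 →ₚ[ℂ] ℂ} {a : ℕ → 𝔹} (ha : Exc B ψ a) {c : 𝔹}
    (hc : c ∈ B) {δ : ℝ} (hδ : 0 < δ) (hδc : ∀ n, δ ≤ sn ψ (e n * c)) : Exc B' ψ a := by
  have hp := ha.peak
  -- the sequence q n = sn ψ (e n * c) ^ 2 is decreasing
  set q : ℕ → ℝ := fun n => sn ψ (e n * c) ^ 2 with hq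
  have hqanti : ∀ n m, n ≤ m → q m ≤ q n := by
    intro n m hnm
    have h1 : e m * c = e m * (e n * c) := by rw [← mul_assoc, he.mul' hnm]
    have h2 : sn ψ (e m * c) ≤ sn ψ (e n * c) := by
      rw [h1]
      calc _ ≤ ‖e m‖ * sn ψ (e n * c) := sn_mul_le _ _ _
        _ ≤ 1 * sn ψ (e n * c) := by
            gcongr
            · exact sn_nonneg _ _
            · exact he.norm_le_one m
        _ = _ := one_mul _
    simp only [hq]
    gcongr
    exact sn_nonneg _ _
  have hqlow : ∀ n, δ ^ 2 ≤ q n := fun n => by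
    simp only [hq]
    gcongr
    exact hδc n
  set L : ℝ := ⨅ n, q n with hL
  have hbdd : BddBelow (Set.range q) := ⟨δ ^ 2, by rintro _ ⟨n, rfl⟩; exact hqlow n⟩
  have hLq : ∀ n, L ≤ q n := fun n => ciInf_le hbdd n
  have hL0 : 0 < L := lt_of_lt_of_le (by positivity) (le_ciInf hqlow)
  refine ha.of_approx hBB (fun x hx ε₀ hε₀ => ?_)
  -- constants
  set K : ℝ := 4 * ‖x‖ + ‖c‖ ^ 2 * ‖x‖ / L with hK
  have hK0 : 0 ≤ K := by positivity
  set r : ℝ := ε₀ / (2 * (K + 1)) with hr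
  have hr0 : 0 < r := by positivity
  set ε : ℝ := min (min (1 / 2) (ε₀ / 2)) (r ^ 2 / 4) with hε
  have hε0 : 0 < ε := by positivity
  have hε1 : ε ≤ 1 / 2 := (min_le_left _ _).trans (min_le_left _ _)
  have hε2 : ε ≤ ε₀ / 2 := (min_le_left _ _).trans (min_le_right _ _)
  have hε3 : ε ≤ r ^ 2 / 4 := min_le_right _ _
  -- choose n0
  obtain ⟨n0, hn0⟩ : ∃ n0, q n0 < (1 + ε) * L := exists_lt_of_ciInf_lt (by nlinarith)
  -- choose k
  have hF0 : Tendsto (fun j => ‖e n0 * c * a j‖ ^ 2) atTop (𝓝 (q n0)) :=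
    (ha.norm_mul_tendsto (mul_mem (heB n0) hc)).pow 2
  have hsn : Tendsto (fun j => 2 * ‖c‖ ^ 2 * sn ψ (1 - a j)) atTop (𝓝 0) := by
    simpa using hp.sn_one_sub.const_mul (2 * ‖c‖ ^ 2)
  obtain ⟨k, hk1, hk2⟩ := ((hF0.eventually (gt_mem_nhds (show q n0 < (1 + 2 * ε) * L by
    nlinarith))).and (hsn.eventually (gt_mem_nhds (show 0 < ε * L by positivity)))).exists
  have hak : star (a k) = a k := ha.star_eq k
  -- choose n
  set w : 𝔹 := c * a k * x * a k * star c with hw
  have hwB : w ∈ B' := by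
    have h1 := hBB hc
    have h2 := hBB (ha.mem k)
    exact mul_mem (mul_mem (mul_mem (mul_mem h1 h2) hx) h2) (star_mem h1)
  have hw0 : Tendsto (fun n => ‖e n * w * e n - ρ w • e n‖) atTop (𝓝 0) := h0 w hwB
  obtain ⟨n, hn1, hn2⟩ := ((hw0.eventually (gt_mem_nhds (show
    0 < ε * L ^ 2 / (‖c‖ ^ 2 + 1) by positivity))).and (eventually_ge_atTop n0)).exists
  set E0 : 𝔹 := a k * (star c * e n * c) * a k with hE0
  set E : 𝔹 := (L⁻¹ : ℝ) • E0 with hE
  have hen : e n * e n = e n := (he.proj n).isIdempotentElem.eq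
  have hE0' : E0 = star (e n * c * a k) * (e n * c * a k) := by
    rw [star_mul, star_mul, he.star_eq, hak]
    calc E0 = a k * (star c * (e n * e n) * c) * a k := by rw [hen]
      _ = _ := by simp only [mul_assoc]
  have hE0n : ‖E0‖ ≤ (1 + 2 * ε) * L := by
    rw [hE0', CStarRing.norm_star_mul_self, ← sq]
    have h1 : e n * c * a k = e n * (e n0 * c * a k) := by
      simp only [← mul_assoc]; rw [he.mul' hn2]
    have h2 : ‖e n * c * a k‖ ≤ ‖e n0 * c * a k‖ := by
      rw [h1]; exact he.norm_mul_le n _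
    calc ‖e n * c * a k‖ ^ 2 ≤ ‖e n0 * c * a k‖ ^ 2 := by gcongr
      _ ≤ _ := hk1.le
  have hE00 : 0 ≤ E0 := by rw [hE0']; exact star_mul_self_nonneg _
  have hEn : ‖E‖ ≤ 1 + 2 * ε := by
    rw [hE, norm_smul, norm_inv, Real.norm_of_nonneg hL0.le]
    calc L⁻¹ * ‖E0‖ ≤ L⁻¹ * ((1 + 2 * ε) * L) := by gcongr
      _ = 1 + 2 * ε := by field_simp
  have hE00' : 0 ≤ E := smul_nonneg (by positivity) hE00
  have hEsa : star E = E := (IsSelfAdjoint.of_nonneg hE00').star_eq
  have hEc : E = ((L⁻¹ : ℝ) : ℂ) • E0 := (Complex.coe_smul _ _).symm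
  have hEB : E ∈ B := by
    rw [hEc]
    exact B.smul_mem (mul_mem (mul_mem (ha.mem k) (mul_mem (mul_mem (star_mem hc) (heB n)) hc))
      (ha.mem k)) _
  -- ψ E ≥ 1 - ε
  have hqn : q n = (ψ (star c * e n * c)).re := by
    simp only [hq]
    rw [sn_sq, star_mul, he.star_eq]
    congr 2
    calc star c * e n * (e n * c) = star c * (e n * e n) * c := by simp only [mul_assoc]
      _ = _ := by rw [hen]
  have hψE : 1 - ε ≤ (ψ E).re := by
    have h1 := hp.norm_sub_le (star c * e n * c) k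
    have h2 : ‖star c * e n * c‖ ≤ ‖c‖ ^ 2 := by
      calc ‖star c * e n * c‖ ≤ ‖star c * e n‖ * ‖c‖ := _root_.norm_mul_le _ _
        _ ≤ ‖star c‖ * ‖c‖ := by gcongr; exact he.norm_mul_le' n _
        _ = ‖c‖ ^ 2 := by rw [norm_star, sq]
    have h3 : ‖ψ (star c * e n * c) - ψ E0‖ ≤ ε * L := by
      refine h1.trans (le_trans ?_ hk2.le)
      have := sn_nonneg ψ (1 - a k)
      gcongr
    have h4 : (ψ (star c * e n * c)).re - (ψ E0).re ≤ ε * L := by
      have := (Complex.abs_re_le_norm (ψ (star c * e n * c) - ψ E0)).trans h3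
      rw [Complex.sub_re] at this
      exact (le_abs_self _).trans this
    have h5 : (ψ E).re = L⁻¹ * (ψ E0).re := by
      rw [hEc, map_smul, smul_eq_mul, Complex.re_ofReal_mul]
    rw [h5, ← hqn] at *
    have h6 : (1 - ε) * L ≤ (ψ E0).re := by
      have := hLq n
      nlinarith
    calc 1 - ε = L⁻¹ * ((1 - ε) * L) := by field_simp
      _ ≤ L⁻¹ * (ψ E0).re := by gcongr
  have hψE2 : (ψ (E * E)).re ≤ (1 + 2 * ε) * (ψ E).re := by
    have h1 : E * E ≤ ‖E‖ • E := mul_self_le_norm_smul hE00'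
    have h4 := apply_re_mono ψ h1
    rw [← Complex.coe_smul, map_smul, smul_eq_mul, Complex.re_ofReal_mul] at h4
    refine h4.trans ?_
    gcongr
    exact apply_re_nonneg ψ hE00'
  have hsnE : sn ψ (1 - E) < r := by
    have h1 : sn ψ (1 - E) ^ 2 ≤ 3 * ε := by
      rw [sn_sq, star_sub, star_one, hEsa]
      have h2 : (1 - E) * (1 - E) = 1 - (E + E) + E * E := by noncomm_ring
      rw [h2, map_add, map_sub, map_add, hp.one]
      simp only [Complex.add_re, Complex.sub_re, Complex.one_re]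
      nlinarith
    have h3 : sn ψ (1 - E) ^ 2 < r ^ 2 := by nlinarith
    exact lt_of_pow_lt_pow_left₀ 2 hr0.le h3
  have hEaj : ∀ᶠ j in atTop, ‖(1 - E) * a j‖ ≤ r := by
    have := (ha.norm_mul_tendsto (sub_mem (one_mem B) hEB)).eventually (gt_mem_nhds hsnE)
    filter_upwards [this] with j hj
    exact hj.le
  -- E x E ≈ μ E
  set μ : ℂ := ((L⁻¹ : ℝ) : ℂ) * ρ w with hμ
  have hμn : ‖μ‖ ≤ ‖c‖ ^ 2 * ‖x‖ / L := by
    rw [hμ, norm_mul, Complex.norm_real, norm_inv, Real.norm_of_nonneg hL0.le]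
    have h1 : ‖w‖ ≤ ‖c‖ ^ 2 * ‖x‖ := by
      calc ‖w‖ ≤ ‖c * a k * x * a k‖ * ‖star c‖ := _root_.norm_mul_le _ _
        _ ≤ (‖c‖ * ‖a k‖ * ‖x‖ * ‖a k‖) * ‖c‖ := by
            rw [norm_star]
            gcongr
            refine (_root_.norm_mul_le _ _).trans ?_
            gcongr
            refine (_root_.norm_mul_le _ _).trans ?_
            gcongr
            exact _root_.norm_mul_le _ _
        _ ≤ (‖c‖ * 1 * ‖x‖ * 1) * ‖c‖ := by
            have := hp.norm_le_one k
            gcongr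
        _ = _ := by ring
    calc L⁻¹ * ‖ρ w‖ ≤ L⁻¹ * (‖c‖ ^ 2 * ‖x‖) := by
          gcongr
          exact (norm_apply_le ρ hρ1 w).trans h1
      _ = _ := by rw [div_eq_inv_mul]
  have hExE : ‖E * x * E - μ • E‖ ≤ ε := by
    have h1 : E * x * E - μ • E = (((L⁻¹ : ℝ) : ℂ) * ((L⁻¹ : ℝ) : ℂ)) •
        (a k * star c * (e n * w * e n - ρ w • e n) * (c * a k)) := by
      rw [hEc, hμ]
      simp only [hE0, hw, smul_mul_assoc, mul_smul_comm, smul_smul, mul_sub, sub_mul, smul_sub,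
        mul_assoc]
      congr 2
      ring
    rw [h1, norm_smul, norm_mul, Complex.norm_real, norm_inv, Real.norm_of_nonneg hL0.le]
    have h2 : ‖a k * star c * (e n * w * e n - ρ w • e n) * (c * a k)‖ ≤
        ‖c‖ ^ 2 * (ε * L ^ 2 / (‖c‖ ^ 2 + 1)) := by
      have h3 : ‖a k * star c‖ ≤ ‖c‖ := by
        calc _ ≤ ‖a k‖ * ‖star c‖ := _root_.norm_mul_le _ _
          _ ≤ 1 * ‖star c‖ := by gcongr; exact hp.norm_le_one k
          _ = _ := by rw [one_mul, norm_star]
      have h4 : ‖c * a k‖ ≤ ‖c‖ := by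
        calc _ ≤ ‖c‖ * ‖a k‖ := _root_.norm_mul_le _ _
          _ ≤ ‖c‖ * 1 := by gcongr; exact hp.norm_le_one k
          _ = _ := mul_one _
      calc _ ≤ ‖a k * star c * (e n * w * e n - ρ w • e n)‖ * ‖c * a k‖ := _root_.norm_mul_le _ _
        _ ≤ (‖a k * star c‖ * ‖e n * w * e n - ρ w • e n‖) * ‖c * a k‖ := by
            gcongr; exact _root_.norm_mul_le _ _
        _ ≤ (‖c‖ * (ε * L ^ 2 / (‖c‖ ^ 2 + 1))) * ‖c‖ := by gcongr
        _ = _ := by ring
    calc L⁻¹ * L⁻¹ * ‖a k * star c * (e n * w * e n - ρ w • e n) * (c * a k)‖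
        ≤ L⁻¹ * L⁻¹ * (‖c‖ ^ 2 * (ε * L ^ 2 / (‖c‖ ^ 2 + 1))) := by gcongr
      _ = ε * (‖c‖ ^ 2 / (‖c‖ ^ 2 + 1)) := by field_simp
      _ ≤ ε * 1 := by
          gcongr
          rw [div_le_one (by positivity)]
          linarith
      _ = ε := mul_one _
  refine ⟨μ, ?_⟩
  filter_upwards [hEaj] with j hj
  have hj' : ‖a j * (1 - E)‖ ≤ r := by
    have : a j * (1 - E) = star ((1 - E) * a j) := by
      rw [star_mul, star_sub, star_one, hEsa, ha.star_eq]
    rw [this, norm_star]; exact hj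
  have haj := hp.norm_le_one j
  have hE2 : ‖E‖ ≤ 2 := hEn.trans (by linarith)
  refine (transfer_est haj hj hj' hE2 hExE hr0.le hε0.le).trans ?_
  calc (3 * ‖x‖ + ‖μ‖) * r + ε ≤ (K + 1) * r + ε₀ / 2 := by
        have : 3 * ‖x‖ + ‖μ‖ ≤ K + 1 := by
          rw [hK]
          nlinarith [norm_nonneg x]
        gcongr
    _ = ε₀ / 2 + ε₀ / 2 := by
        rw [hr]
        field_simp
    _ = ε₀ := by ring

namespace TII

/-- THEOREM TII -/
theorem exc_ext (h : TII B p φ y) {ψ : 𝔹 →ₚ[ℂ] ℂ} {a : ℕ → 𝔹} (ha : Exc B ψ a) :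
    Exc (cs ((B : Set 𝔹) ∪ {y})) ψ a := by
  have hBB : B ≤ cs ((B : Set 𝔹) ∪ {y}) := fun b hb => subset_cs _ (Or.inl hb)
  have hyB : y ∈ cs ((B : Set 𝔹) ∪ {y}) := subset_cs _ (Or.inr rfl)
  by_cases hA : ∃ c ∈ B, ∃ δ > 0, ∀ n, δ ≤ sn ψ (p n * c)
  · obtain ⟨c, hc, δ, hδ, hδc⟩ := hA
    exact ha.transfer hBB h.dec h.pmem h.φ_one h.N0_ext hc hδ hδc
  by_cases hA' : ∃ c ∈ B, ∃ δ > 0, ∀ n, δ ≤ sn ψ (y * p n * star y * c)
  · obtain ⟨c, hc, δ, hδ, hδc⟩ := hA'
    refine ha.transfer (ρ := conj φ y) (e := fun n => y * p n * star y) hBB (h.dec.conj h.uni)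
      h.emem ?_ ?_ hc hδ hδc
    · simp [h.star_mul_y, h.φ_one]
    · intro x hx
      rw [N0_unitary_iff h.uni]
      exact h.N0_ext _ (mul_mem (mul_mem (star_mem hyB) hx) hyB)
  push Not at hA hA'
  have hp := ha.peak
  have key : ∀ x ∈ cs ((B : Set 𝔹) ∪ {y}), ∀ ε > 0, ∃ b ∈ (B : Set 𝔹), ∀ᶠ n in atTop,
      ‖(x - b) * a n‖ ≤ ε := by
    have hBstep : ∀ s ∈ B, ∀ w ∈ (B : Set 𝔹), ∀ ε > 0, ∃ w' ∈ (B : Set 𝔹), ∀ᶠ n in atTop,
        ‖(s * w - w') * a n‖ ≤ ε := by
      intro s hs w hw ε hε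
      exact ⟨s * w, mul_mem hs hw, Eventually.of_forall (fun n => by simpa using hε.le)⟩
    refine approx_of_left_stable (t := a) hp.norm_le_one (fun _ hx _ hy => add_mem hx hy)
      (fun c _ hx => B.smul_mem hx c) (one_mem B) ?_ ?_
    · rintro s (hs | hs) w hw ε hε
      · exact hBstep s hs w hw ε hε
      · obtain rfl : s = y := hs
        obtain ⟨m, hm⟩ := hA w hw ε hε
        refine ⟨s * (1 - p m) * w, mul_mem (h.ymem m) hw, ?_⟩
        have := (ha.norm_mul_tendsto (mul_mem (h.pmem m) hw)).eventually (gt_mem_nhds hm)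
        filter_upwards [this] with j hj
        have e : (s * w - s * (1 - p m) * w) * a j = s * (p m * w * a j) := by noncomm_ring
        rw [e, h.norm_y_mul]
        exact hj.le
    · rintro s (hs | hs) w hw ε hε
      · exact hBstep _ (star_mem hs) w hw ε hε
      · obtain rfl : s = y := hs
        obtain ⟨m, hm⟩ := hA' w hw ε hε
        refine ⟨(1 - p m) * star s * w, mul_mem (h.starmem m) hw, ?_⟩
        have := (ha.norm_mul_tendsto (mul_mem (h.emem m) hw)).eventually (gt_mem_nhds hm)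
        filter_upwards [this] with j hj
        have e : (star s * w - (1 - p m) * star s * w) * a j = p m * (star s * w * a j) := by
          noncomm_ring
        have e2 : s * p m * star s * w * a j = s * (p m * (star s * w * a j)) := by
          simp only [mul_assoc]
        rw [e2, h.norm_y_mul] at hj
        rw [e]
        exact hj.le
  refine ha.of_approx hBB (fun x hx ε hε => ?_)
  obtain ⟨b, hb, hxb⟩ := key x hx (ε / 2) (by positivity)
  refine ⟨ψ b, ?_⟩
  filter_upwards [hxb, (ha.exc b hb).eventually (gt_mem_nhds (half_pos hε))] with j h1 h2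
  have e : a j * x * a j - ψ b • (a j * a j) =
      a j * ((x - b) * a j) + (a j * b * a j - ψ b • (a j * a j)) := by noncomm_ring
  rw [e]
  have h3 : ‖a j * ((x - b) * a j)‖ ≤ ε / 2 := by
    calc _ ≤ ‖a j‖ * ‖(x - b) * a j‖ := _root_.norm_mul_le _ _
      _ ≤ 1 * (ε / 2) := by gcongr; exact hp.norm_le_one j
      _ = _ := one_mul _
  calc _ ≤ _ := norm_add_le _ _
    _ ≤ ε / 2 + ε / 2 := add_le_add h3 h2.le
    _ = ε := by ring


end TII

end Crest.Agent.R120
end

-- ▼ part R120/Sys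

/-!
# Systems of extensions (blueprint section 5)
-/

set_option autoImplicit false

namespace Crest.Agent.R120

open scoped ComplexOrder
open Filter Topology

variable {𝔹 : Type} [CStarAlgebra 𝔹] [PartialOrder 𝔹] [StarOrderedRing 𝔹] {X : Type}

/-- The algebra generated by the base and the `u i`, `i ∈ L`. -/
noncomputable def PP.alg (M : PP 𝔹 X) {I : Type} (u : I → 𝔹) (L : Set I) :
    StarSubalgebra ℂ 𝔹 := cs (M.base ∪ u '' L)

/-- a set of indices closed under supports -/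
def IsCl {I : Type} (ch : I → Set I) (L : Set I) : Prop := ∀ i ∈ L, ch i ⊆ L

/-- `y` is an admissible unitary at the index `i` -/
structure PP.ValidAt (M : PP 𝔹 X) {I : Type} [LinearOrder I] (u : I → 𝔹) (ch : I → Set I)
    (i : I) (y : 𝔹) : Prop where
  cl : IsCl ch (ch i)
  uni : y ∈ unitary 𝔹
  a : ∀ n, y * (1 - M.p n) ∈ M.alg u (ch i)
  b : ∀ b ∈ M.alg u (ch i), star y * b * y ∈ N0 M.p M.φ
  c : ∀ b ∈ M.alg u {j | j < i}, b * y ∈ C0 M.p

/-- A system of extensions over the ambient structure `M`. -/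
structure Sys (M : PP 𝔹 X) (I : Type) [LinearOrder I] [WellFoundedLT I] where
  gen : X → I
  gen_inj : Function.Injective gen
  u : I → 𝔹
  ch : I → Set I
  ch_lt : ∀ i, ∀ j ∈ ch i, j < i
  ch_countable : ∀ i, (ch i).Countable
  u_gen : ∀ x, u (gen x) = M.G x
  ch_gen : ∀ x, ch (gen x) = ∅
  gen_lt : ∀ x i, (∀ x', i ≠ gen x') → gen x < i
  /-- the indices at which a genuine unitary is added -/
  valid : I → Prop
  valid_not_gen : ∀ i x, valid i → i ≠ gen x
  valid_at : ∀ i, valid i → M.ValidAt u ch i (u i)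
  not_valid : ∀ i, ¬ valid i → (∃ x, i = gen x) ∨ u i = 1

variable {M : PP 𝔹 X} {I : Type} [LinearOrder I] [WellFoundedLT I] (Sg : Sys M I)

/-- the algebra of an index set -/
noncomputable def Sys.A (L : Set I) : StarSubalgebra ℂ 𝔹 := M.alg Sg.u L

/-- generators in an index set -/
def Sys.X' (L : Set I) : Set X := {x | Sg.gen x ∈ L}

theorem Sys.isCl_lt {L : Set I} (hL : IsCl Sg.ch L) (j : I) :
    IsCl Sg.ch {l ∈ L | l < j} := by
  rintro i ⟨hi, hij⟩ k hk
  exact ⟨hL i hi hk, (Sg.ch_lt i k hk).trans hij⟩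

theorem IsCl.union {ch : I → Set I} {K L : Set I} (hK : IsCl ch K) (hL : IsCl ch L) :
    IsCl ch (K ∪ L) := by
  rintro i (hi | hi)
  · exact (hK i hi).trans Set.subset_union_left
  · exact (hL i hi).trans Set.subset_union_right

theorem PP.isClosed_alg (M : PP 𝔹 X) {I : Type} (u : I → 𝔹) (L : Set I) :
    IsClosed (M.alg u L : Set 𝔹) := isClosed_cs' _

theorem PP.alg_mono (M : PP 𝔹 X) {I : Type} (u : I → 𝔹) {K L : Set I} (h : K ⊆ L) :
    M.alg u K ≤ M.alg u L := Alg_mono _ u h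

theorem PP.cs_base_le_alg (M : PP 𝔹 X) {I : Type} (u : I → 𝔹) (L : Set I) :
    cs M.base ≤ M.alg u L := cs_mono' Set.subset_union_left


theorem Sys.A_le_U {L : Set I} (hL : IsCl Sg.ch L) : Sg.A L ≤ M.U (Sg.X' L) := by
  have key : ∀ i : I, ∀ L : Set I, IsCl Sg.ch L → i ∈ L → Sg.u i ∈ M.U (Sg.X' L) := by
    intro i
    induction i using WellFoundedLT.induction with
    | ind i IH =>
      intro L hL hi
      by_cases hv : Sg.valid i
      · have hV := Sg.valid_at i hv
        refine M.sc _ _ ?_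
        intro n
        have h1 := hV.a n
        have h2 : M.alg Sg.u (Sg.ch i) ≤ M.U (Sg.X' (Sg.ch i)) := by
          refine Alg_le (M.U_closed _) ?_ ?_
          · exact M.base_mem.trans (M.U_mono _ _ (Set.empty_subset _))
          · intro j hj
            exact IH j (Sg.ch_lt i j hj) _ hV.cl hj
        have h3 : Sg.X' (Sg.ch i) ⊆ Sg.X' L := fun x hx => hL i hi hx
        exact M.U_mono _ _ h3 (h2 h1)
      · rcases Sg.not_valid i hv with ⟨x, rfl⟩ | h1
        · rw [Sg.u_gen]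
          exact M.G_mem x _ hi
        · rw [h1]
          exact one_mem _
  refine Alg_le (M.U_closed _) ?_ ?_
  · exact M.base_mem.trans (M.U_mono _ _ (Set.empty_subset _))
  · intro i hi
    exact key i L hL hi

/-- A set of elements on which `1`-Lipschitz functionals tend to zero is closed. -/
theorem Sys.isClosed_tendsto_zero {E : Type*} [SeminormedAddCommGroup E] {f : ℕ → E → ℝ} {C : ℝ}
    (hC : 0 ≤ C) (hf : ∀ n x y, |f n x - f n y| ≤ C * ‖x - y‖) :
    IsClosed {x | Tendsto (fun n => f n x) atTop (𝓝 0)} := by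
  refine isClosed_of_closure_subset ?_
  intro x hx
  rw [Set.mem_ofPred_eq, Metric.tendsto_atTop]
  intro ε hε
  obtain ⟨y, hy, hxy⟩ := Metric.mem_closure_iff.1 hx (ε / (2 * (C + 1))) (by positivity)
  rw [Set.mem_ofPred_eq, Metric.tendsto_atTop] at hy
  obtain ⟨N, hN⟩ := hy (ε / 2) (by positivity)
  refine ⟨N, fun n hn => ?_⟩
  have h1 := hN n hn
  rw [Real.dist_eq, sub_zero] at h1 ⊢
  have h2 := hf n x y
  rw [dist_eq_norm] at hxy
  have h3 : C * ‖x - y‖ ≤ ε / 2 := by
    calc C * ‖x - y‖ ≤ (C + 1) * (ε / (2 * (C + 1))) := by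
          apply mul_le_mul _ hxy.le (norm_nonneg _) (by positivity)
          linarith
      _ = ε / 2 := by field_simp
  have h4 : |f n x| ≤ |f n x - f n y| + |f n y| := by
    have := abs_add_le (f n x - f n y) (f n y)
    simpa using this
  linarith

theorem Sys.isClosed_mul_C0 {p : ℕ → 𝔹} (hp : DecProj p) {z : 𝔹} (hz : ‖z‖ ≤ 1) :
    IsClosed {c : 𝔹 | c * z ∈ C0 p} := by
  refine Sys.isClosed_tendsto_zero (f := fun n c => ‖p n * (c * z) * p n‖) zero_le_one ?_
  intro n x y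
  refine (abs_norm_sub_norm_le _ _).trans ?_
  have e : p n * (x * z) * p n - p n * (y * z) * p n = p n * ((x - y) * z) * p n := by
    noncomm_ring
  rw [e, one_mul]
  have h1 := hp.normT_le n
  calc ‖p n * ((x - y) * z) * p n‖ ≤ ‖p n‖ * (‖x - y‖ * ‖z‖) * ‖p n‖ := by
        refine (norm_mul_le _ _).trans ?_
        gcongr
        refine (norm_mul_le _ _).trans ?_
        gcongr
        exact norm_mul_le _ _
    _ ≤ 1 * (‖x - y‖ * 1) * 1 := by gcongr
    _ = ‖x - y‖ := by ring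

/-- DISJ -/
theorem Sys.disj {L : Set I} (hL : IsCl Sg.ch L) {i : I} (hi : Sg.valid i) (hiL : i ∉ L) :
    ∀ c ∈ Sg.A L, c * Sg.u i ∈ C0 M.p := by
  have hVi := Sg.valid_at i hi
  have hui : ‖Sg.u i‖ ≤ 1 := by
    rcases subsingleton_or_nontrivial 𝔹 with h | h
    · rw [Subsingleton.elim (Sg.u i) 0]; simp
    · exact (CStarRing.norm_of_mem_unitary hVi.uni).le
  refine chain_induction M.base Sg.u (K := {l ∈ L | l < i}) (L := L) (fun l hl => hl.1)
    (P := fun c => c * Sg.u i ∈ C0 M.p) (Sys.isClosed_mul_C0 M.p_dec hui) ?_ ?_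
  · intro x hx
    refine hVi.c x (M.alg_mono Sg.u ?_ hx)
    exact fun l hl => hl.2
  · intro j hjL hjK IH x hx
    have hij : i < j := by
      rcases lt_trichotomy j i with h | h | h
      · exact absurd ⟨hjL, h⟩ hjK
      · exact absurd (h ▸ hjL) hiL
      · exact h
    set B := Alg M.base Sg.u ({l ∈ L | l < i} ∪ {l ∈ L | l < j}) with hB
    have hx' := Alg_insert_le _ _ _ _ hx
    by_cases hv : Sg.valid j
    · have hVj := Sg.valid_at j hv
      have ha : ∀ n, Sg.u j * (1 - M.p n) ∈ B := by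
        intro n
        refine M.alg_mono Sg.u ?_ (hVj.a n)
        intro l hl
        exact Or.inr ⟨hL j hjL hl, Sg.ch_lt j l hl⟩
      have := disj_step M.p_dec (B := B) hVj.uni hui ha (fun b hb => ?_) (fun b hb => ?_) x hx'
      · simpa only [C0, Set.mem_ofPred_eq, mul_assoc] using this
      · simpa only [C0, Set.mem_ofPred_eq, mul_assoc] using IH b hb
      · have h1 : star (b * Sg.u i) ∈ M.alg Sg.u {l | l < j} := by
          refine star_mem (mul_mem ?_ ?_)
          · refine M.alg_mono Sg.u ?_ hb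
            rintro l (hl | hl)
            · exact hl.2.trans hij
            · exact hl.2
          · exact u_mem_Alg hij
        simpa only [C0, Set.mem_ofPred_eq, mul_assoc] using hVj.c _ h1
    · rcases Sg.not_valid j hv with ⟨x, rfl⟩ | h1
      · exact absurd (Sg.gen_lt x i (fun x' => Sg.valid_not_gen i x' hi)) hij.not_gt
      · refine IH x ?_
        refine cs_le' (isClosed_Alg _ _ _) ?_ hx'
        rintro y (hy | hy)
        · exact hy
        · rw [Set.mem_singleton_iff] at hy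
          rw [hy, h1]
          exact one_mem _

/-- Property (*) of an index. -/
def Sys.Star (j : I) : Prop :=
  ∀ L : Set I, IsCl Sg.ch L → (∀ l ∈ L, l < j) → Sg.ch j ⊆ L →
    ∀ b ∈ Sg.A L, star (Sg.u j) * b * Sg.u j ∈ N0 M.p M.φ


theorem Sys.N0_eq' {p : ℕ → 𝔹} (hp : DecProj p) (φ : 𝔹 →ₚ[ℂ] ℂ) :
    N0 p φ = {x : 𝔹 | Tendsto (fun j => ‖p j * x * p j - φ x • (p j * p j)‖) atTop (𝓝 0)} := by
  ext x
  simp only [N0, Set.mem_ofPred_eq, hp.idemT]

theorem Sys.isClosed_N0' {p : ℕ → 𝔹} (hp : DecProj p) {φ : 𝔹 →ₚ[ℂ] ℂ} (hφ : φ 1 = 1) :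
    IsClosed (N0 p φ) := by
  rw [Sys.N0_eq' hp]
  exact Exc.isClosed_set hφ (fun j => hp.normT_le j)

/-- The type II data at a valid index. -/
theorem Sys.TII_at {B : StarSubalgebra ℂ 𝔹} (hBcl : IsClosed (B : Set 𝔹))
    (hbase : cs M.base ≤ B) {j : I} (hj : Sg.valid j)
    (hch : M.alg Sg.u (Sg.ch j) ≤ B) (h0 : ∀ b ∈ B, b ∈ N0 M.p M.φ)
    (hb : ∀ b ∈ B, star (Sg.u j) * b * Sg.u j ∈ N0 M.p M.φ)
    (hc : ∀ b ∈ B, b * Sg.u j ∈ C0 M.p) : TII B M.p M.φ (Sg.u j) where
  closed := hBcl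
  dec := M.p_dec
  pmem n := hbase (M.p_mem n)
  φ_one := M.φ_one
  φ_p := M.φ_p
  uni := (Sg.valid_at j hj).uni
  ymem n := hch ((Sg.valid_at j hj).a n)
  h0 := h0
  hb := hb
  hc := hc

/-- Generators are below every valid index. -/
theorem Sys.gen_lt_valid {j : I} (hj : Sg.valid j) (x : X) : Sg.gen x < j :=
  Sg.gen_lt x j (fun x' => Sg.valid_not_gen j x' hj)

/-- `p` excises the algebra of the base and the free involutions. -/
theorem Sys.N0_gens (N : Set X) : ∀ c ∈ Sg.A (Sg.gen '' N), c ∈ N0 M.p M.φ := by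
  have h1 : Exc (cs M.base) (conj M.φ 1) (fun n => 1 * M.p n * star 1) := by
    refine exc_of_N0 M.p_dec M.φ_one M.φ_p (one_mem _) ?_ ?_
    · intro n
      simpa using M.p_mem n
    · intro b hb
      simpa using M.base_N0 b hb
  have h2 : cs M.base ≤ M.U ∅ := cs_le' (M.U_closed _) M.base_mem
  have h3 := M.typeI (Y := ∅) (N := N) (Set.empty_disjoint N) (isClosed_cs' _) h2 le_rfl h1
  have h4 := N0_of_exc M.p_dec (one_mem _) h3
  intro c hc
  have h5 : c ∈ cs ((cs M.base : Set 𝔹) ∪ M.G '' N) := by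
    refine Alg_le (isClosed_cs' _) ?_ ?_ hc
    · intro b hb
      exact subset_cs' _ (Or.inl (subset_cs' _ hb))
    · rintro i ⟨x, hx, rfl⟩
      rw [Sg.u_gen]
      exact subset_cs' _ (Or.inr ⟨x, hx, rfl⟩)
  simpa using h4 c h5

/-- Lemma A. -/
theorem Sys.N0_of_star {L : Set I} (hL : IsCl Sg.ch L) (hS : ∀ j ∈ L, Sg.valid j → Sg.Star j) :
    ∀ c ∈ Sg.A L, c ∈ N0 M.p M.φ := by
  refine chain_induction M.base Sg.u (K := Sg.gen '' (Sg.X' L)) (L := L) ?_
    (P := fun c => c ∈ N0 M.p M.φ) (Sys.isClosed_N0' M.p_dec M.φ_one) (Sg.N0_gens _) ?_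
  · rintro l ⟨x, hx, rfl⟩
    exact hx
  · intro j hjL hjK IH x hx
    have hx' := Alg_insert_le _ _ _ _ hx
    by_cases hv : Sg.valid j
    · have hset : (Sg.gen '' (Sg.X' L) ∪ {l ∈ L | l < j}) = {l ∈ L | l < j} := by
        refine Set.union_eq_self_of_subset_left ?_
        rintro l ⟨x, hx, rfl⟩
        exact ⟨hx, Sg.gen_lt_valid hv x⟩
      have hcl := Sg.isCl_lt hL j
      have hch : Sg.ch j ⊆ {l ∈ L | l < j} := fun l hl => ⟨hL j hjL hl, Sg.ch_lt j l hl⟩
      rw [hset] at IH hx'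
      have hT : TII (Alg M.base Sg.u {l ∈ L | l < j}) M.p M.φ (Sg.u j) := by
        refine Sg.TII_at (isClosed_Alg _ _ _) (M.cs_base_le_alg _ _) hv (M.alg_mono _ hch) IH ?_ ?_
        · exact hS j hjL hv _ hcl (fun l hl => hl.2) hch
        · intro b hb
          refine (Sg.valid_at j hv).c b (M.alg_mono _ ?_ hb)
          exact fun l hl => hl.2
      exact hT.N0_ext x hx'
    · rcases Sg.not_valid j hv with ⟨y, rfl⟩ | h1
      · exact absurd ⟨y, hjL, rfl⟩ hjK
      · refine IH x ?_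
        refine cs_le' (isClosed_Alg _ _ _) ?_ hx'
        rintro y (hy | hy)
        · exact hy
        · rw [Set.mem_singleton_iff] at hy
          rw [hy, h1]
          exact one_mem _

/-- The chain lemma. -/
theorem Sys.exc_chain {K L : Set I} (hK : IsCl Sg.ch K) (hL : IsCl Sg.ch L) (hKL : K ⊆ L)
    (hgen : ∀ x, Sg.gen x ∈ L → Sg.gen x ∈ K)
    (hN0 : ∀ c ∈ Sg.A L, c ∈ N0 M.p M.φ)
    (hSt : ∀ j ∈ L, j ∉ K → Sg.valid j →
      ∀ b ∈ Sg.A (K ∪ {l ∈ L | l < j}), star (Sg.u j) * b * Sg.u j ∈ N0 M.p M.φ)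
    {ψ : 𝔹 →ₚ[ℂ] ℂ} {a : ℕ → 𝔹} (h : Exc (Sg.A K) ψ a) : Exc (Sg.A L) ψ a := by
  have hP := Exc.isClosed_set (ψ := ψ) (a := a) h.one h.norm_le_one
  refine ⟨h.one, fun j => M.alg_mono _ hKL (h.mem j), h.nonneg, h.le_one, h.tend, ?_⟩
  refine chain_induction M.base Sg.u hKL
    (P := fun x => Tendsto (fun j => ‖a j * x * a j - ψ x • (a j * a j)‖) atTop (𝓝 0)) hP h.exc ?_
  intro j hjL hjK IH x hx
  set B := Alg M.base Sg.u (K ∪ {l ∈ L | l < j}) with hB
  have hx' := Alg_insert_le _ _ _ _ hx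
  have hcl : IsCl Sg.ch (K ∪ {l ∈ L | l < j}) := hK.union (Sg.isCl_lt hL j)
  have hsub : (K ∪ {l ∈ L | l < j}) ⊆ L := Set.union_subset hKL (fun l hl => hl.1)
  by_cases hv : Sg.valid j
  · have hE : Exc B ψ a := ⟨h.one, fun j => M.alg_mono _ Set.subset_union_left (h.mem j),
      h.nonneg, h.le_one, h.tend, IH⟩
    have hT : TII B M.p M.φ (Sg.u j) := by
      refine Sg.TII_at (isClosed_Alg _ _ _) (M.cs_base_le_alg _ _) hv ?_ ?_ (hSt j hjL hjK hv) ?_
      · refine M.alg_mono _ ?_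
        exact fun l hl => Or.inr ⟨hL j hjL hl, Sg.ch_lt j l hl⟩
      · intro b hb
        exact hN0 b (M.alg_mono _ hsub hb)
      · refine Sg.disj hcl hv ?_
        rintro (h | h)
        · exact hjK h
        · exact lt_irrefl _ h.2
    exact (hT.exc_ext hE).exc x hx'
  · rcases Sg.not_valid j hv with ⟨y, rfl⟩ | h1
    · exact absurd (hgen y hjL) hjK
    · refine IH x ?_
      refine cs_le' (isClosed_Alg _ _ _) ?_ hx'
      rintro y (hy | hy)
      · exact hy
      · rw [Set.mem_singleton_iff] at hy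
        rw [hy, h1]
        exact one_mem _

/-- the excising sequence of a valid index belongs to the algebras containing its support. -/
theorem Sys.e_mem {j : I} (hv : Sg.valid j) {L : Set I} (hch : Sg.ch j ⊆ L) (n : ℕ) :
    Sg.u j * M.p n * star (Sg.u j) ∈ Sg.A L := by
  have hV := Sg.valid_at j hv
  have h1 : Sg.u j * (1 - M.p n) ∈ Sg.A L := M.alg_mono _ hch (hV.a n)
  have h2 : Sg.u j * M.p n * star (Sg.u j)
      = 1 - (Sg.u j * (1 - M.p n)) * star (Sg.u j * (1 - M.p n)) := by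
    have h3 : Sg.u j * star (Sg.u j) = 1 := Unitary.mul_star_self_of_mem hV.uni
    have h4 := M.p_dec.idemT n
    simp only [star_mul, star_sub, star_one, M.p_dec.starT_eq]
    calc Sg.u j * M.p n * star (Sg.u j)
        = Sg.u j * star (Sg.u j) - (Sg.u j * (1 - M.p n)) * star (Sg.u j) := by noncomm_ring
      _ = 1 - (Sg.u j * ((1 - M.p n) * (1 - M.p n))) * star (Sg.u j) := by
          rw [h3]
          have : (1 - M.p n) * (1 - M.p n) = 1 - M.p n := by
            simp only [sub_mul, mul_sub, one_mul, mul_one, h4, sub_self, sub_zero]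
          rw [this]
      _ = _ := by noncomm_ring
  rw [h2]
  exact sub_mem (one_mem _) (mul_mem h1 (star_mem h1))

/-- Lemma B. -/
theorem Sys.starB {L : Set I} (hL : IsCl Sg.ch L) (hS : ∀ j ∈ L, Sg.valid j → Sg.Star j)
    {i : I} (hv : Sg.valid i) (hSi : Sg.Star i) (hiL : i ∉ L) (hch : Sg.ch i ⊆ L) :
    ∀ b ∈ Sg.A L, star (Sg.u i) * b * Sg.u i ∈ N0 M.p M.φ := by
  have hch1 : Sg.ch i ⊆ {l ∈ L | l < i} := fun l hl => ⟨hch hl, Sg.ch_lt i l hl⟩
  have h1 := hSi _ (Sg.isCl_lt hL i) (fun l hl => hl.2) hch1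
  have h2 : Exc (Sg.A {l ∈ L | l < i}) (conj M.φ (Sg.u i))
      (fun n => Sg.u i * M.p n * star (Sg.u i)) :=
    exc_of_N0 M.p_dec M.φ_one M.φ_p (Sg.valid_at i hv).uni (Sg.e_mem hv hch1) h1
  refine N0_of_exc M.p_dec (Sg.valid_at i hv).uni ?_
  refine Sg.exc_chain (Sg.isCl_lt hL i) hL (fun l hl => hl.1) ?_ (Sg.N0_of_star hL hS) ?_ h2
  · intro x hx
    exact ⟨hx, Sg.gen_lt_valid hv x⟩
  · intro j hjL hjK hvj
    have hij : i < j := by
      rcases lt_trichotomy j i with h | h | h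
      · exact absurd ⟨hjL, h⟩ hjK
      · exact absurd (h ▸ hjL) hiL
      · exact h
    refine hS j hjL hvj _ ((Sg.isCl_lt hL i).union (Sg.isCl_lt hL j)) ?_ ?_
    · rintro l (hl | hl)
      · exact hl.2.trans hij
      · exact hl.2
    · exact fun l hl => Or.inr ⟨hL j hjL hl, Sg.ch_lt j l hl⟩

/-- Lemma C. -/
theorem Sys.R1_of_star {K L : Set I} (hK : IsCl Sg.ch K) (hL : IsCl Sg.ch L) (hKL : K ⊆ L)
    (hS : ∀ j ∈ L, Sg.valid j → Sg.Star j)
    {ψ : 𝔹 →ₚ[ℂ] ℂ} {a : ℕ → 𝔹} (h : Exc (Sg.A K) ψ a) : Exc (Sg.A L) ψ a := by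
  -- add the generators
  set N : Set X := Sg.X' L \ Sg.X' K with hN
  set K' : Set I := K ∪ Sg.gen '' N with hK'
  have hgencl : IsCl Sg.ch (Sg.gen '' N) := by
    rintro i ⟨x, hx, rfl⟩
    rw [Sg.ch_gen]
    exact Set.empty_subset _
  have hK'cl : IsCl Sg.ch K' := hK.union hgencl
  have hK'L : K' ⊆ L := by
    refine Set.union_subset hKL ?_
    rintro l ⟨x, hx, rfl⟩
    exact hx.1
  have h1 := M.typeI (Y := Sg.X' K) (N := N) (Set.disjoint_sdiff_right) (M.isClosed_alg _ _)
    (Sg.A_le_U hK) (M.cs_base_le_alg _ _) h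
  have hle : Sg.A K' ≤ cs ((Sg.A K : Set 𝔹) ∪ M.G '' N) := by
    refine Alg_le (isClosed_cs' _) ?_ ?_
    · intro b hb
      exact subset_cs' _ (Or.inl (base_mem_Alg hb))
    · rintro i (hi | ⟨x, hx, rfl⟩)
      · exact subset_cs' _ (Or.inl (u_mem_Alg hi))
      · rw [Sg.u_gen]
        exact subset_cs' _ (Or.inr ⟨x, hx, rfl⟩)
  have h2 : Exc (Sg.A K') ψ a :=
    ⟨h.one, fun j => M.alg_mono _ Set.subset_union_left (h.mem j), h.nonneg, h.le_one, h.tend,
      fun b hb => h1.exc b (hle hb)⟩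
  refine Sg.exc_chain hK'cl hL hK'L ?_ (Sg.N0_of_star hL hS) ?_ h2
  · intro x hx
    by_cases hxK : Sg.gen x ∈ K
    · exact Or.inl hxK
    · exact Or.inr ⟨x, ⟨hx, hxK⟩, rfl⟩
  · intro j hjL hjK hvj
    refine Sg.starB (hK'cl.union (Sg.isCl_lt hL j)) ?_ hvj (hS j hjL hvj) ?_ ?_
    · rintro l (hl | hl) hvl
      · exact hS l (hK'L hl) hvl
      · exact hS l hl.1 hvl
    · rintro (h | h)
      · exact hjK h
      · exact lt_irrefl _ h.2
    · exact fun l hl => Or.inr ⟨hL j hjL hl, Sg.ch_lt j l hl⟩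

/-- Lemma D. -/
theorem Sys.star_all (j : I) (hv : Sg.valid j) : Sg.Star j := by
  induction j using WellFoundedLT.induction with
  | ind j IH =>
    intro L hL hlt hch
    have hV := Sg.valid_at j hv
    have h2 : Exc (Sg.A (Sg.ch j)) (conj M.φ (Sg.u j))
        (fun n => Sg.u j * M.p n * star (Sg.u j)) :=
      exc_of_N0 M.p_dec M.φ_one M.φ_p hV.uni (Sg.e_mem hv le_rfl) hV.b
    have h3 := Sg.R1_of_star hV.cl hL hch (fun l hl hvl => IH l (hlt l hl) hvl) h2
    exact N0_of_exc M.p_dec hV.uni h3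

/-- `p` excises every `A_L`, `L` closed. -/
theorem Sys.A_N0 {L : Set I} (hL : IsCl Sg.ch L) : ∀ c ∈ Sg.A L, c ∈ N0 M.p M.φ :=
  Sg.N0_of_star hL (fun j _ hv => Sg.star_all j hv)

/-- R1 -/
theorem Sys.R1 {K L : Set I} (hK : IsCl Sg.ch K) (hL : IsCl Sg.ch L) (hKL : K ⊆ L)
    {ψ : 𝔹 →ₚ[ℂ] ℂ} {a : ℕ → 𝔹} (h : Exc (Sg.A K) ψ a) : Exc (Sg.A L) ψ a :=
  Sg.R1_of_star hK hL hKL (fun j _ hv => Sg.star_all j hv) h

end Crest.Agent.R120
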