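import Crest.Agent.R120.State
import Crest.Prelude.Def_CStarRep
import Crest.Agent.R120.E4
import Crest.Agent.R120.Sys

-- ▼ part R120/Irrep
section

/-!
# Irreducible representations (blueprint section 6)
-/

set_option autoImplicit false

namespace Crest.Agent.R120

open scoped ComplexOrder
open Filter Topology
open Crest.Agent.R120.Irr

variable {A : Type} [CStarAlgebra A]
variable {H : Type} [NormedAddCommGroup H] [InnerProductSpace ℂ H] [CompleteSpace H]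

/-- irreducible representations of unital algebras are unital -/
theorem irrep_one {π : A →⋆ₙₐ[ℂ] (H →L[ℂ] H)} (hπ : Crest.OpAlg.IsIrreducibleRep π) :
    π 1 = 1 := irr_map_one hπ

/-- the vector functional of a representation as a positive linear map -/
noncomputable def vecFun [PartialOrder A] [StarOrderedRing A] (π : A →⋆ₙₐ[ℂ] (H →L[ℂ] H))
    (ξ : H) : A →ₚ[ℂ] ℂ :=
  PositiveLinearMap.mk₀
    { toFun := fun a => inner ℂ ξ (π a ξ)
      map_add' := fun a b => by simp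
      map_smul' := fun c a => by simp }
    (fun a ha => by
      obtain ⟨c, rfl⟩ := (CStarAlgebra.nonneg_iff_eq_star_mul_self (a := a)).1 ha
      show 0 ≤ inner ℂ ξ (π (star c * c) ξ)
      have e : inner ℂ ξ (π (star c * c) ξ) = inner ℂ (π c ξ) (π c ξ) := by
        rw [inner_rep_star, map_mul]; rfl
      rw [e, inner_self_eq_norm_sq_to_K]
      have h : (0 : ℂ) ≤ ((‖π c ξ‖ ^ 2 : ℝ) : ℂ) := Complex.zero_le_real.2 (sq_nonneg _)
      rw [Complex.ofReal_pow] at h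
      exact h)

@[simp] theorem vecFun_apply [PartialOrder A] [StarOrderedRing A] (π : A →⋆ₙₐ[ℂ] (H →L[ℂ] H))
    (ξ : H) (a : A) : vecFun π ξ a = inner ℂ ξ (π a ξ) := rfl

theorem irrep_isPure [PartialOrder A] [StarOrderedRing A] {π : A →⋆ₙₐ[ℂ] (H →L[ℂ] H)}
    (hπ : Crest.OpAlg.IsIrreducibleRep π) {ξ : H} (hξ : ξ ≠ 0) : IsPureFun (vecFun π ξ) := by
  intro f hf
  obtain ⟨s, h0, h1, hs⟩ := irr_pure hπ hξ f (fun a => by
    have h := hf (star a * a) (star_mul_self_nonneg a)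
    have e : vecFun π ξ (star a * a) = inner ℂ (π a ξ) (π a ξ) := by
      rw [vecFun_apply, inner_rep_star, map_mul]; rfl
    rw [e, inner_self_eq_norm_sq_to_K] at h
    exact_mod_cast h)
  exact ⟨s, h0, h1, hs⟩

/-- (E3) approximate excision of the vector states of an irreducible representation, finitely many
elements at a time. -/
theorem irrep_excision [PartialOrder A] [StarOrderedRing A] {π : A →⋆ₙₐ[ℂ] (H →L[ℂ] H)}
    (hπ : Crest.OpAlg.IsIrreducibleRep π) {ξ : H} (hξ : ‖ξ‖ = 1) (F : Finset A)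
    {ε : ℝ} (hε : 0 < ε) :
    ∃ a : A, 0 ≤ a ∧ a ≤ 1 ∧ 1 - ε ≤ (inner ℂ ξ (π a ξ)).re ∧
      ∀ b ∈ F, ‖a * (b - inner ℂ ξ (π b ξ) • 1) * a‖ ≤ ε := by
  have hξ0 : ξ ≠ 0 := by rintro rfl; simp at hξ
  have h1 : vecFun π ξ 1 = 1 := by
    rw [vecFun_apply, irr_map_one hπ]
    have : (1 : H →L[ℂ] H) ξ = ξ := rfl
    rw [this, inner_self_eq_norm_sq_to_K, hξ]
    simp
  exact pure_excision (irrep_isPure hπ hξ0) h1 F hε

/-- (E5) two irreducible representations having unit vectors with the same state are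
unitarily equivalent. -/
theorem unitarilyEquivalent_of_states {H₁ : Type} [NormedAddCommGroup H₁] [InnerProductSpace ℂ H₁]
    [CompleteSpace H₁] {H₂ : Type} [NormedAddCommGroup H₂] [InnerProductSpace ℂ H₂]
    [CompleteSpace H₂] {π₁ : A →⋆ₙₐ[ℂ] (H₁ →L[ℂ] H₁)} {π₂ : A →⋆ₙₐ[ℂ] (H₂ →L[ℂ] H₂)}
    (h₁ : Crest.OpAlg.IsIrreducibleRep π₁) (h₂ : Crest.OpAlg.IsIrreducibleRep π₂)
    {ξ₁ : H₁} {ξ₂ : H₂} (hξ₁ : ‖ξ₁‖ = 1) (hξ₂ : ‖ξ₂‖ = 1)
    (heq : ∀ a : A, inner ℂ ξ₁ (π₁ a ξ₁) = inner ℂ ξ₂ (π₂ a ξ₂)) :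
    Crest.OpAlg.AreUnitarilyEquivalent π₁ π₂ :=
  areUnitarilyEquivalent_of_state_eq h₁ h₂ (by rintro rfl; simp at hξ₁) (by rintro rfl; simp at hξ₂)
    heq

section normOne

variable {M : Type} [CStarAlgebra M] {ψ : M →L[ℂ] ℂ}

theorem contr_im_eq_zero (hone : ψ 1 = 1) (hle : ‖ψ‖ ≤ 1) {x : M} (hx : IsSelfAdjoint x) :
    (ψ x).im = 0 := by
  -- |ψ(x + i t)|² ≤ ‖x + i t‖² ≤ ‖x‖² + t²
  have key : ∀ t : ℝ, ((ψ x).im + t) ^ 2 ≤ ‖x‖ ^ 2 + t ^ 2 := by
    intro t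
    have h1 : ψ (x + (Complex.I * t) • (1 : M)) = ψ x + Complex.I * t := by
      simp [hone]
    have h2 : ‖x + (Complex.I * t) • (1 : M)‖ ^ 2 ≤ ‖x‖ ^ 2 + t ^ 2 := by
      rw [sq, ← CStarRing.norm_star_mul_self]
      have : star (x + (Complex.I * t) • (1 : M)) * (x + (Complex.I * t) • (1 : M))
          = x * x + ((t ^ 2 : ℝ) : ℂ) • (1 : M) := by
        rw [star_add, hx.star_eq, star_smul, star_one]
        have e1 : star (Complex.I * (t : ℂ)) = -(Complex.I * t) := by simp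
        have e2 : ((t ^ 2 : ℝ) : ℂ) = -(Complex.I * t) * (Complex.I * t) := by
          push_cast
          ring_nf
          simp [Complex.I_sq]
        rw [e1, e2]
        simp only [mul_add, add_mul, mul_one, one_mul, smul_mul_assoc, mul_smul_comm]
        module
      rw [this]
      calc ‖x * x + ((t ^ 2 : ℝ) : ℂ) • (1 : M)‖ ≤ ‖x * x‖ + ‖((t ^ 2 : ℝ) : ℂ) • (1 : M)‖ :=
            norm_add_le _ _
        _ ≤ ‖x‖ ^ 2 + t ^ 2 := by
            gcongr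
            · rw [sq]; exact norm_mul_le _ _
            · rw [norm_smul]
              have : ‖(1 : M)‖ ≤ 1 := by
                rcases subsingleton_or_nontrivial M with hs | hn
                · simp [Subsingleton.elim (1 : M) 0]
                · simp
              calc ‖((t ^ 2 : ℝ) : ℂ)‖ * ‖(1 : M)‖ ≤ ‖((t ^ 2 : ℝ) : ℂ)‖ * 1 := by gcongr
                _ = t ^ 2 := by
                  rw [mul_one, Complex.norm_real, Real.norm_eq_abs, abs_of_nonneg (sq_nonneg t)]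
    have h3 : ‖ψ (x + (Complex.I * t) • (1 : M))‖ ≤ ‖x + (Complex.I * t) • (1 : M)‖ :=
      (ψ.le_opNorm _).trans (mul_le_of_le_one_left (norm_nonneg _) hle)
    rw [h1] at h3
    have h4 : ‖ψ x + Complex.I * t‖ ^ 2 ≤ ‖x‖ ^ 2 + t ^ 2 :=
      le_trans (by gcongr) h2
    have h5 : ((ψ x).im + t) ^ 2 ≤ ‖ψ x + Complex.I * t‖ ^ 2 := by
      rw [← Complex.normSq_eq_norm_sq, Complex.normSq_apply]
      simp
      nlinarith [sq_nonneg ((ψ x).re)]
    exact h5.trans h4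
  by_contra hne
  have h1 := key ((‖x‖ ^ 2 + 1) / (ψ x).im)
  have h2 : ((ψ x).im + (‖x‖ ^ 2 + 1) / (ψ x).im) ^ 2
      = (ψ x).im ^ 2 + 2 * (‖x‖ ^ 2 + 1) + ((‖x‖ ^ 2 + 1) / (ψ x).im) ^ 2 := by
    have : (ψ x).im * ((‖x‖ ^ 2 + 1) / (ψ x).im) = ‖x‖ ^ 2 + 1 := mul_div_cancel₀ _ hne
    linear_combination 2 * this
  rw [h2] at h1
  nlinarith [sq_nonneg (ψ x).im, sq_nonneg ‖x‖]

theorem contr_re_nonneg [PartialOrder M] [StarOrderedRing M] (hone : ψ 1 = 1) (hle : ‖ψ‖ ≤ 1)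
    {x : M} (hx : 0 ≤ x) : 0 ≤ (ψ x).re := by
  have hb : ‖(‖x‖ : ℂ) • (1 : M) - x‖ ≤ ‖x‖ := by
    have hsa : IsSelfAdjoint x := .of_nonneg hx
    have h1 : 0 ≤ algebraMap ℝ M ‖x‖ - x := sub_nonneg.mpr hsa.le_algebraMap_norm_self
    have h2 : algebraMap ℝ M ‖x‖ - x ≤ algebraMap ℝ M ‖x‖ := sub_le_self _ hx
    have h3 := CStarAlgebra.norm_le_norm_of_nonneg_of_le h1 h2
    have h4 : ‖algebraMap ℝ M ‖x‖‖ ≤ ‖x‖ := by
      rw [Algebra.algebraMap_eq_smul_one, norm_smul, norm_norm]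
      have : ‖(1 : M)‖ ≤ 1 := by
        rcases subsingleton_or_nontrivial M with hs | hn
        · simp [Subsingleton.elim (1 : M) 0]
        · simp
      nlinarith [norm_nonneg x]
    have h5 : (‖x‖ : ℂ) • (1 : M) = algebraMap ℝ M ‖x‖ := by
      rw [Algebra.algebraMap_eq_smul_one]
      exact Complex.coe_smul ‖x‖ (1 : M)
    rw [h5]
    exact h3.trans h4
  have h1 : ‖ψ ((‖x‖ : ℂ) • (1 : M) - x)‖ ≤ ‖(‖x‖ : ℂ) • (1 : M) - x‖ :=
    (ψ.le_opNorm _).trans (mul_le_of_le_one_left (norm_nonneg _) hle)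
  have h2 : ψ ((‖x‖ : ℂ) • (1 : M) - x) = ‖x‖ - ψ x := by simp [hone]
  rw [h2] at h1
  have h3 : ((‖x‖ : ℂ) - ψ x).re ≤ ‖x‖ := (Complex.re_le_norm _).trans (h1.trans hb)
  simp at h3
  linarith

/-- a unital contractive functional is positive -/
noncomputable def contrPos [PartialOrder M] [StarOrderedRing M] (ψ : M →L[ℂ] ℂ) (hone : ψ 1 = 1)
    (hle : ‖ψ‖ ≤ 1) : M →ₚ[ℂ] ℂ :=
  PositiveLinearMap.mk₀ (ψ : M →ₗ[ℂ] ℂ) (fun x hx => by
    show 0 ≤ ψ x
    rw [Complex.nonneg_iff]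
    exact ⟨contr_re_nonneg hone hle hx, (contr_im_eq_zero hone hle (.of_nonneg hx)).symm⟩)

@[simp] theorem contrPos_apply [PartialOrder M] [StarOrderedRing M] (ψ : M →L[ℂ] ℂ)
    (hone : ψ 1 = 1) (hle : ‖ψ‖ ≤ 1) (x : M) : contrPos ψ hone hle x = ψ x := rfl

end normOne

/-- Hahn-Banach: the vector state of a representation of a closed unital subalgebra extends to a
state of the ambient algebra. -/
theorem exists_state_ext {𝔹 : Type} [CStarAlgebra 𝔹] [PartialOrder 𝔹] [StarOrderedRing 𝔹]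
    (B : StarSubalgebra ℂ 𝔹) [IsClosed (B : Set 𝔹)]
    {π : B →⋆ₙₐ[ℂ] (H →L[ℂ] H)} (h1 : π 1 = 1) {ξ : H} (hξ : ‖ξ‖ = 1) :
    ∃ ψ : 𝔹 →ₚ[ℂ] ℂ, ψ 1 = 1 ∧ ∀ b : B, ψ (b : 𝔹) = inner ℂ ξ (π b ξ) := by
  have hπn : ∀ b : B, ‖π b‖ ≤ ‖b‖ := fun b => NonUnitalStarAlgHom.norm_apply_le π b
  let f₀ : B →ₗ[ℂ] ℂ :=
    { toFun := fun b => inner ℂ ξ (π b ξ)
      map_add' := fun a b => by simp
      map_smul' := fun c a => by simp }
  have hf₀ : ∀ b : B, ‖f₀ b‖ ≤ 1 * ‖b‖ := by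
    intro b
    calc ‖f₀ b‖ ≤ ‖ξ‖ * ‖π b ξ‖ := norm_inner_le_norm _ _
      _ ≤ ‖ξ‖ * (‖π b‖ * ‖ξ‖) := by gcongr; exact (π b).le_opNorm ξ
      _ = ‖π b‖ := by rw [hξ]; ring
      _ ≤ 1 * ‖b‖ := by rw [one_mul]; exact hπn b
  let f : StrongDual ℂ (Subalgebra.toSubmodule B.toSubalgebra) := f₀.mkContinuous 1 hf₀
  have hfn : ‖f‖ ≤ 1 := LinearMap.mkContinuous_norm_le _ zero_le_one _
  obtain ⟨g, hg, hgn⟩ := exists_extension_norm_eq (Subalgebra.toSubmodule B.toSubalgebra) f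
  have hgb : ∀ b : B, g (b : 𝔹) = inner ℂ ξ (π b ξ) := fun b => hg b
  have hg1 : g 1 = 1 := by
    have h := hgb 1
    rw [h1] at h
    have e : (1 : H →L[ℂ] H) ξ = ξ := rfl
    rw [e, inner_self_eq_norm_sq_to_K, hξ] at h
    simpa using h
  exact ⟨contrPos g hg1 (hgn ▸ hfn), by simpa using hg1, fun b => by simpa using hgb b⟩

end Crest.Agent.R120
end

-- ▼ part R120/Reflect
section

/-!
# Reflection (blueprint section 6, (E4))
-/

set_option autoImplicit false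

namespace Crest.Agent.R120

open scoped ComplexOrder
open Filter Topology

variable {𝔹 : Type} [CStarAlgebra 𝔹] [PartialOrder 𝔹] [StarOrderedRing 𝔹] {X : Type}
variable {M : PP 𝔹 X} {I : Type} [LinearOrder I] [WellFoundedLT I] (Sg : Sys M I)

/-- countable sets are contained in countable closed sets -/
theorem Sys.exists_cl {S : Set I} (hS : S.Countable) :
    ∃ T : Set I, S ⊆ T ∧ T.Countable ∧ IsCl Sg.ch T := by
  let D : ℕ → Set I := fun n => Nat.rec S (fun _ T => T ∪ ⋃ i ∈ T, Sg.ch i) n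
  have hD : ∀ n, (D n).Countable := by
    intro n
    induction n with
    | zero => exact hS
    | succ n ih => exact ih.union (ih.biUnion fun i _ => Sg.ch_countable i)
  refine ⟨⋃ n, D n, Set.subset_iUnion D 0, Set.countable_iUnion hD, ?_⟩
  intro i hi
  obtain ⟨n, hn⟩ := Set.mem_iUnion.mp hi
  refine Set.Subset.trans ?_ (Set.subset_iUnion D (n + 1))
  exact Set.Subset.trans (Set.subset_biUnion_of_mem (u := fun i => Sg.ch i) hn)
    Set.subset_union_right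

theorem Sys.A_mono_R {K L : Set I} (h : K ⊆ L) : Sg.A K ≤ Sg.A L :=
  cs_mono (Set.union_subset_union_right _ (Set.image_mono h))

theorem Sys.A_closed_R (K : Set I) : IsClosed (Sg.A K : Set 𝔹) := cs_isClosed _

/-- each element of the big algebra lives on a countable closed set -/
theorem Sys.exists_support {x : 𝔹} (hx : x ∈ Sg.A Set.univ) :
    ∃ T : Set I, T.Countable ∧ IsCl Sg.ch T ∧ x ∈ Sg.A T := by
  let ι := {T : Set I // T.Countable ∧ IsCl Sg.ch T}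
  have hne : Nonempty ι := ⟨⟨∅, Set.countable_empty, fun i hi => absurd hi (Set.notMem_empty i)⟩⟩
  let S : ι → Set 𝔹 := fun T => M.base ∪ Sg.u '' T.1
  have hdir : Directed (· ⊆ ·) S := by
    intro T T'
    refine ⟨⟨T.1 ∪ T'.1, T.2.1.union T'.2.1, ?_⟩, ?_, ?_⟩
    · intro i hi
      rcases hi with hi | hi
      · exact (T.2.2 i hi).trans Set.subset_union_left
      · exact (T'.2.2 i hi).trans Set.subset_union_right
    · exact Set.union_subset_union_right _ (Set.image_mono Set.subset_union_left)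
    · exact Set.union_subset_union_right _ (Set.image_mono Set.subset_union_right)
  have hU : M.base ∪ Sg.u '' Set.univ ⊆ ⋃ T, S T := by
    rintro y (hy | ⟨i, -, rfl⟩)
    · exact Set.mem_iUnion.mpr ⟨hne.some, Or.inl hy⟩
    · obtain ⟨T, hiT, hTc, hTcl⟩ := Sg.exists_cl (Set.countable_singleton i)
      exact Set.mem_iUnion.mpr ⟨⟨T, hTc, hTcl⟩, Or.inr ⟨i, hiT rfl, rfl⟩⟩
  refine mem_of_directed hdir (W := {x | ∃ T : Set I, T.Countable ∧ IsCl Sg.ch T ∧ x ∈ Sg.A T})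
    ?_ ?_ x (cs_mono hU hx)
  · rw [← isSeqClosed_iff_isClosed]
    intro y y₀ hy hlim
    choose T hTc hTcl hyT using hy
    refine ⟨⋃ n, T n, Set.countable_iUnion hTc, ?_, ?_⟩
    · intro i hi
      obtain ⟨n, hn⟩ := Set.mem_iUnion.mp hi
      exact (hTcl n i hn).trans (Set.subset_iUnion T n)
    · exact (Sg.A_closed_R _).mem_of_tendsto hlim
        (Eventually.of_forall fun n => Sg.A_mono_R (Set.subset_iUnion T n) (hyT n))
  · intro T y hy
    exact ⟨T.1, T.2.1, T.2.2, hy⟩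

/-- `ψ` is excised on `F` up to `ε` by an element of `B`. -/
def GoodEx (B : StarSubalgebra ℂ 𝔹) (ψ : 𝔹 →ₚ[ℂ] ℂ) (F : Finset 𝔹) (ε : ℝ) : Prop :=
  ∃ a ∈ B, 0 ≤ a ∧ a ≤ 1 ∧ 1 - ε ≤ (ψ a).re ∧ ∀ b ∈ F, ‖a * (b - ψ b • 1) * a‖ ≤ ε

theorem norm_le_one_of_le_one {a : 𝔹} (h0 : 0 ≤ a) (h1 : a ≤ 1) : ‖a‖ ≤ 1 := by
  rcases subsingleton_or_nontrivial 𝔹 with h | h
  · rw [Subsingleton.elim a 0]; simp
  · exact (CStarAlgebra.norm_le_norm_of_nonneg_of_le h0 h1).trans (by simp)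

theorem norm_exc_sub_le {ψ : 𝔹 →ₚ[ℂ] ℂ} (h1 : ψ 1 = 1) {a b c : 𝔹} (ha : 0 ≤ a) (ha1 : a ≤ 1) :
    ‖a * (b - ψ b • 1) * a‖ ≤ ‖a * (c - ψ c • 1) * a‖ + 2 * ‖b - c‖ := by
  have hna := norm_le_one_of_le_one ha ha1
  have hnt : ‖(1 : 𝔹)‖ ≤ 1 := norm_le_one_of_le_one (ha.trans ha1) le_rfl
  have e : a * (b - ψ b • 1) * a = a * (c - ψ c • 1) * a +
      a * ((b - c) - ψ (b - c) • 1) * a := by
    rw [map_sub, sub_smul]; noncomm_ring
  rw [e]
  refine (norm_add_le _ _).trans ?_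
  gcongr
  have h2 : ‖(b - c) - ψ (b - c) • (1 : 𝔹)‖ ≤ 2 * ‖b - c‖ := by
    refine (norm_sub_le _ _).trans ?_
    rw [norm_smul]
    have h3 := norm_apply_le ψ h1 (b - c)
    have h4 : ‖ψ (b - c)‖ * ‖(1 : 𝔹)‖ ≤ ‖b - c‖ * 1 := by gcongr
    linarith
  calc ‖a * ((b - c) - ψ (b - c) • 1) * a‖
      ≤ ‖a‖ * ‖(b - c) - ψ (b - c) • (1 : 𝔹)‖ * ‖a‖ :=
        (norm_mul_le _ _).trans (mul_le_mul_of_nonneg_right (norm_mul_le _ _) (norm_nonneg _))
    _ ≤ 1 * ‖(b - c) - ψ (b - c) • (1 : 𝔹)‖ * 1 := by gcongr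
    _ ≤ 2 * ‖b - c‖ := by rw [one_mul, mul_one]; exact h2

theorem GoodEx.approx {B : StarSubalgebra ℂ 𝔹} {ψ : 𝔹 →ₚ[ℂ] ℂ} (h1 : ψ 1 = 1) {F : Finset 𝔹}
    {ε : ℝ} (hε : 0 ≤ ε) (f : 𝔹 → 𝔹) (hf : ∀ b ∈ F, ‖b - f b‖ ≤ ε / 3) [DecidableEq 𝔹]
    (h : GoodEx B ψ (F.image f) (ε / 3)) : GoodEx B ψ F ε := by
  obtain ⟨a, haB, ha0, ha1, hψ, hF⟩ := h
  refine ⟨a, haB, ha0, ha1, by linarith, fun b hb => ?_⟩
  have h2 := hF (f b) (Finset.mem_image_of_mem f hb)
  have h3 := norm_exc_sub_le h1 ha0 ha1 (b := b) (c := f b)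
  have h4 := hf b hb
  linarith

/-- one step of the reflection -/
theorem Sys.reflect_step {ψ : 𝔹 →ₚ[ℂ] ℂ} (h1 : ψ 1 = 1)
    (hex : ∀ F : Finset 𝔹, (∀ b ∈ F, b ∈ Sg.A Set.univ) → ∀ ε > 0,
      GoodEx (Sg.A Set.univ) ψ F ε) {T : Set I} (hT : T.Countable) :
    ∃ T' : Set I, T ⊆ T' ∧ T'.Countable ∧ IsCl Sg.ch T' ∧
      ∀ F : Finset 𝔹, (∀ b ∈ F, b ∈ Sg.A T) → ∀ ε > 0, GoodEx (Sg.A T') ψ F ε := by
  classical
  obtain ⟨d, hd, hdd⟩ := exists_dense_seq (M.base_countable.union (hT.image Sg.u))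
  have hd' : ∀ n, d n ∈ Sg.A Set.univ := fun n => Sg.A_mono_R (Set.subset_univ T) (hd n)
  have h2 : ∀ (s : Finset ℕ) (k : ℕ), ∃ T₁ : Set I, T₁.Countable ∧
      GoodEx (Sg.A T₁) ψ (s.image d) (1 / ((k : ℝ) + 1)) := by
    intro s k
    obtain ⟨a, haA, ha0, ha1, haψ, haF⟩ := hex (s.image d) (by
      intro b hb
      obtain ⟨n, -, rfl⟩ := Finset.mem_image.mp hb
      exact hd' n) (1 / ((k : ℝ) + 1)) (by positivity)
    obtain ⟨T₁, hT₁c, -, haT₁⟩ := Sg.exists_support haA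
    exact ⟨T₁, hT₁c, a, haT₁, ha0, ha1, haψ, haF⟩
  choose T₁ hT₁c hT₁ using h2
  obtain ⟨T', hTT', hT'c, hT'cl⟩ := Sg.exists_cl
    (hT.union (Set.countable_iUnion fun s : Finset ℕ => Set.countable_iUnion fun k => hT₁c s k))
  refine ⟨T', Set.subset_union_left.trans hTT', hT'c, hT'cl, ?_⟩
  intro F hF ε hε
  have h3 : ∀ b : 𝔹, ∃ n : ℕ, b ∈ F → ‖b - d n‖ ≤ ε / 3 := by
    intro b
    by_cases hb : b ∈ F
    · obtain ⟨n, hn⟩ := hdd b (hF b hb) (ε / 3) (by positivity)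
      exact ⟨n, fun _ => hn.le⟩
    · exact ⟨0, fun h => absurd h hb⟩
  choose j hj using h3
  obtain ⟨k, hk⟩ := exists_nat_one_div_lt (show (0 : ℝ) < ε / 3 by positivity)
  refine GoodEx.approx h1 hε.le (fun b => d (j b)) hj ?_
  have h4 := hT₁ (F.image j) k
  rw [Finset.image_image] at h4
  obtain ⟨a, haA, ha0, ha1, haψ, haF⟩ := h4
  refine ⟨a, ?_, ha0, ha1, by linarith, fun b hb => (haF b hb).trans hk.le⟩
  refine Sg.A_mono_R ?_ haA
  refine Set.Subset.trans ?_ hTT'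
  exact ((Set.subset_iUnion (fun k => T₁ (F.image j) k) k).trans
    (Set.subset_iUnion (fun s => ⋃ k, T₁ s k) (F.image j))).trans Set.subset_union_right

/-- (E4): `ψ` is a state of `𝔹` which is approximately excised on `A_univ` (finitely many elements
at a time); then there is a countable closed set `T` and a sequence in `A_T` excising `ψ`. -/
theorem Sys.reflect {ψ : 𝔹 →ₚ[ℂ] ℂ} (h1 : ψ 1 = 1)
    (hex : ∀ F : Finset 𝔹, (∀ b ∈ F, b ∈ Sg.A Set.univ) → ∀ ε > 0, ∃ a ∈ Sg.A Set.univ,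
      0 ≤ a ∧ a ≤ 1 ∧ 1 - ε ≤ (ψ a).re ∧ ∀ b ∈ F, ‖a * (b - ψ b • 1) * a‖ ≤ ε)
    {S : Set I} (hS : S.Countable) :
    ∃ T : Set I, S ⊆ T ∧ T.Countable ∧ IsCl Sg.ch T ∧ ∃ a : ℕ → 𝔹, Exc (Sg.A T) ψ a := by
  classical
  have hstep : ∀ T : {T : Set I // T.Countable}, ∃ T' : {T : Set I // T.Countable}, T.1 ⊆ T'.1 ∧
      IsCl Sg.ch T'.1 ∧
      ∀ F : Finset 𝔹, (∀ b ∈ F, b ∈ Sg.A T.1) → ∀ ε > 0, GoodEx (Sg.A T'.1) ψ F ε := by
    rintro ⟨T, hT⟩
    obtain ⟨T', h2, h3, h4, h5⟩ := Sg.reflect_step h1 hex hT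
    exact ⟨⟨T', h3⟩, h2, h4, h5⟩
  choose st hst hstcl hstex using hstep
  let D : ℕ → {T : Set I // T.Countable} := fun n => Nat.rec ⟨S, hS⟩ (fun _ T => st T) n
  have hDs : ∀ n, D (n + 1) = st (D n) := fun n => rfl
  have hmono : Monotone fun n => (D n).1 := monotone_nat_of_le_succ fun n => by
    rw [hDs]; exact hst (D n)
  set T : Set I := ⋃ n, (D n).1 with hTdef
  have hTc : T.Countable := Set.countable_iUnion fun n => (D n).2
  have hTcl : IsCl Sg.ch T := by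
    intro i hi
    obtain ⟨n, hn⟩ := Set.mem_iUnion.mp hi
    have h2 : IsCl Sg.ch (D (n + 1)).1 := by rw [hDs]; exact hstcl (D n)
    have h3 : i ∈ (D (n + 1)).1 := hmono (Nat.le_succ n) hn
    exact (h2 i h3).trans (Set.subset_iUnion (fun n => (D n).1) (n + 1))
  -- approximation of elements of `A_T`
  have happ : ∀ x ∈ Sg.A T, ∀ ε > 0, ∃ n, ∃ y ∈ Sg.A (D n).1, ‖x - y‖ ≤ ε := by
    let S' : ℕ → Set 𝔹 := fun n => M.base ∪ Sg.u '' (D n).1
    have hdir : Directed (· ⊆ ·) S' := by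
      intro n m
      exact ⟨max n m, Set.union_subset_union_right _ (Set.image_mono (hmono (le_max_left _ _))),
        Set.union_subset_union_right _ (Set.image_mono (hmono (le_max_right _ _)))⟩
    have hU : M.base ∪ Sg.u '' T ⊆ ⋃ n, S' n := by
      rintro y (hy | ⟨i, hi, rfl⟩)
      · exact Set.mem_iUnion.mpr ⟨0, Or.inl hy⟩
      · obtain ⟨n, hn⟩ := Set.mem_iUnion.mp hi
        exact Set.mem_iUnion.mpr ⟨n, Or.inr ⟨i, hn, rfl⟩⟩
    intro x hx
    refine mem_of_directed hdir (W := {x | ∀ ε > 0, ∃ n, ∃ y ∈ Sg.A (D n).1, ‖x - y‖ ≤ ε})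
      ?_ ?_ x (cs_mono hU hx)
    · rw [← isSeqClosed_iff_isClosed]
      intro y y₀ hy hlim ε hε
      obtain ⟨m, hm⟩ := ((Metric.tendsto_atTop.mp hlim) (ε / 2) (by positivity))
      obtain ⟨n, z, hz, hyz⟩ := hy m (ε / 2) (by positivity)
      refine ⟨n, z, hz, ?_⟩
      have h5 := hm m le_rfl
      rw [dist_eq_norm, norm_sub_rev] at h5
      calc ‖y₀ - z‖ = ‖(y₀ - y m) + (y m - z)‖ := by congr 1; abel
        _ ≤ ‖y₀ - y m‖ + ‖y m - z‖ := norm_add_le _ _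
        _ ≤ ε := by linarith
    · intro n y hy ε hε
      exact ⟨n, y, hy, by rw [sub_self, norm_zero]; exact hε.le⟩
  have hgood : ∀ F : Finset 𝔹, (∀ b ∈ F, b ∈ Sg.A T) → ∀ ε > 0, GoodEx (Sg.A T) ψ F ε := by
    intro F hF ε hε
    have h3 : ∀ b : 𝔹, ∃ n, ∃ y, b ∈ F → (y ∈ Sg.A (D n).1 ∧ ‖b - y‖ ≤ ε / 3) := by
      intro b
      by_cases hb : b ∈ F
      · obtain ⟨n, y, hy, hby⟩ := happ b (hF b hb) (ε / 3) (by positivity)
        exact ⟨n, y, fun _ => ⟨hy, hby⟩⟩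
      · exact ⟨0, 0, fun h => absurd h hb⟩
    choose n f hf using h3
    refine GoodEx.approx h1 hε.le f (fun b hb => (hf b hb).2) ?_
    have h4 := hstex (D (F.sup n)) (F.image f) (by
      intro b hb
      obtain ⟨c, hc, rfl⟩ := Finset.mem_image.mp hb
      exact Sg.A_mono_R (hmono (Finset.le_sup hc)) (hf c hc).1) (ε / 3) (by positivity)
    obtain ⟨a, haA, ha⟩ := h4
    refine ⟨a, Sg.A_mono_R ?_ haA, ha⟩
    rw [← hDs]
    exact Set.subset_iUnion (fun n => (D n).1) (F.sup n + 1)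
  obtain ⟨d, hd, hdd⟩ := exists_dense_seq (M.base_countable.union (hTc.image Sg.u))
  have hsel : ∀ n : ℕ, GoodEx (Sg.A T) ψ ((Finset.range (n + 1)).image d) (1 / ((n : ℝ) + 1)) := by
    intro n
    refine hgood _ ?_ _ (by positivity)
    intro b hb
    obtain ⟨k, -, rfl⟩ := Finset.mem_image.mp hb
    exact hd k
  choose a haA ha0 ha1 haψ haF using hsel
  refine ⟨T, Set.subset_iUnion (fun n => (D n).1) 0, hTc, hTcl, a, h1, haA, ha0, ha1, ?_, ?_⟩
  · -- `ψ (a j) → 1`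
    have hreal : ∀ j, ψ (a j) = ((ψ (a j)).re : ℂ) := by
      intro j
      have h2 : 0 ≤ ψ (a j) := by
        have := OrderHomClass.mono ψ (ha0 j)
        rwa [map_zero] at this
      exact (Complex.eq_re_of_ofReal_le (r := 0) (by simpa using h2))
    have hle : ∀ j, (ψ (a j)).re ≤ 1 := by
      intro j
      have h2 := OrderHomClass.mono ψ (ha1 j)
      rw [h1] at h2
      simpa using (Complex.le_def.mp h2).1
    have h3 : Tendsto (fun j : ℕ => (ψ (a j)).re) atTop (𝓝 1) := by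
      have h4 : Tendsto (fun j : ℕ => 1 - 1 / ((j : ℝ) + 1)) atTop (𝓝 (1 - 0)) :=
        tendsto_const_nhds.sub tendsto_one_div_add_atTop_nhds_zero_nat
      rw [sub_zero] at h4
      exact tendsto_of_tendsto_of_tendsto_of_le_of_le h4 tendsto_const_nhds haψ hle
    have h5 := (Complex.continuous_ofReal.tendsto (1 : ℝ)).comp h3
    rw [Complex.ofReal_one] at h5
    refine h5.congr fun j => ?_
    exact (hreal j).symm
  · intro b hb
    have e : ∀ j, a j * b * a j - ψ b • (a j * a j) = a j * (b - ψ b • 1) * a j := by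
      intro j
      rw [mul_sub, sub_mul, mul_smul_comm, mul_one, smul_mul_assoc]
    simp_rw [e]
    rw [Metric.tendsto_atTop]
    intro ε hε
    obtain ⟨k, hk⟩ := hdd b hb (ε / 4) (by positivity)
    obtain ⟨N, hN⟩ := exists_nat_one_div_lt (show (0 : ℝ) < ε / 4 by positivity)
    refine ⟨max k N, fun n hn => ?_⟩
    rw [dist_zero_right, norm_norm]
    have h2 := haF n (d k) (Finset.mem_image_of_mem d
      (Finset.mem_range.mpr (Nat.lt_succ_of_le ((le_max_left _ _).trans hn))))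
    have h3 := norm_exc_sub_le h1 (ha0 n) (ha1 n) (b := b) (c := d k)
    have h4 : 1 / ((n : ℝ) + 1) ≤ 1 / ((N : ℝ) + 1) := by
      apply one_div_le_one_div_of_le (by positivity)
      have : (N : ℝ) ≤ n := by exact_mod_cast (le_max_right _ _).trans hn
      linarith
    linarith

end Crest.Agent.R120
end

-- ▼ part R120/Simple

/-!
# Simplicity (Powers averaging) (blueprint section 7)
-/

set_option autoImplicit false

namespace Crest.Agent.R120

open scoped ComplexOrder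
open Filter Topology

variable {𝔹 : Type} [CStarAlgebra 𝔹] [PartialOrder 𝔹] [StarOrderedRing 𝔹] {X : Type}
variable {M : PP 𝔹 X} {I : Type} [LinearOrder I] [WellFoundedLT I] (Sg : Sys M I)

omit [PartialOrder 𝔹] [StarOrderedRing 𝔹] in
/-- orthogonal left ranges: `‖∑ P_k A_k‖² ≤ n C²` -/
theorem norm_sum_proj_mul_le {P A : ℕ → 𝔹} {C : ℝ} (hP : ∀ k, IsStarProjection (P k))
    (horth : ∀ k l, k ≠ l → P k * P l = 0) (hA : ∀ k, ‖A k‖ ≤ C) (n : ℕ) :
    ‖∑ k ∈ Finset.range n, P k * A k‖ ≤ Real.sqrt n * C := by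
  have hC : 0 ≤ C := (norm_nonneg _).trans (hA 0)
  have h1 : star (∑ k ∈ Finset.range n, P k * A k) * (∑ k ∈ Finset.range n, P k * A k)
      = ∑ k ∈ Finset.range n, star (A k) * (P k * A k) := by
    rw [star_sum, Finset.sum_mul]
    refine Finset.sum_congr rfl fun k hk => ?_
    rw [Finset.mul_sum, Finset.sum_eq_single k]
    · rw [star_mul, (hP k).isSelfAdjoint.star_eq]
      have := (hP k).isIdempotentElem.eq
      rw [mul_assoc, ← mul_assoc (P k), this]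
    · intro l _ hl
      rw [star_mul, (hP k).isSelfAdjoint.star_eq, mul_assoc, ← mul_assoc (P k),
        horth k l (Ne.symm hl), zero_mul, mul_zero]
    · intro h; exact absurd hk h
  have h2 : ‖∑ k ∈ Finset.range n, P k * A k‖ ^ 2 ≤ (Real.sqrt n * C) ^ 2 := by
    rw [sq, ← CStarRing.norm_star_mul_self, h1, mul_pow, Real.sq_sqrt (Nat.cast_nonneg n)]
    refine (norm_sum_le _ _).trans ?_
    calc ∑ k ∈ Finset.range n, ‖star (A k) * (P k * A k)‖
        ≤ ∑ k ∈ Finset.range n, C ^ 2 := by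
          refine Finset.sum_le_sum fun k _ => ?_
          calc ‖star (A k) * (P k * A k)‖ ≤ ‖star (A k)‖ * (‖P k‖ * ‖A k‖) :=
                (norm_mul_le _ _).trans (mul_le_mul_of_nonneg_left (norm_mul_le _ _)
                  (norm_nonneg _))
            _ ≤ C * (1 * C) := by
                rw [norm_star]
                have h3 : ‖P k‖ ≤ 1 := (hP k).norm_le
                gcongr
                · exact hA k
                · exact hA k
            _ = C ^ 2 := by ring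
      _ = n * C ^ 2 := by simp
  exact le_of_sq_le_sq h2 (by positivity)

omit [PartialOrder 𝔹] [StarOrderedRing 𝔹] in
theorem norm_sum_mul_proj_le {P A : ℕ → 𝔹} {C : ℝ} (hP : ∀ k, IsStarProjection (P k))
    (horth : ∀ k l, k ≠ l → P k * P l = 0) (hA : ∀ k, ‖A k‖ ≤ C) (n : ℕ) :
    ‖∑ k ∈ Finset.range n, A k * P k‖ ≤ Real.sqrt n * C := by
  have h := norm_sum_proj_mul_le (A := fun k => star (A k)) hP horth
    (fun k => by rw [norm_star]; exact hA k) n
  rw [← norm_star, star_sum]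
  simpa [star_mul, (hP _).isSelfAdjoint.star_eq] using h

/-- averaging over free involutions -/
theorem PP.averaging (M : PP 𝔹 X) {Y : Set X} (x : ℕ → X) (hinj : Function.Injective x)
    (hx : ∀ n, x n ∉ Y) {T : 𝔹} (hT : T ∈ M.U Y) :
    Tendsto (fun n : ℕ => ‖((n + 1 : ℂ)⁻¹ • ∑ k ∈ Finset.range (n + 1),
      M.G (x k) * T * M.G (x k)) - M.τ T • 1‖) atTop (𝓝 0) := by
  have hnt : Nontrivial 𝔹 := ⟨⟨M.P (x 0), 0, M.P_ne _⟩⟩
  have hG : ∀ k, ‖M.G k‖ ≤ 1 := by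
    intro k
    have : ‖M.G k‖ * ‖M.G k‖ = 1 := by
      rw [← CStarRing.norm_star_mul_self, M.G_sa, M.G_sq, CStarRing.norm_one]
    nlinarith [norm_nonneg (M.G k)]
  set T₀ : 𝔹 := T - M.τ T • 1 with hT₀
  have hT₀U : T₀ ∈ M.U Y := sub_mem hT ((M.U Y).smul_mem (one_mem _) _)
  have hτ₀ : M.τ T₀ = 0 := by
    rw [hT₀, map_sub, map_smul, M.τ_one]; simp
  have hdec : ∀ k, M.G (x k) * T * M.G (x k) - M.τ T • 1 =
      M.P (x k) * (M.G (x k) * T₀ * M.G (x k)) +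
        (M.G (x k) * M.P (x k) * T₀ * M.G (x k)) * M.P (x k) := by
    intro k
    have e1 : M.G (x k) * T * M.G (x k) - M.τ T • 1 = M.G (x k) * T₀ * M.G (x k) := by
      rw [hT₀, mul_sub, sub_mul, mul_smul_comm, mul_one, smul_mul_assoc, M.G_sq]
    have hP0 : M.P (x k) * T₀ * M.P (x k) = 0 := by
      rw [M.PTP_same Y (x k) T₀ (hx k) hT₀U, hτ₀, zero_smul]
    set G := M.G (x k) with hGdef
    set P := M.P (x k) with hPdef
    have hGe : G = P * G + G * P := M.G_eq (x k)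
    have e2 : P * T₀ * G = P * T₀ * G * P := by
      calc P * T₀ * G = P * T₀ * (P * G + G * P) := by rw [← hGe]
        _ = (P * T₀ * P) * G + P * T₀ * G * P := by noncomm_ring
        _ = P * T₀ * G * P := by rw [hP0, zero_mul, zero_add]
    rw [e1]
    calc G * T₀ * G = (P * G + G * P) * T₀ * G := by rw [← hGe]
      _ = P * (G * T₀ * G) + G * (P * T₀ * G) := by noncomm_ring
      _ = P * (G * T₀ * G) + G * (P * T₀ * G * P) := by rw [← e2]
      _ = P * (G * T₀ * G) + (G * P * T₀ * G) * P := by noncomm_ring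
  have hbd : ∀ n : ℕ, ‖((n + 1 : ℂ)⁻¹ • ∑ k ∈ Finset.range (n + 1),
      M.G (x k) * T * M.G (x k)) - M.τ T • 1‖ ≤ 2 * ‖T₀‖ / Real.sqrt (n + 1) := by
    intro n
    have hn : ((n : ℂ) + 1) ≠ 0 := Nat.cast_add_one_ne_zero n
    have e3 : ((n + 1 : ℂ)⁻¹ • ∑ k ∈ Finset.range (n + 1),
        M.G (x k) * T * M.G (x k)) - M.τ T • 1 =
        (n + 1 : ℂ)⁻¹ • (∑ k ∈ Finset.range (n + 1),
          M.P (x k) * (M.G (x k) * T₀ * M.G (x k)) +
          ∑ k ∈ Finset.range (n + 1),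
          (M.G (x k) * M.P (x k) * T₀ * M.G (x k)) * M.P (x k)) := by
      rw [← Finset.sum_add_distrib]
      rw [← Finset.sum_congr rfl (fun k _ => hdec k)]
      rw [Finset.sum_sub_distrib, smul_sub]
      congr 1
      rw [Finset.sum_const, Finset.card_range, ← Nat.cast_smul_eq_nsmul ℂ, smul_smul,
        Nat.cast_add, Nat.cast_one, inv_mul_cancel₀ hn, one_smul]
    rw [e3, norm_smul]
    have hPp : ∀ k, IsStarProjection (M.P (x k)) := fun k => M.P_proj _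
    have horth : ∀ k l, k ≠ l → M.P (x k) * M.P (x l) = 0 :=
      fun k l hkl => M.P_orth _ _ (fun h => hkl (hinj h))
    have hPn : ∀ k, ‖M.P (x k)‖ ≤ 1 := fun k => (hPp k).norm_le
    have b1 : ∀ k, ‖M.G (x k) * T₀ * M.G (x k)‖ ≤ ‖T₀‖ := by
      intro k
      calc ‖M.G (x k) * T₀ * M.G (x k)‖ ≤ ‖M.G (x k)‖ * ‖T₀‖ * ‖M.G (x k)‖ :=
            (norm_mul_le _ _).trans (mul_le_mul_of_nonneg_right (norm_mul_le _ _) (norm_nonneg _))
        _ ≤ 1 * ‖T₀‖ * 1 := by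
            gcongr
            · exact hG _
            · exact hG _
        _ = ‖T₀‖ := by ring
    have b2 : ∀ k, ‖M.G (x k) * M.P (x k) * T₀ * M.G (x k)‖ ≤ ‖T₀‖ := by
      intro k
      calc ‖M.G (x k) * M.P (x k) * T₀ * M.G (x k)‖
          ≤ ‖M.G (x k)‖ * ‖M.P (x k)‖ * ‖T₀‖ * ‖M.G (x k)‖ :=
            (norm_mul_le _ _).trans (mul_le_mul_of_nonneg_right
              ((norm_mul_le _ _).trans (mul_le_mul_of_nonneg_right (norm_mul_le _ _)
                (norm_nonneg _))) (norm_nonneg _))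
        _ ≤ 1 * 1 * ‖T₀‖ * 1 := by
            gcongr
            · exact hG _
            · exact hPn _
            · exact hG _
        _ = ‖T₀‖ := by ring
    have c1 := norm_sum_proj_mul_le hPp horth b1 (n + 1)
    have c2 := norm_sum_mul_proj_le hPp horth b2 (n + 1)
    have hs : 0 < Real.sqrt (n + 1) := Real.sqrt_pos.mpr (by positivity)
    have hs2 : Real.sqrt (n + 1) * Real.sqrt (n + 1) = (n : ℝ) + 1 :=
      Real.mul_self_sqrt (by positivity)
    have hninv : ‖((n : ℂ) + 1)⁻¹‖ = ((n : ℝ) + 1)⁻¹ := by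
      rw [norm_inv]
      congr 1
      have : ((n : ℂ) + 1) = (((n : ℝ) + 1 : ℝ) : ℂ) := by push_cast; rfl
      rw [this, Complex.norm_real, Real.norm_of_nonneg (by positivity)]
    rw [hninv]
    push_cast at c1 c2
    calc ((n : ℝ) + 1)⁻¹ * ‖_ + _‖ ≤ ((n : ℝ) + 1)⁻¹ *
          (Real.sqrt (n + 1) * ‖T₀‖ + Real.sqrt (n + 1) * ‖T₀‖) := by
          gcongr
          exact (norm_add_le _ _).trans (add_le_add c1 c2)
      _ = 2 * ‖T₀‖ / Real.sqrt (n + 1) := by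
          have hs3 : ((n : ℝ) + 1)⁻¹ = (Real.sqrt (n + 1) * Real.sqrt (n + 1))⁻¹ := by rw [hs2]
          rw [hs3]
          generalize Real.sqrt ((n : ℝ) + 1) = s at hs
          field_simp
          ring
  refine squeeze_zero (fun n => norm_nonneg _) hbd ?_
  have h3 : Tendsto (fun n : ℕ => Real.sqrt ((n : ℝ) + 1)) atTop atTop := by
    have h4 : Tendsto (fun n : ℕ => (n : ℝ) + 1) atTop atTop :=
      tendsto_atTop_add_const_right _ _ tendsto_natCast_atTop_atTop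
    exact Real.tendsto_sqrt_atTop.comp h4
  exact h3.const_div_atTop _

/-- the big algebra is simple -/
theorem Sys.simple [Uncountable X] (J : TwoSidedIdeal (Sg.A Set.univ))
    (hJ : IsClosed (J : Set (Sg.A Set.univ))) : J = ⊥ ∨ J = ⊤ := by
  by_cases hbot : J = ⊥
  · exact Or.inl hbot
  right
  have hcl : IsCl Sg.ch Set.univ := fun i _ j _ => Set.mem_univ j
  have hX' : Sg.X' Set.univ = Set.univ := by ext x; simp [Sys.X']
  have hAU : Sg.A Set.univ ≤ M.U Set.univ := by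
    have := Sg.A_le_U hcl
    rwa [hX'] at this
  -- a nonzero element
  obtain ⟨x, hxJ, hx0⟩ : ∃ x ∈ J, x ≠ 0 := by
    by_contra hcon
    push Not at hcon
    apply hbot
    apply le_antisymm _ bot_le
    intro x hx
    rw [hcon x hx]
    exact TwoSidedIdeal.zero_mem _
  have hzJ : star x * x ∈ J := J.mul_mem_left _ _ hxJ
  set z : Sg.A Set.univ := star x * x with hz
  have hτ : M.τ (z : 𝔹) ≠ 0 := by
    intro h0
    apply hx0
    have h1 : (z : 𝔹) = star (x : 𝔹) * (x : 𝔹) := by rw [hz]; rfl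
    rw [h1] at h0
    have h2 := M.τ_faithful (x : 𝔹) (hAU x.2) h0
    exact Subtype.ext h2
  obtain ⟨T, hTc, hTcl, hzT⟩ := Sg.exists_support z.2
  have hzU : (z : 𝔹) ∈ M.U (Sg.X' T) := Sg.A_le_U hTcl hzT
  have hXc : (Sg.X' T).Countable := hTc.preimage_of_injOn Sg.gen_inj.injOn
  have hinf : (Sg.X' T)ᶜ.Infinite := by
    intro hfin
    have : (Set.univ : Set X).Countable := by
      rw [← Set.union_compl_self (Sg.X' T)]
      exact hXc.union hfin.countable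
    exact (Set.not_countable_univ_iff.mpr inferInstance) this
  obtain ⟨f⟩ : Nonempty (ℕ ↪ ((Sg.X' T)ᶜ : Set X)) := ⟨hinf.natEmbedding⟩
  set g : ℕ → X := fun n => (f n : X) with hg
  have hginj : Function.Injective g := fun a b hab => f.injective (Subtype.ext hab)
  have hgx : ∀ n, g n ∉ Sg.X' T := fun n => (f n).2
  have hav := M.averaging g hginj hgx hzU
  have hGA : ∀ x : X, M.G x ∈ Sg.A Set.univ := by
    intro x
    rw [← Sg.u_gen x]
    exact subset_cs _ (Or.inr ⟨Sg.gen x, Set.mem_univ _, rfl⟩)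
  have hsm : ∀ (c : ℂ) (y : Sg.A Set.univ), y ∈ J → c • y ∈ J := by
    intro c y hy
    have : c • y = (c • (1 : Sg.A Set.univ)) * y := by rw [smul_mul_assoc, one_mul]
    rw [this]
    exact J.mul_mem_left _ _ hy
  have hsum : ∀ n : ℕ, ∃ w ∈ J, (w : 𝔹) = ((n + 1 : ℂ)⁻¹ • ∑ k ∈ Finset.range (n + 1),
      M.G (g k) * (z : 𝔹) * M.G (g k)) := by
    intro n
    refine ⟨((n + 1 : ℂ)⁻¹ • ∑ k ∈ Finset.range (n + 1),
      (⟨M.G (g k), hGA _⟩ : Sg.A Set.univ) * z * ⟨M.G (g k), hGA _⟩), ?_, ?_⟩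
    · apply hsm
      refine sum_mem fun k _ => ?_
      exact J.mul_mem_right _ _ (J.mul_mem_left _ _ hzJ)
    · push_cast
      rfl
  choose w hwJ hw using hsum
  have hlim : Tendsto w atTop (𝓝 (M.τ (z : 𝔹) • (1 : Sg.A Set.univ))) := by
    rw [tendsto_iff_norm_sub_tendsto_zero]
    refine hav.congr fun n => ?_
    rw [← hw n]
    rfl
  have hmem : M.τ (z : 𝔹) • (1 : Sg.A Set.univ) ∈ J :=
    hJ.mem_of_tendsto hlim (Eventually.of_forall hwJ)
  have h1 : (1 : Sg.A Set.univ) ∈ J := by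
    have := hsm (M.τ (z : 𝔹))⁻¹ _ hmem
    rwa [smul_smul, inv_mul_cancel₀ hτ, one_smul] at this
  apply le_antisymm le_top
  intro y _
  have := J.mul_mem_left y 1 h1
  rwa [mul_one] at this

end Crest.Agent.R120
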