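import Crest.Agent.R120.Sys
import Crest.Agent.R120.Idx
import Crest.Agent.R120.State
import Crest.Agent.R120.BasicLemma
import Crest.Agent.R120.Simple
import Mathlib

-- ▼ part R120/Index
section

/-!
# The index set (W-type), its well-order and the recursion (blueprint section 5)
-/

set_option autoImplicit false

namespace Crest.Agent.R120

open scoped ComplexOrder
open Filter Topology

variable {𝔹 : Type} [CStarAlgebra 𝔹] [PartialOrder 𝔹] [StarOrderedRing 𝔹] {X : Type}

namespace Index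

/-- admissible unitaries at an index -/
def Cand (M : PP 𝔹 X) (u : Idx X (𝔹 →ₚ[ℂ] ℂ) → 𝔹) : Idx X (𝔹 →ₚ[ℂ] ℂ) → 𝔹 → Prop
  | .gen _, _ => False
  | .node c ψ, y => M.ValidAt u Idx.ch (.node c ψ) y ∧
      ∃ δ > 0, ∀ n, δ ≤ (ψ (y * M.p n * star y)).re

/-- default values -/
def baseVal (M : PP 𝔹 X) : Idx X (𝔹 →ₚ[ℂ] ℂ) → 𝔹
  | .gen x => M.G x
  | .node _ _ => 1

theorem alg_congr (M : PP 𝔹 X) {I : Type} {u u' : I → 𝔹} {L : Set I} (h : ∀ j ∈ L, u j = u' j) :
    M.alg u L = M.alg u' L := by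
  have : u '' L = u' '' L := Set.image_congr h
  rw [PP.alg, PP.alg, this]

theorem validAt_congr (M : PP 𝔹 X) {I : Type} [LinearOrder I] {u u' : I → 𝔹} {ch : I → Set I}
    {i : I} (hch : ∀ j ∈ ch i, j < i) (h : ∀ j < i, u j = u' j) {y : 𝔹}
    (hv : M.ValidAt u ch i y) : M.ValidAt u' ch i y := by
  have h1 : M.alg u (ch i) = M.alg u' (ch i) := alg_congr M (fun j hj => h j (hch j hj))
  have h2 : M.alg u {j | j < i} = M.alg u' {j | j < i} := alg_congr M h
  exact ⟨hv.cl, hv.uni, fun n => h1 ▸ hv.a n, fun b hb => hv.b b (h1 ▸ hb),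
    fun b hb => hv.c b (h2 ▸ hb)⟩

theorem cand_congr (M : PP 𝔹 X) {u u' : Idx X (𝔹 →ₚ[ℂ] ℂ) → 𝔹} {i : Idx X (𝔹 →ₚ[ℂ] ℂ)}
    (h : ∀ j < i, u j = u' j) {y : 𝔹} (hc : Cand M u i y) : Cand M u' i y := by
  cases i with
  | gen x => exact hc
  | node c ψ => exact ⟨validAt_congr M (fun j hj => Idx.lt_of_mem_ch hj) h hc.1, hc.2⟩

open Classical in
/-- extension by one of a partially defined family -/
noncomputable def ext (i : Idx X (𝔹 →ₚ[ℂ] ℂ)) (r : ∀ j, j < i → 𝔹) : Idx X (𝔹 →ₚ[ℂ] ℂ) → 𝔹 :=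
  fun j => if h : j < i then r j h else 1

open Classical in
/-- one step of the recursion -/
noncomputable def step (M : PP 𝔹 X) (i : Idx X (𝔹 →ₚ[ℂ] ℂ)) (r : ∀ j, j < i → 𝔹) : 𝔹 :=
  if h : ∃ y, Cand M (ext i r) i y then h.choose else baseVal M i

/-- the family of unitaries -/
noncomputable def u (M : PP 𝔹 X) : Idx X (𝔹 →ₚ[ℂ] ℂ) → 𝔹 :=
  (wellFounded_lt (α := Idx X (𝔹 →ₚ[ℂ] ℂ))).fix (step M)

theorem u_eq (M : PP 𝔹 X) (i : Idx X (𝔹 →ₚ[ℂ] ℂ)) : u M i = step M i (fun j _ => u M j) :=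
  WellFounded.fix_eq _ _ i

theorem cand_u (M : PP 𝔹 X) (i : Idx X (𝔹 →ₚ[ℂ] ℂ)) (h : ∃ y, Cand M (u M) i y) :
    Cand M (u M) i (u M i) := by
  have h1 : ∀ j < i, u M j = ext i (fun j _ => u M j) j := by
    intro j hj
    rw [ext, dif_pos hj]
  have h2 : ∃ y, Cand M (ext i (fun j _ => u M j)) i y := by
    obtain ⟨y, hy⟩ := h
    exact ⟨y, cand_congr M h1 hy⟩
  have h3 : u M i = h2.choose := by
    rw [u_eq, step, dif_pos h2]
  rw [h3]
  exact cand_congr M (fun j hj => (h1 j hj).symm) h2.choose_spec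

theorem u_not_cand (M : PP 𝔹 X) (i : Idx X (𝔹 →ₚ[ℂ] ℂ)) (h : ¬ ∃ y, Cand M (u M) i y) :
    u M i = baseVal M i := by
  have h1 : ∀ j < i, u M j = ext i (fun j _ => u M j) j := by
    intro j hj
    rw [ext, dif_pos hj]
  have h2 : ¬ ∃ y, Cand M (ext i (fun j _ => u M j)) i y := by
    rintro ⟨y, hy⟩
    exact h ⟨y, cand_congr M (fun j hj => (h1 j hj).symm) hy⟩
  rw [u_eq, step, dif_neg h2]

/-- the system -/
noncomputable def sys (M : PP 𝔹 X) : Sys M (Idx X (𝔹 →ₚ[ℂ] ℂ)) where
  gen := .gen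
  gen_inj := fun x y h => by injection h
  u := u M
  ch := Idx.ch
  ch_lt := fun i j hj => Idx.lt_of_mem_ch hj
  ch_countable := Idx.countable_ch
  u_gen := fun x => by
    rw [u_not_cand M (.gen x) (fun ⟨y, hy⟩ => hy)]
    rfl
  ch_gen := fun x => rfl
  gen_lt := fun x i hi => by
    refine Idx.lt_of_isGen (Idx.isGen_gen x) ?_
    cases i with
    | gen y => exact absurd rfl (hi y)
    | node c ψ => exact Idx.not_isGen_node c ψ
  valid := fun i => ∃ y, Cand M (u M) i y
  valid_not_gen := by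
    rintro i x ⟨y, hy⟩ rfl
    exact hy
  valid_at := fun i hi => by
    have h := cand_u M i hi
    cases i with
    | gen x => exact absurd h (fun h => h)
    | node c ψ => exact h.1
  not_valid := fun i hi => by
    cases i with
    | gen x => exact Or.inl ⟨x, rfl⟩
    | node c ψ =>
      right
      rw [u_not_cand M _ hi]
      rfl

end Index

/-- Existence of a rich system. -/
theorem exists_sys (M : PP 𝔹 X) : ∃ (I : Type) (_ : LinearOrder I) (_ : WellFoundedLT I)
    (Sg : Sys M I), ∀ (c : ℕ → I) (ψ : 𝔹 →ₚ[ℂ] ℂ), ∃ i : I, Sg.ch i = Set.range c ∧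
      ((∃ y, M.ValidAt Sg.u Sg.ch i y ∧ ∃ δ > 0, ∀ n, δ ≤ (ψ (y * M.p n * star y)).re) →
        Sg.valid i ∧ ∃ δ > 0, ∀ n, δ ≤ (ψ (Sg.u i * M.p n * star (Sg.u i))).re) := by
  refine ⟨Idx X (𝔹 →ₚ[ℂ] ℂ), inferInstance, inferInstance, Index.sys M, ?_⟩
  intro c ψ
  refine ⟨.node c ψ, rfl, ?_⟩
  intro h
  have hv : ∃ y, Index.Cand M (Index.u M) (.node c ψ) y := h
  exact ⟨hv, (Index.cand_u M _ hv).2⟩

end Crest.Agent.R120
end

-- ▼ part R120/Step1Aux
section

/-!
# Algebra for Step 1: the self-adjoint unitary attached to a partial isometry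
-/

set_option autoImplicit false

namespace Crest.Agent.R120

open scoped ComplexOrder
open Filter Topology

section Alg

variable {𝔹 : Type} [CStarAlgebra 𝔹] {v q r : 𝔹}

/-- the self-adjoint unitary attached to `v` with `v⋆v = q`. -/
noncomputable def Wu (v q : 𝔹) : 𝔹 := v + star v + (1 - v * star v - q)

theorem Wu_aux1 (hq : IsStarProjection q) (hv : star v * v = q) : v * q = v := by
  have hqq : q * q = q := hq.isIdempotentElem.eq
  have hqs : star q = q := hq.isSelfAdjoint.star_eq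
  have h : star (v - v * q) * (v - v * q) = 0 := by
    simp only [star_sub, star_mul, hqs, sub_mul, mul_sub]
    rw [mul_assoc q (star v) v, ← mul_assoc (star v) v q, hv, mul_assoc q (star v) (v * q),
      ← mul_assoc (star v) v q, hv, hqq]
    simp [hqq]
  have := (CStarRing.star_mul_self_eq_zero_iff _).1 h
  exact (sub_eq_zero.1 this).symm

theorem Wu_aux2 (hq : IsStarProjection q) (hr : IsStarProjection r) (hrq : r * q = q)
    (hrv : (r - q) * v = v) : q * v = 0 := by
  have hqq : q * q = q := hq.isIdempotentElem.eq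
  have hqs : star q = q := hq.isSelfAdjoint.star_eq
  have hrs : star r = r := hr.isSelfAdjoint.star_eq
  have hqr : q * r = q := by
    have := congrArg star hrq
    simpa [hqs, hrs] using this
  calc q * v = q * ((r - q) * v) := by rw [hrv]
    _ = (q * r - q * q) * v := by rw [← mul_assoc, mul_sub]
    _ = 0 := by rw [hqr, hqq]; simp

theorem star_Wu (hq : IsStarProjection q) : star (Wu v q) = Wu v q := by
  have hqs : star q = q := hq.isSelfAdjoint.star_eq
  simp only [Wu, star_add, star_sub, star_star, star_mul, star_one, hqs]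
  rw [add_comm (star v) v]

theorem Wu_mul_q (hq : IsStarProjection q) (hr : IsStarProjection r) (hrq : r * q = q)
    (hv : star v * v = q) (hrv : (r - q) * v = v) : Wu v q * q = v := by
  have hqq : q * q = q := hq.isIdempotentElem.eq
  have hqs : star q = q := hq.isSelfAdjoint.star_eq
  have h1 := Wu_aux1 hq hv
  have h2 := Wu_aux2 hq hr hrq hrv
  have h3 : star v * q = 0 := by
    have := congrArg star h2
    simpa [hqs] using this
  simp only [Wu, add_mul, sub_mul, h1, h3, hqq, mul_assoc, one_mul, mul_zero]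
  simp

theorem Wu_mul_self (hq : IsStarProjection q) (hr : IsStarProjection r) (hrq : r * q = q)
    (hv : star v * v = q) (hrv : (r - q) * v = v) : Wu v q * Wu v q = 1 := by
  have hqq : q * q = q := hq.isIdempotentElem.eq
  have hqs : star q = q := hq.isSelfAdjoint.star_eq
  have h1 := Wu_aux1 hq hv
  have h2 := Wu_aux2 hq hr hrq hrv
  have h3 : star v * q = 0 := by
    have := congrArg star h2
    simpa [hqs] using this
  have h1' : q * star v = star v := by
    have := congrArg star h1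
    simpa [hqs] using this
  have h4 : v * v = 0 := by
    calc v * v = (v * q) * v := by rw [h1]
      _ = v * (q * v) := by rw [mul_assoc]
      _ = 0 := by rw [h2, mul_zero]
  have h4' : star v * star v = 0 := by
    have := congrArg star h4
    simpa using this
  have e1 : v * star v * v = v := by rw [mul_assoc, hv, h1]
  have e2 : v * star v * star v = 0 := by rw [mul_assoc, h4', mul_zero]
  have e3 : v * (v * star v) = 0 := by rw [← mul_assoc, h4, zero_mul]
  have e4 : star v * (v * star v) = star v := by rw [← mul_assoc, hv, h1']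
  have e5 : v * star v * (v * star v) = v * star v := by rw [← mul_assoc, e1]
  have e6 : v * star v * q = 0 := by rw [mul_assoc, h3, mul_zero]
  have e7 : q * (v * star v) = 0 := by rw [← mul_assoc, h2, zero_mul]
  simp only [Wu, add_mul, mul_add, sub_mul, mul_sub, one_mul, mul_one, h1, h2, h3, h1', h4, h4',
    e1, e2, e3, e4, e5, e6, e7, hv, hqq]
  abel

theorem Wu_mem_unitary (hq : IsStarProjection q) (hr : IsStarProjection r) (hrq : r * q = q)
    (hv : star v * v = q) (hrv : (r - q) * v = v) : Wu v q ∈ unitary 𝔹 := by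
  rw [Unitary.mem_iff, star_Wu hq]
  exact ⟨Wu_mul_self hq hr hrq hv hrv, Wu_mul_self hq hr hrq hv hrv⟩

theorem Wu_mul_one_sub (hq : IsStarProjection q) (hr : IsStarProjection r) (hrq : r * q = q)
    (hv : star v * v = q) (hrv : (r - q) * v = v) : Wu v q * (1 - r) = 1 - r := by
  have hqq : q * q = q := hq.isIdempotentElem.eq
  have hqs : star q = q := hq.isSelfAdjoint.star_eq
  have hrr : r * r = r := hr.isIdempotentElem.eq
  have hrs : star r = r := hr.isSelfAdjoint.star_eq
  have hqr : q * r = q := by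
    have := congrArg star hrq
    simpa [hqs, hrs] using this
  have h1 := Wu_aux1 hq hv
  have h2 := Wu_aux2 hq hr hrq hrv
  have hvr : v * r = v := by
    calc v * r = v * q * r := by rw [h1]
      _ = v * (q * r) := by rw [mul_assoc]
      _ = v := by rw [hqr, h1]
  have hrv' : r * v = v := by
    have : r * v - q * v = v := by rw [← sub_mul]; exact hrv
    rwa [h2, sub_zero] at this
  have hsr : star v * r = star v := by
    have := congrArg star hrv'
    simpa [hrs] using this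
  have e1 : v * star v * r = v * star v := by rw [mul_assoc, hsr]
  simp only [Wu, add_mul, sub_mul, mul_sub, one_mul, mul_one, hvr, hsr, e1, hqr]
  abel

/-- a decreasing sequence of projections is decreasing in the order. -/
theorem DecProj.le [PartialOrder 𝔹] [StarOrderedRing 𝔹] {p : ℕ → 𝔹} (hp : DecProj p) {n m : ℕ}
    (h : n ≤ m) : p m ≤ p n := by
  have hq := hp.proj m
  have hr := hp.proj n
  have hqq : p m * p m = p m := hq.isIdempotentElem.eq
  have hqs : star (p m) = p m := hq.isSelfAdjoint.star_eq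
  have hrr : p n * p n = p n := hr.isIdempotentElem.eq
  have hrs : star (p n) = p n := hr.isSelfAdjoint.star_eq
  have hrq := hp.mul n m h
  have hqr : p m * p n = p m := by
    have := congrArg star hrq
    simpa [hqs, hrs] using this
  have : 0 ≤ p n - p m := by
    have e : p n - p m = star (p n - p m) * (p n - p m) := by
      simp only [star_sub, hqs, hrs, sub_mul, mul_sub, hqq, hrr, hrq, hqr]
      abel
    rw [e]
    exact star_mul_self_nonneg _
  exact sub_nonneg.1 this

end Alg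

end Crest.Agent.R120
end

-- ▼ part R120/Step1
section

/-!
# Step 1 theorem (blueprint section 4): the conjugating unitary
-/

set_option autoImplicit false

namespace Crest.Agent.R120

open scoped ComplexOrder
open Filter Topology

section Gen

variable {𝔹 : Type} [CStarAlgebra 𝔹] [PartialOrder 𝔹] [StarOrderedRing 𝔹]

/-- a state with `φ q = 1` satisfies `φ (q T q) = φ T`. -/
theorem phi_compress {φ : 𝔹 →ₚ[ℂ] ℂ} (hφ1 : φ 1 = 1) {q : 𝔹} (hq : IsStarProjection q)
    (hφq : φ q = 1) (T : 𝔹) : φ (q * T * q) = φ T := by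
  have hqs : star q = q := hq.isSelfAdjoint.star_eq
  have hz : sn φ (1 - q) = 0 := by
    have h := sn_proj_sq φ hq.one_sub
    rw [map_sub, hφ1, hφq] at h
    simpa using h
  have h1s : star (1 - q) = 1 - q := by simp [hqs]
  have e1 : φ ((1 - q) * T) = 0 := by
    have h := norm_star_mul_le φ (1 - q) T
    rw [hz, zero_mul, h1s] at h
    exact norm_le_zero_iff.1 h
  have e2 : φ (q * T * (1 - q)) = 0 := by
    have h := norm_star_mul_le φ (star (q * T)) (1 - q)
    rw [hz, mul_zero, star_star] at h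
    exact norm_le_zero_iff.1 h
  have e3 : T = q * T * q + (1 - q) * T + q * T * (1 - q) := by noncomm_ring
  conv_rhs => rw [e3]
  rw [map_add, map_add, e1, e2, add_zero, add_zero]

omit [PartialOrder 𝔹] [StarOrderedRing 𝔹] in
theorem IsStarProjection.norm_le_one' {q : 𝔹} (hq : IsStarProjection q) : ‖q‖ ≤ 1 := by
  have hqq : q * q = q := hq.isIdempotentElem.eq
  have hqs : star q = q := hq.isSelfAdjoint.star_eq
  have h : ‖q‖ * ‖q‖ = ‖q‖ := by
    rw [← CStarRing.norm_star_mul_self, hqs, hqq]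
  rcases eq_or_ne ‖q‖ 0 with h0 | h0
  · rw [h0]; exact zero_le_one
  · have := mul_left_cancel₀ h0 (h.trans (mul_one _).symm)
    exact this.le

omit [PartialOrder 𝔹] [StarOrderedRing 𝔹] in
theorem norm_unitary_le_one {y : 𝔹} (hy : y ∈ unitary 𝔹) : ‖y‖ ≤ 1 := by
  have h1 : star y * y = 1 := (Unitary.mem_iff.1 hy).1
  have h : ‖y‖ * ‖y‖ ≤ 1 := by
    rw [← CStarRing.norm_star_mul_self, h1]
    exact IsStarProjection.norm_le_one' (IsStarProjection.one (R := 𝔹))
  nlinarith [norm_nonneg y]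

theorem N0_of_approx {p : ℕ → 𝔹} {φ : 𝔹 →ₚ[ℂ] ℂ} (hp : DecProj p) (hφ1 : φ 1 = 1)
    (hφ : ∀ n, φ (p n) = 1) {T : 𝔹}
    (h : ∀ ε > 0, ∃ μ : ℂ, ∃ n, ‖p n * (T - μ • 1) * p n‖ ≤ ε) : T ∈ N0 p φ := by
  rw [N0, Set.mem_ofPred_eq, Metric.tendsto_atTop]
  intro ε hε
  obtain ⟨μ, n, hn⟩ := h (ε / 3) (by positivity)
  have hμ : ‖φ T - μ‖ ≤ ε / 3 := by
    have e : φ (p n * (T - μ • 1) * p n) = φ T - μ := by
      rw [phi_compress hφ1 (hp.proj n) (hφ n), map_sub, map_smul, hφ1]
      simp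
    rw [← e]
    exact (norm_apply_le φ hφ1 _).trans hn
  refine ⟨n, fun m hm => ?_⟩
  have hnm := hp.mul n m hm
  have hmn : p m * p n = p m := by
    have := congrArg star hnm
    simpa [(hp.proj n).isSelfAdjoint.star_eq, (hp.proj m).isSelfAdjoint.star_eq] using this
  have hmm : p m * p m = p m := (hp.proj m).isIdempotentElem.eq
  have e : p m * T * p m - φ T • p m = p m * (p n * (T - μ • 1) * p n) * p m
      + (μ - φ T) • p m := by
    have : p m * (p n * (T - μ • 1) * p n) * p m = (p m * p n) * (T - μ • 1) * (p n * p m) := by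
      noncomm_ring
    rw [this, hmn, hnm, mul_sub, sub_mul, mul_smul_comm, smul_mul_assoc, mul_one, hmm, sub_smul]
    abel
  have hpm := IsStarProjection.norm_le_one' (hp.proj m)
  rw [Real.dist_eq, sub_zero, abs_of_nonneg (norm_nonneg _), e]
  calc ‖p m * (p n * (T - μ • 1) * p n) * p m + (μ - φ T) • p m‖
      ≤ ‖p m * (p n * (T - μ • 1) * p n) * p m‖ + ‖(μ - φ T) • p m‖ := norm_add_le _ _
    _ ≤ ‖p m‖ * ‖p n * (T - μ • 1) * p n‖ * ‖p m‖ + ‖μ - φ T‖ * ‖p m‖ := by
        gcongr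
        · exact (norm_mul_le _ _).trans (by gcongr; exact norm_mul_le _ _)
        · exact (norm_smul _ _).le
    _ ≤ 1 * (ε / 3) * 1 + (ε / 3) * 1 := by
        have : ‖μ - φ T‖ ≤ ε / 3 := by rw [norm_sub_rev]; exact hμ
        gcongr
    _ < ε := by linarith

theorem N0_isClosed {p : ℕ → 𝔹} {φ : 𝔹 →ₚ[ℂ] ℂ} (hp : DecProj p) (hφ1 : φ 1 = 1)
    (hφ : ∀ n, φ (p n) = 1) : IsClosed (N0 p φ) := by
  have h := Exc.isClosed_set (a := p) hφ1 (fun j => IsStarProjection.norm_le_one' (hp.proj j))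
  have e : N0 p φ = {x : 𝔹 | Tendsto (fun j => ‖p j * x * p j - φ x • (p j * p j)‖) atTop (𝓝 0)} := by
    ext x
    simp only [N0, Set.mem_ofPred_eq]
    simp only [(hp.proj _).isIdempotentElem.eq]
  rw [e]
  exact h

omit [PartialOrder 𝔹] [StarOrderedRing 𝔹] in
theorem norm_unitary_conj {y q b : 𝔹} (hy : y ∈ unitary 𝔹) (μ : ℂ) :
    ‖q * (star y * b * y - μ • 1) * q‖ = ‖(y * q * star y) * (b - μ • 1) * (y * q * star y)‖ := by
  have h1 : star y * y = 1 := (Unitary.mem_iff.1 hy).1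
  have e : (y * q * star y) * (b - μ • 1) * (y * q * star y)
      = y * (q * (star y * b * y - μ • 1) * q) * star y := by
    have e1 : (y * q * star y) * (b - μ • 1) * (y * q * star y)
      = y * q * (star y * (b - μ • 1) * y) * q * star y := by noncomm_ring
    have e2 : star y * (b - μ • 1) * y = star y * b * y - μ • 1 := by
      rw [mul_sub, sub_mul, mul_smul_comm, mul_one, smul_mul_assoc, h1]
    rw [e1, e2]
    noncomm_ring
  rw [e]
  have h2 : ‖y * (q * (star y * b * y - μ • 1) * q) * star y‖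
      = ‖y * (q * (star y * b * y - μ • 1) * q)‖ :=
    CStarRing.norm_mul_coe_unitary _ (⟨star y, Unitary.star_mem hy⟩ : unitary 𝔹)
  have h3 : ‖y * (q * (star y * b * y - μ • 1) * q)‖ = ‖q * (star y * b * y - μ • 1) * q‖ :=
    CStarRing.norm_coe_unitary_mul (⟨y, hy⟩ : unitary 𝔹) _
  rw [h2, h3]

end Gen

variable {𝔹 : Type} [CStarAlgebra 𝔹] [PartialOrder 𝔹] [StarOrderedRing 𝔹] {X : Type}
variable (M : PP 𝔹 X)

/-- the algebras `B_n` of Step 1 -/
noncomputable def PP.Bn (x : ℕ → X) (S : Set 𝔹) (n : ℕ) : StarSubalgebra ℂ 𝔹 :=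
  cs (S ∪ M.G '' (x '' {i | i < 2 * n}))

variable {M}

theorem PP.Bn_mono (x : ℕ → X) (S : Set 𝔹) {n m : ℕ} (h : n ≤ m) : M.Bn x S n ≤ M.Bn x S m := by
  apply cs_mono
  apply Set.union_subset_union_right
  apply Set.image_mono
  apply Set.image_mono
  intro i hi
  simp only [Set.mem_ofPred_eq] at hi ⊢
  omega

theorem PP.le_Bn (x : ℕ → X) (S : Set 𝔹) (n : ℕ) : cs S ≤ M.Bn x S n :=
  cs_mono Set.subset_union_left

theorem PP.Bn_le (x : ℕ → X) (S : Set 𝔹) (n : ℕ) :
    M.Bn x S n ≤ cs (S ∪ M.G '' Set.range x) := by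
  apply cs_mono
  apply Set.union_subset_union_right
  apply Set.image_mono
  exact Set.image_subset_range _ _

theorem PP.Bn_eq (x : ℕ → X) (S : Set 𝔹) (n : ℕ) :
    M.Bn x S n = cs ((cs S : Set 𝔹) ∪ M.G '' (x '' {i | i < 2 * n})) := by
  apply le_antisymm
  · exact cs_mono (Set.union_subset_union_left _ (subset_cs S))
  · apply cs_le (cs_isClosed _)
    apply Set.union_subset
    · exact M.le_Bn x S n
    · exact Set.subset_union_right.trans (subset_cs _)

theorem PP.Bn_le_U {Y : Set X} (x : ℕ → X) {S : Set 𝔹} (hSU : cs S ≤ M.U Y) (n : ℕ) :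
    M.Bn x S n ≤ M.U (Y ∪ x '' {i | i < 2 * n}) := by
  apply cs_le (M.U_closed _)
  apply Set.union_subset
  · exact (subset_cs S).trans (hSU.trans (M.U_mono _ _ Set.subset_union_left))
  · rintro _ ⟨z, hz, rfl⟩
    exact M.G_mem z _ (Or.inr hz)

theorem PP.Bn_disj {Y : Set X} {x : ℕ → X} (hx : ∀ n, x n ∉ Y) (n : ℕ) :
    Disjoint Y (x '' {i | i < 2 * n}) := by
  rw [Set.disjoint_right]
  rintro _ ⟨i, _, rfl⟩
  exact hx i

theorem PP.Bn_exc {Y : Set X} {x : ℕ → X} (hx : ∀ n, x n ∉ Y)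
    {S : Set 𝔹} (hSU : cs S ≤ M.U Y) (hbase : cs M.base ≤ cs S)
    {ψ : 𝔹 →ₚ[ℂ] ℂ} {a : ℕ → 𝔹} (h : Exc (cs S) ψ a) (n : ℕ) : Exc (M.Bn x S n) ψ a := by
  rw [PP.Bn_eq]
  exact M.typeI (PP.Bn_disj hx n) (cs_isClosed _) hSU hbase h

theorem PP.Bn_perp {Y : Set X} {x : ℕ → X} (hx : ∀ n, x n ∉ Y)
    {S : Set 𝔹} (hSU : cs S ≤ M.U Y) (hbase : cs M.base ≤ cs S)
    {ψ : 𝔹 →ₚ[ℂ] ℂ} {a : ℕ → 𝔹} (h : Exc (cs S) ψ a)
    (hperp : ∀ c ∈ cs S, Tendsto (fun n => sn ψ (M.p n * c)) atTop (𝓝 0)) (n : ℕ) :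
    ∀ c ∈ M.Bn x S n, Tendsto (fun n => sn ψ (M.p n * c)) atTop (𝓝 0) := by
  rw [PP.Bn_eq]
  exact M.typeI_perp (PP.Bn_disj hx n) (cs_isClosed _) hSU hbase h hperp

/-- One step of the construction. -/
theorem PP.step1_step {Y : Set X} {x : ℕ → X} (hinj : Function.Injective x) (hx : ∀ n, x n ∉ Y)
    {S : Set 𝔹} (hSU : cs S ≤ M.U Y) (hbase : cs M.base ≤ cs S)
    {ψ : 𝔹 →ₚ[ℂ] ℂ} {a : ℕ → 𝔹} (h : Exc (cs S) ψ a)
    (hperp : ∀ c ∈ cs S, Tendsto (fun n => sn ψ (M.p n * c)) atTop (𝓝 0)) (n : ℕ)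
    {V : 𝔹} {k : ℕ} (hV : V ∈ M.Bn x S n) (hVu : V ∈ unitary 𝔹)
    (hk : 1 / 2 ≤ (ψ (V * M.p k * star V)).re) (F : Finset 𝔹) (hF : ∀ b ∈ F, b ∈ M.Bn x S n)
    {ε : ℝ} (hε : 0 < ε) :
    ∃ V' k', V' ∈ M.Bn x S (n + 1) ∧ V' ∈ unitary 𝔹 ∧ k < k' ∧
      V' * (1 - M.p k) = V * (1 - M.p k) ∧
      (ψ (V * M.p k * star V)).re - ε ≤ (ψ (V' * M.p k' * star V')).re ∧
      ∀ b ∈ F, ∃ μ : ℂ, ‖M.p k' * (star V' * b * V' - μ • 1) * M.p k'‖ ≤ ε := by
  classical
  have hVV : V * star V = 1 := (Unitary.mem_iff.1 hVu).2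
  have hVV' : star V * V = 1 := (Unitary.mem_iff.1 hVu).1
  have hmemx : ∀ j, 2 * n ≤ j → x j ∉ Y ∪ x '' {i | i < 2 * n} := by
    intro j hj hmem
    rcases hmem with h1 | ⟨i, hi, hij⟩
    · exact hx j h1
    · have := hinj hij
      simp only [Set.mem_ofPred_eq] at hi
      omega
  have hpB : ∀ m, M.p m ∈ M.Bn x S n := fun m => M.le_Bn x S n (hbase (M.p_mem m))
  have hbasic := M.basic (hmemx (2 * n) le_rfl) (hmemx (2 * n + 1) (by omega))
    (fun e => by have := hinj e; omega) (B := M.Bn x S n) (cs_isClosed _)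
    (PP.Bn_le_U x hSU n) (hbase.trans (M.le_Bn x S n))
    ((PP.Bn_exc hx hSU hbase h n).conj_unitary hV hVu)
    (by
      intro c hc
      have := PP.Bn_perp hx hSU hbase h hperp n (c * star V) (mul_mem hc (star_mem hV))
      refine this.congr fun m => ?_
      rw [sn_conj, mul_assoc])
    (k := k) (by simpa using hk) (F.image fun b => star V * b * V)
    (by
      intro b hb
      obtain ⟨c, hc, rfl⟩ := Finset.mem_image.1 hb
      exact mul_mem (mul_mem (star_mem hV) (hF c hc)) hV) hε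
  obtain ⟨m, hm, v, hvmem, hv, hrv, hbd, hFv⟩ := hbasic
  have hq := M.p_dec.proj m
  have hr := M.p_dec.proj k
  have hrq := M.p_dec.mul k m hm.le
  set W := Wu v (M.p m) with hW
  have hWq : W * M.p m = v := Wu_mul_q hq hr hrq hv hrv
  have hWs : star W = W := star_Wu hq
  have hqs : star (M.p m) = M.p m := hq.isSelfAdjoint.star_eq
  have hqq : M.p m * M.p m = M.p m := hq.isIdempotentElem.eq
  have hqW : M.p m * star W = star v := by
    have := congrArg star hWq
    rwa [star_mul, hqs] at this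
  have hWu : W ∈ unitary 𝔹 := Wu_mem_unitary hq hr hrq hv hrv
  have hv' : v ∈ M.Bn x S (n + 1) := by
    have hle : cs ((M.Bn x S n : Set 𝔹) ∪ {M.G (x (2 * n)), M.G (x (2 * n + 1))})
        ≤ M.Bn x S (n + 1) := by
      apply cs_le (cs_isClosed _)
      apply Set.union_subset
      · exact PP.Bn_mono x S (Nat.le_succ n)
      · rintro _ (rfl | rfl)
        · exact subset_cs _ (Or.inr ⟨x (2 * n), ⟨2 * n, by show 2 * n < 2 * (n + 1); omega, rfl⟩, rfl⟩)
        · exact subset_cs _ (Or.inr ⟨x (2 * n + 1),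
            ⟨2 * n + 1, by show 2 * n + 1 < 2 * (n + 1); omega, rfl⟩, rfl⟩)
    exact hle hvmem
  have hWmem : W ∈ M.Bn x S (n + 1) := by
    rw [hW, Wu]
    exact add_mem (add_mem hv' (star_mem hv')) (sub_mem (sub_mem (one_mem _)
      (mul_mem hv' (star_mem hv'))) (PP.Bn_mono x S (Nat.le_succ n) (hpB m)))
  refine ⟨V * W, m, mul_mem (PP.Bn_mono x S (Nat.le_succ n) hV) hWmem, mul_mem hVu hWu, hm, ?_,
    ?_, ?_⟩
  · rw [mul_assoc, Wu_mul_one_sub hq hr hrq hv hrv]
  · have e : V * W * M.p m * star (V * W) = V * (v * star v) * star V := by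
      calc V * W * M.p m * star (V * W) = V * ((W * M.p m) * (M.p m * star W)) * star V := by
            rw [star_mul]
            have : W * M.p m * (M.p m * star W) = W * (M.p m * M.p m) * star W := by
              noncomm_ring
            rw [this, hqq]
            noncomm_ring
        _ = V * (v * star v) * star V := by rw [hWq, hqW]
    rw [e]
    simpa using hbd
  · intro b hb
    obtain ⟨μ, hμ⟩ := hFv _ (Finset.mem_image_of_mem _ hb)
    refine ⟨μ, ?_⟩
    have e : M.p m * (star (V * W) * b * (V * W) - μ • 1) * M.p m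
        = star v * (star V * b * V - μ • 1) * v := by
      have e1 : M.p m * (star (V * W) * b * (V * W)) * M.p m
          = (M.p m * star W) * (star V * b * V) * (W * M.p m) := by
        rw [star_mul]; noncomm_ring
      have e2 : M.p m * (μ • (1 : 𝔹)) * M.p m = μ • (star v * v) := by
        rw [mul_smul_comm, mul_one, smul_mul_assoc, hqq, hv]
      rw [mul_sub, sub_mul, e1, e2, hWq, hqW, mul_sub, sub_mul, mul_smul_comm, mul_one,
        smul_mul_assoc]
    rw [e]
    exact hμ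

variable (M)

theorem PP.step1 {Y : Set X} (x : ℕ → X) (hinj : Function.Injective x) (hx : ∀ n, x n ∉ Y)
    {S : Set 𝔹} (hS : S.Countable) (hSU : cs S ≤ M.U Y) (hbase : cs M.base ≤ cs S)
    {ψ : 𝔹 →ₚ[ℂ] ℂ} {a : ℕ → 𝔹} (h : Exc (cs S) ψ a)
    (hperp : ∀ c ∈ cs S, Tendsto (fun n => sn ψ (M.p n * c)) atTop (𝓝 0)) :
    ∃ y ∈ unitary 𝔹, (∀ n, y * (1 - M.p n) ∈ cs (S ∪ M.G '' Set.range x)) ∧
      (∀ b ∈ cs (S ∪ M.G '' Set.range x), star y * b * y ∈ N0 M.p M.φ) ∧
      (∀ n, 1 / 2 ≤ (ψ (y * M.p n * star y)).re) := by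
  classical
  -- dense sequences
  have hdense : ∀ i : ℕ, ∃ b : ℕ → 𝔹, (∀ j, b j ∈ M.Bn x S i) ∧
      ∀ z ∈ M.Bn x S i, ∀ ε > 0, ∃ j, ‖z - b j‖ < ε := by
    intro i
    apply exists_dense_seq
    apply hS.union
    apply Set.Countable.image
    apply Set.Countable.image
    exact Set.to_countable _
  choose b hbmem hbdense using hdense
  let F : ℕ → Finset 𝔹 := fun n =>
    (Finset.range (n + 1) ×ˢ Finset.range (n + 1)).image fun ij => b ij.1 ij.2
  have hF : ∀ n, ∀ c ∈ F n, c ∈ M.Bn x S n := by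
    intro n c hc
    obtain ⟨ij, hij, rfl⟩ := Finset.mem_image.1 hc
    simp only [Finset.mem_product, Finset.mem_range] at hij
    exact PP.Bn_mono x S (by omega) (hbmem _ _)
  have hstep : ∀ (n : ℕ) (V : 𝔹) (k : ℕ), (V ∈ M.Bn x S n ∧ V ∈ unitary 𝔹 ∧
      1 / 2 + (1 / 2 : ℝ) ^ (n + 1) ≤ (ψ (V * M.p k * star V)).re) →
      ∃ V' k', (V' ∈ M.Bn x S (n + 1) ∧ V' ∈ unitary 𝔹 ∧
        1 / 2 + (1 / 2 : ℝ) ^ (n + 1 + 1) ≤ (ψ (V' * M.p k' * star V')).re) ∧ k < k' ∧
      V' * (1 - M.p k) = V * (1 - M.p k) ∧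
      ∀ c ∈ F n, ∃ μ : ℂ, ‖M.p k' * (star V' * c * V' - μ • 1) * M.p k'‖
        ≤ (1 / 2 : ℝ) ^ (n + 2) := by
    rintro n V k ⟨hV, hVu, hk⟩
    obtain ⟨V', k', h1, h2, h3, h4, h5, h6⟩ := PP.step1_step hinj hx hSU hbase h hperp n hV hVu (k := k)
      (by
        have : (0 : ℝ) < (1 / 2) ^ (n + 1) := by positivity
        linarith) (F n) (hF n) (ε := (1 / 2) ^ (n + 2)) (by positivity)
    refine ⟨V', k', ⟨h1, h2, ?_⟩, h3, h4, h6⟩
    have e : (1 / 2 : ℝ) ^ (n + 1) = (1 / 2) ^ (n + 2) + (1 / 2) ^ (n + 1 + 1) := by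
      rw [pow_succ (1 / 2 : ℝ) (n + 1)]; ring
    linarith
  choose! V' k' hVk using hstep
  let st : ℕ → 𝔹 × ℕ := fun n => Nat.rec (1, 0) (fun n s => (V' n s.1 s.2, k' n s.1 s.2)) n
  have hst0 : st 0 = (1, 0) := rfl
  have hstS : ∀ n, st (n + 1) = (V' n (st n).1 (st n).2, k' n (st n).1 (st n).2) := fun n => rfl
  have hinv : ∀ n, (st n).1 ∈ M.Bn x S n ∧ (st n).1 ∈ unitary 𝔹 ∧
      1 / 2 + (1 / 2 : ℝ) ^ (n + 1) ≤ (ψ ((st n).1 * M.p (st n).2 * star (st n).1)).re := by
    intro n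
    induction n with
    | zero =>
      rw [hst0]
      refine ⟨one_mem _, one_mem _, ?_⟩
      simp only [M.p_zero, star_one, mul_one, h.one]
      norm_num
    | succ n ih =>
      rw [hstS]
      exact (hVk n _ _ ih).1
  let V : ℕ → 𝔹 := fun n => (st n).1
  let k : ℕ → ℕ := fun n => (st n).2
  have hVmem : ∀ n, V n ∈ M.Bn x S n := fun n => (hinv n).1
  have hVu : ∀ n, V n ∈ unitary 𝔹 := fun n => (hinv n).2.1
  have hVψ : ∀ n, 1 / 2 ≤ (ψ (V n * M.p (k n) * star (V n))).re := fun n => by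
    have := (hinv n).2.2
    have h0 : (0 : ℝ) < (1 / 2) ^ (n + 1) := by positivity
    show 1 / 2 ≤ (ψ ((st n).1 * M.p (st n).2 * star (st n).1)).re
    linarith
  have hkmono : StrictMono k := strictMono_nat_of_lt_succ fun n => by
    show (st n).2 < (st (n + 1)).2
    rw [hstS]
    exact (hVk n _ _ (hinv n)).2.1
  have hVsucc : ∀ n, V (n + 1) * (1 - M.p (k n)) = V n * (1 - M.p (k n)) := fun n => by
    show (st (n + 1)).1 * (1 - M.p (st n).2) = (st n).1 * (1 - M.p (st n).2)
    rw [hstS]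
    exact (hVk n _ _ (hinv n)).2.2.1
  have hVF : ∀ n, ∀ c ∈ F n, ∃ μ : ℂ,
      ‖M.p (k (n + 1)) * (star (V (n + 1)) * c * V (n + 1) - μ • 1) * M.p (k (n + 1))‖
        ≤ (1 / 2 : ℝ) ^ (n + 2) := fun n => by
    show ∀ c ∈ F n, ∃ μ : ℂ, ‖M.p (st (n + 1)).2 * (star (st (n + 1)).1 * c * (st (n + 1)).1
      - μ • 1) * M.p (st (n + 1)).2‖ ≤ (1 / 2 : ℝ) ^ (n + 2)
    rw [hstS]
    exact (hVk n _ _ (hinv n)).2.2.2
  obtain ⟨y, hyu, hy⟩ := M.lim V k hkmono hVu
    (fun n => M.U_mono _ _ (Set.subset_univ _) (PP.Bn_le_U x hSU n (hVmem n))) hVsucc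
  have hyy : y * star y = 1 := (Unitary.mem_iff.1 hyu).2
  have hkle : ∀ n, n ≤ k n := hkmono.id_le
  have hsp : ∀ n, star (M.p n) = M.p n := fun n => (M.p_dec.proj n).isSelfAdjoint.star_eq
  have hpp : ∀ n, M.p n * M.p n = M.p n := fun n => (M.p_dec.proj n).isIdempotentElem.eq
  -- `y p_{k n} y* = V_n p_{k n} V_n*`
  have he : ∀ n, y * M.p (k n) * star y = V n * M.p (k n) * star (V n) := by
    intro n
    have hVV : V n * star (V n) = 1 := (Unitary.mem_iff.1 (hVu n)).2
    have key : ∀ z : 𝔹, z * star z = 1 → z * M.p (k n) * star z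
        = 1 - (z * (1 - M.p (k n))) * star (z * (1 - M.p (k n))) := by
      intro z hz
      have h1 : (1 - M.p (k n)) * (1 - M.p (k n)) = 1 - M.p (k n) := by
        rw [mul_sub, sub_mul, sub_mul, hpp]
        simp
      have h2 : star (1 - M.p (k n)) = 1 - M.p (k n) := by simp [hsp]
      calc z * M.p (k n) * star z = z * star z - z * (1 - M.p (k n)) * star z := by noncomm_ring
        _ = 1 - z * ((1 - M.p (k n)) * (1 - M.p (k n))) * star z := by rw [hz, h1]
        _ = _ := by rw [star_mul, h2]; noncomm_ring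
    rw [key y hyy, key (V n) hVV, hy n]
  refine ⟨y, hyu, ?_, ?_, ?_⟩
  · intro n
    have hnk := hkle n
    have e : (1 - M.p (k n)) * (1 - M.p n) = 1 - M.p n := by
      have : M.p (k n) * M.p n = M.p (k n) := by
        have := congrArg star (M.p_dec.mul n (k n) hnk)
        simpa [hsp] using this
      rw [mul_sub, mul_one, sub_mul, this]
      simp
    have e2 : y * (1 - M.p n) = V n * (1 - M.p n) := by
      calc y * (1 - M.p n) = y * (1 - M.p (k n)) * (1 - M.p n) := by rw [mul_assoc, e]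
        _ = V n * (1 - M.p (k n)) * (1 - M.p n) := by rw [hy n]
        _ = V n * (1 - M.p n) := by rw [mul_assoc, e]
    rw [e2]
    apply PP.Bn_le x S n
    exact mul_mem (hVmem n) (sub_mem (one_mem _) (M.le_Bn x S n (hbase (M.p_mem n))))
  · -- approximate scalars
    have hU : S ∪ M.G '' Set.range x = ⋃ n : ℕ, (S ∪ M.G '' (x '' {i | i < 2 * n})) := by
      ext z
      simp only [Set.mem_union, Set.mem_image, Set.mem_range, Set.mem_iUnion, Set.mem_ofPred_eq]
      constructor
      · rintro (hz | ⟨_, ⟨i, rfl⟩, rfl⟩)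
        · exact ⟨0, Or.inl hz⟩
        · exact ⟨i + 1, Or.inr ⟨x i, ⟨i, by omega, rfl⟩, rfl⟩⟩
      · rintro ⟨n, hz | ⟨_, ⟨i, _, rfl⟩, rfl⟩⟩
        · exact Or.inl hz
        · exact Or.inr ⟨x i, ⟨i, rfl⟩, rfl⟩
    rw [hU]
    have hclosed : IsClosed {c : 𝔹 | star y * c * y ∈ N0 M.p M.φ} :=
      (N0_isClosed M.p_dec M.φ_one M.φ_p).preimage (by fun_prop)
    refine mem_of_directed (W := {c : 𝔹 | star y * c * y ∈ N0 M.p M.φ}) ?_ hclosed ?_
    · intro i j
      refine ⟨max i j, ?_, ?_⟩ <;>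
      · apply Set.union_subset_union_right
        apply Set.image_mono
        apply Set.image_mono
        intro l hl
        simp only [Set.mem_ofPred_eq] at hl ⊢
        omega
    · intro i c hc
      apply N0_of_approx M.p_dec M.φ_one M.φ_p
      intro ε hε
      obtain ⟨j, hj⟩ := hbdense i c hc (ε / 2) (by positivity)
      obtain ⟨N, hN⟩ := exists_pow_lt_of_lt_one (show (0 : ℝ) < ε / 2 by positivity)
        (show (1 / 2 : ℝ) < 1 by norm_num)
      let n := max N (max i j)
      have hcF : b i j ∈ F n := by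
        apply Finset.mem_image.2
        refine ⟨(i, j), ?_, rfl⟩
        simp only [Finset.mem_product, Finset.mem_range]
        constructor <;> omega
      obtain ⟨μ, hμ⟩ := hVF n (b i j) hcF
      refine ⟨μ, k (n + 1), ?_⟩
      rw [norm_unitary_conj hyu, he (n + 1), ← norm_unitary_conj (hVu (n + 1))]
      have e : M.p (k (n + 1)) * (star (V (n + 1)) * c * V (n + 1) - μ • 1) * M.p (k (n + 1))
          = M.p (k (n + 1)) * (star (V (n + 1)) * b i j * V (n + 1) - μ • 1) * M.p (k (n + 1))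
          + (M.p (k (n + 1)) * star (V (n + 1))) * (c - b i j) * (V (n + 1) * M.p (k (n + 1))) := by
        noncomm_ring
      rw [e]
      have hVn : ‖V (n + 1)‖ ≤ 1 := norm_unitary_le_one (hVu (n + 1))
      have hpn := IsStarProjection.norm_le_one' (M.p_dec.proj (k (n + 1)))
      calc _ ≤ ‖M.p (k (n + 1)) * (star (V (n + 1)) * b i j * V (n + 1) - μ • 1)
              * M.p (k (n + 1))‖ + ‖(M.p (k (n + 1)) * star (V (n + 1))) * (c - b i j)
              * (V (n + 1) * M.p (k (n + 1)))‖ := norm_add_le _ _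
        _ ≤ (1 / 2 : ℝ) ^ (n + 2) + (1 * 1) * ‖c - b i j‖ * (1 * 1) := by
            gcongr
            refine (norm_mul_le _ _).trans ?_
            gcongr
            · refine (norm_mul_le _ _).trans ?_
              gcongr
              refine (norm_mul_le _ _).trans ?_
              rw [norm_star]
              gcongr
            · refine (norm_mul_le _ _).trans ?_
              gcongr
        _ ≤ ε / 2 + ε / 2 := by
            have h1 : (1 / 2 : ℝ) ^ (n + 2) ≤ (1 / 2) ^ N :=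
              pow_le_pow_of_le_one (by norm_num) (by norm_num) (by omega)
            have := hj.le
            have := hN.le
            linarith
        _ = ε := by ring
  · intro n
    have hnk := hkle n
    have hle := M.p_dec.le hnk
    have h1 : y * M.p (k n) * star y ≤ y * M.p n * star y := star_right_conjugate_le_conjugate hle y
    have h2 : ψ (y * M.p (k n) * star y) ≤ ψ (y * M.p n * star y) := OrderHomClass.mono ψ h1
    have h3 := (Complex.le_def.1 h2).1
    rw [he n] at h3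
    exact (hVψ n).trans h3

end Crest.Agent.R120
end

-- ▼ part R120/Main
section

set_option autoImplicit false

namespace Crest.Agent.R120

open scoped ComplexOrder
open Filter Topology

/-- decreasing sequences of projections converge strongly -/
theorem decProj_lim {H : Type} [NormedAddCommGroup H] [InnerProductSpace ℂ H] [CompleteSpace H]
    {q : ℕ → H →L[ℂ] H} (hq : DecProj q) (ξ : H) :
    ∃ ζ : H, Tendsto (fun n => q n ξ) atTop (𝓝 ζ) ∧ ∀ n, q n ζ = ζ := by
  have hself : ∀ n, star (q n) = q n := fun n => (hq.proj n).isSelfAdjoint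
  have hidem : ∀ n, q n * q n = q n := fun n => (hq.proj n).isIdempotentElem
  have hadj : ∀ n (x y : H), inner ℂ (q n x) y = inner ℂ x (q n y) := by
    intro n x y
    have := ContinuousLinearMap.adjoint_inner_right (q n) x y
    rw [← ContinuousLinearMap.star_eq_adjoint, hself] at this
    exact this.symm
  have hmul : ∀ n m, n ≤ m → ∀ x : H, q n (q m x) = q m x := by
    intro n m h x
    have := hq.mul n m h
    exact congrArg (fun T : H →L[ℂ] H => T x) this
  have key : ∀ n m, n ≤ m → ‖q n ξ - q m ξ‖ ^ 2 = ‖q n ξ‖ ^ 2 - ‖q m ξ‖ ^ 2 := by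
    intro n m h
    have h1 : inner ℂ (q n ξ) (q m ξ) = ((‖q m ξ‖ : ℂ)) ^ 2 := by
      rw [hadj, hmul n m h]
      have h2 : inner ℂ (q m ξ) (q m ξ) = inner ℂ ξ (q m ξ) := by
        rw [hadj, hmul m m le_rfl]
      rw [← h2, inner_self_eq_norm_sq_to_K]
      rfl
    rw [@norm_sub_sq ℂ, h1]
    have : RCLike.re (((‖q m ξ‖ : ℂ)) ^ 2) = ‖q m ξ‖ ^ 2 := by
      norm_cast
    rw [this]; ring
  have hanti : Antitone (fun n => ‖q n ξ‖ ^ 2) := by
    intro n m h
    have := key n m h
    have h2 := sq_nonneg ‖q n ξ - q m ξ‖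
    simp only
    linarith
  have hbdd : BddBelow (Set.range (fun n => ‖q n ξ‖ ^ 2)) := ⟨0, by
    rintro _ ⟨n, rfl⟩; positivity⟩
  have hlim := tendsto_atTop_ciInf hanti hbdd
  set L := ⨅ n, ‖q n ξ‖ ^ 2
  have hL : ∀ n, L ≤ ‖q n ξ‖ ^ 2 := fun n => ciInf_le hbdd n
  have hC : CauchySeq (fun n => q n ξ) := by
    rw [Metric.cauchySeq_iff']
    intro ε hε
    have : ∀ᶠ n in atTop, ‖q n ξ‖ ^ 2 < L + ε ^ 2 :=
      (tendsto_order.1 hlim).2 _ (by linarith [pow_pos hε 2])
    obtain ⟨N, hN⟩ := this.exists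
    refine ⟨N, fun n hn => ?_⟩
    rw [dist_eq_norm, ← norm_neg, neg_sub]
    have h1 := key N n hn
    have h2 : ‖q N ξ - q n ξ‖ ^ 2 < ε ^ 2 := by
      rw [h1]; linarith [hL n]
    exact lt_of_pow_lt_pow_left₀ 2 hε.le h2
  obtain ⟨ζ, hζ⟩ := cauchySeq_tendsto_of_complete hC
  refine ⟨ζ, hζ, fun n => ?_⟩
  have h1 : Tendsto (fun m => q n (q m ξ)) atTop (𝓝 (q n ζ)) :=
    ((q n).continuous.tendsto ζ).comp hζ
  have h2 : Tendsto (fun m => q n (q m ξ)) atTop (𝓝 ζ) := by
    refine hζ.congr' ?_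
    filter_upwards [eventually_ge_atTop n] with m hm
    exact (hmul n m hm ξ).symm
  exact tendsto_nhds_unique h1 h2


theorem irrep_excision' {A : Type} [CStarAlgebra A] {H : Type} [NormedAddCommGroup H]
    [InnerProductSpace ℂ H] [CompleteSpace H] {π : A →⋆ₙₐ[ℂ] (H →L[ℂ] H)}
    (hπ : Crest.OpAlg.IsIrreducibleRep π) {ξ : H} (hξ : ‖ξ‖ = 1) (F : Finset A)
    {ε : ℝ} (hε : 0 < ε) :
    ∃ a : A, (∃ s, a = star s * s) ∧ (∃ s, 1 - a = star s * s) ∧
      1 - ε ≤ (inner ℂ ξ (π a ξ)).re ∧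
      ∀ b ∈ F, ‖a * (b - inner ℂ ξ (π b ξ) • 1) * a‖ ≤ ε := by
  let _ : PartialOrder A := CStarAlgebra.spectralOrder _
  let _ : StarOrderedRing A := CStarAlgebra.spectralOrderedRing _
  obtain ⟨a, ha0, ha1, ha2, ha3⟩ := irrep_excision hπ hξ F hε
  exact ⟨a, CStarAlgebra.nonneg_iff_eq_star_mul_self.1 ha0,
    CStarAlgebra.nonneg_iff_eq_star_mul_self.1 (sub_nonneg.2 ha1), ha2, ha3⟩

section rep

variable {𝔹 : Type} [CStarAlgebra 𝔹] [PartialOrder 𝔹] [StarOrderedRing 𝔹]
variable {H : Type} [NormedAddCommGroup H] [InnerProductSpace ℂ H] [CompleteSpace H]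

theorem sn_eq_of_vector {B : StarSubalgebra ℂ 𝔹} [IsClosed (B : Set 𝔹)]
    {π : B →⋆ₙₐ[ℂ] (H →L[ℂ] H)} {ψ : 𝔹 →ₚ[ℂ] ℂ} {ξ : H}
    (hψ : ∀ b : B, ψ (b : 𝔹) = inner ℂ ξ (π b ξ)) (T : B) : sn ψ (T : 𝔹) = ‖π T ξ‖ := by
  have h1 := sn_sq ψ (T : 𝔹)
  have h2 : (star (T : 𝔹) * (T : 𝔹)) = ((star T * T : B) : 𝔹) := by push_cast; rfl
  rw [h2, hψ, map_mul, map_star] at h1
  have h3 : inner ℂ ξ ((star (π T) * π T) ξ) = inner ℂ (π T ξ) (π T ξ) := by
    rw [ContinuousLinearMap.star_eq_adjoint]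
    exact ContinuousLinearMap.adjoint_inner_right (π T) ξ (π T ξ)
  rw [h3, inner_self_eq_norm_sq_to_K] at h1
  have h4 : (((‖π T ξ‖ : ℂ)) ^ 2).re = ‖π T ξ‖ ^ 2 := by norm_cast
  have h5 : sn ψ (T : 𝔹) ^ 2 = ‖π T ξ‖ ^ 2 := by rw [h1]; exact h4
  exact (sq_eq_sq₀ (sn_nonneg ψ _) (norm_nonneg _)).1 h5

omit [PartialOrder 𝔹] [StarOrderedRing 𝔹] in
theorem decProj_map {B : StarSubalgebra ℂ 𝔹} [IsClosed (B : Set 𝔹)]
    (π : B →⋆ₙₐ[ℂ] (H →L[ℂ] H)) {p : ℕ → 𝔹} (hp : DecProj p) (hm : ∀ n, p n ∈ B) :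
    DecProj (fun n => π ⟨p n, hm n⟩) := by
  constructor
  · intro n
    have h : IsStarProjection (⟨p n, hm n⟩ : B) := by
      refine ⟨?_, ?_⟩
      · exact Subtype.ext (hp.proj n).isIdempotentElem
      · exact Subtype.ext (hp.proj n).isSelfAdjoint
    refine ⟨?_, ?_⟩
    · have := h.isIdempotentElem
      unfold IsIdempotentElem at *
      rw [← map_mul, this]
    · have := h.isSelfAdjoint
      unfold IsSelfAdjoint at *
      rw [← map_star, this]
  · intro n m h
    rw [← map_mul]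
    congr 1
    exact Subtype.ext (hp.mul n m h)

end rep


variable {𝔹 : Type} [CStarAlgebra 𝔹] [PartialOrder 𝔹] [StarOrderedRing 𝔹] {X : Type}
variable {M : PP 𝔹 X} {I : Type} [LinearOrder I] [WellFoundedLT I] (Sg : Sys M I)

theorem Sys.A_mono {K L : Set I} (h : K ⊆ L) : Sg.A K ≤ Sg.A L :=
  cs_mono (Set.union_subset_union_right _ (Set.image_mono h))

theorem Sys.p_mem (L : Set I) (n : ℕ) : M.p n ∈ Sg.A L :=
  cs_mono Set.subset_union_left (M.p_mem n)

theorem Sys.u_mem {L : Set I} {i : I} (hi : i ∈ L) : Sg.u i ∈ Sg.A L :=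
  subset_cs _ (Or.inr ⟨i, hi, rfl⟩)

theorem exists_unit_of_irrep {A : Type} [NonUnitalCStarAlgebra A] {H : Type}
    [NormedAddCommGroup H] [InnerProductSpace ℂ H] [CompleteSpace H]
    {π : A →⋆ₙₐ[ℂ] (H →L[ℂ] H)} (hπ : Crest.OpAlg.IsIrreducibleRep π) : ∃ ξ : H, ‖ξ‖ = 1 := by
  by_contra hno
  push Not at hno
  have h0 : ∀ ξ : H, ξ = 0 := by
    intro ξ
    by_contra hξ
    have hn : ‖ξ‖ ≠ 0 := norm_ne_zero_iff.2 hξ
    apply hno (((‖ξ‖ : ℂ))⁻¹ • ξ)
    rw [norm_smul, norm_inv, Complex.norm_real, norm_norm, inv_mul_cancel₀ hn]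
  apply hπ.1
  ext a ξ
  rw [h0 ξ]
  simp

omit [PartialOrder 𝔹] [StarOrderedRing 𝔹] in
theorem decProj_conj {p : ℕ → 𝔹} (hp : DecProj p) {y : 𝔹} (hy : star y * y = 1) :
    DecProj (fun n => y * p n * star y) := by
  have hpsa : ∀ n, star (p n) = p n := fun n => (hp.proj n).isSelfAdjoint
  have hpid : ∀ n, p n * p n = p n := fun n => (hp.proj n).isIdempotentElem
  have key : ∀ n m, (y * p n * star y) * (y * p m * star y) = y * (p n * p m) * star y := by
    intro n m
    calc (y * p n * star y) * (y * p m * star y) = y * p n * (star y * y) * p m * star y := by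
          noncomm_ring
      _ = _ := by rw [hy]; noncomm_ring
  constructor
  · intro n
    refine ⟨?_, ?_⟩
    · unfold IsIdempotentElem
      rw [key, hpid]
    · unfold IsSelfAdjoint
      rw [star_mul, star_mul, star_star, hpsa]
      noncomm_ring
  · intro n m h
    rw [key, hp.mul n m h]

/-- every irreducible representation of the big algebra contains a `φ`-vector -/
theorem Sys.exists_fixed [Uncountable X]
    (hrich : ∀ (c : ℕ → I) (ψ : 𝔹 →ₚ[ℂ] ℂ), ∃ i : I, Sg.ch i = Set.range c ∧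
      ((∃ y, M.ValidAt Sg.u Sg.ch i y ∧ ∃ δ > 0, ∀ n, δ ≤ (ψ (y * M.p n * star y)).re) →
        Sg.valid i ∧ ∃ δ > 0, ∀ n, δ ≤ (ψ (Sg.u i * M.p n * star (Sg.u i))).re))
    [IsClosed (Sg.A Set.univ : Set 𝔹)]
    {H : Type} [NormedAddCommGroup H] [InnerProductSpace ℂ H] [CompleteSpace H]
    {π : (Sg.A Set.univ) →⋆ₙₐ[ℂ] (H →L[ℂ] H)} (hπ : Crest.OpAlg.IsIrreducibleRep π) :
    ∃ ζ : H, ‖ζ‖ = 1 ∧ ∀ (n : ℕ) (h : M.p n ∈ Sg.A Set.univ), π ⟨M.p n, h⟩ ζ = ζ := by
  by_contra hno
  have hπ1 : π 1 = 1 := irrep_one hπ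
  have hpm : ∀ n, M.p n ∈ Sg.A Set.univ := Sg.p_mem Set.univ
  have hq := decProj_map π M.p_dec hpm
  -- all vectors are killed in the limit
  have hzero : ∀ ξ : H, Tendsto (fun n => π ⟨M.p n, hpm n⟩ ξ) atTop (𝓝 0) := by
    intro ξ
    obtain ⟨ζ, hζ, hfix⟩ := decProj_lim hq ξ
    by_cases h0 : ζ = 0
    · rwa [h0] at hζ
    · exfalso
      apply hno
      have hn : ‖ζ‖ ≠ 0 := norm_ne_zero_iff.2 h0
      refine ⟨((‖ζ‖ : ℂ))⁻¹ • ζ, ?_, fun n h => ?_⟩
      · rw [norm_smul, norm_inv, Complex.norm_real, norm_norm, inv_mul_cancel₀ hn]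
      · rw [map_smul, hfix n]
  obtain ⟨ξ, hξ⟩ := exists_unit_of_irrep hπ
  obtain ⟨ψ, hψ1, hψ⟩ := exists_state_ext (Sg.A Set.univ) hπ1 hξ
  have hsn : ∀ T : Sg.A Set.univ, sn ψ (T : 𝔹) = ‖π T ξ‖ := sn_eq_of_vector hψ
  -- reflection
  obtain ⟨T, -, hTc, hTcl, a, ha⟩ := Sg.reflect (ψ := ψ) hψ1 (by
    intro F hF ε hε
    classical
    obtain ⟨a, ⟨s, hs⟩, ⟨s', hs'⟩, ha2, ha3⟩ := irrep_excision' hπ hξ
      (F.subtype (· ∈ Sg.A Set.univ)) hε
    refine ⟨a, a.2, ?_, ?_, ?_, ?_⟩
    · rw [hs]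
      exact star_mul_self_nonneg (s : 𝔹)
    · have : ((1 - a : Sg.A Set.univ) : 𝔹) = star (s' : 𝔹) * (s' : 𝔹) := by rw [hs']; push_cast; rfl
      have h2 : (0 : 𝔹) ≤ 1 - (a : 𝔹) := by
        have h3 : ((1 - a : Sg.A Set.univ) : 𝔹) = 1 - (a : 𝔹) := by push_cast; rfl
        rw [← h3, this]
        exact star_mul_self_nonneg _
      exact sub_nonneg.1 h2
    · rw [hψ]; exact ha2
    · intro b hb
      have := ha3 ⟨b, hF b hb⟩ (by simpa using hb)
      rw [← hψ] at this
      exact this) (S := ∅) Set.countable_empty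
  have hTU : T ⊆ Set.univ := Set.subset_univ T
  have hcluniv : IsCl Sg.ch Set.univ := fun i _ => Set.subset_univ _
  have haU : Exc (Sg.A Set.univ) ψ a := Sg.R1 hTcl hcluniv hTU ha
  -- fresh generators
  obtain ⟨x, hxinj, hxT⟩ : ∃ x : ℕ → X, Function.Injective x ∧ ∀ n, x n ∉ Sg.X' T := by
    have hXT : (Sg.X' T).Countable := by
      exact hTc.preimage Sg.gen_inj
    have hinf : (Sg.X' T)ᶜ.Infinite := by
      intro hfin
      have : (Set.univ : Set X).Countable := by
        rw [← Set.union_compl_self (Sg.X' T)]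
        exact hXT.union hfin.countable
      exact Set.not_countable_univ this
    have := hinf.to_subtype
    obtain ⟨f⟩ : Nonempty (ℕ ↪ ↥((Sg.X' T)ᶜ)) := ⟨Infinite.natEmbedding _⟩
    exact ⟨fun n => (f n : X), fun n m h => f.injective (Subtype.ext h), fun n => (f n).2⟩
  -- enumerate
  set T' : Set I := T ∪ Set.range (fun n => Sg.gen (x n)) with hT'
  have hT'c : T'.Countable := hTc.union (Set.countable_range _)
  have hT'n : T'.Nonempty := ⟨Sg.gen (x 0), Or.inr ⟨0, rfl⟩⟩
  obtain ⟨c, hc⟩ := hT'c.exists_eq_range hT'n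
  obtain ⟨i, hchi, hi⟩ := hrich c ψ
  rw [← hc] at hchi
  have hcli : IsCl Sg.ch (Sg.ch i) := by
    rw [hchi]
    rintro j (hj | ⟨n, rfl⟩)
    · exact (hTcl j hj).trans Set.subset_union_left
    · simp only [Sg.ch_gen]; exact Set.empty_subset _
  have hclt : IsCl Sg.ch {j | j < i} := fun j hj k hk => lt_trans (Sg.ch_lt j k hk) hj
  have hchlt : Sg.ch i ⊆ {j | j < i} := fun j hj => Sg.ch_lt i j hj
  -- step 1
  have hperp : ∀ c ∈ Sg.A T, Tendsto (fun n => sn ψ (M.p n * c)) atTop (𝓝 0) := by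
    intro c hc
    have hcU : c ∈ Sg.A Set.univ := Sg.A_mono hTU hc
    have : ∀ n, sn ψ (M.p n * c) = ‖π ⟨M.p n, hpm n⟩ (π ⟨c, hcU⟩ ξ)‖ := by
      intro n
      have := hsn (⟨M.p n, hpm n⟩ * ⟨c, hcU⟩)
      rw [map_mul] at this
      exact this
    simp_rw [this]
    exact (tendsto_zero_iff_norm_tendsto_zero).1 (hzero _)
  have halg : cs ((M.base ∪ Sg.u '' T) ∪ M.G '' Set.range x) = M.alg Sg.u (Sg.ch i) := by
    unfold PP.alg
    rw [hchi, hT', Set.image_union, ← Set.range_comp, ← Set.union_assoc]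
    congr 2
    rw [← Set.range_comp]
    congr 1
    ext n
    exact (Sg.u_gen (x n)).symm
  obtain ⟨y, hyu, hya, hyb, hyd⟩ := M.step1 (Y := Sg.X' T) x hxinj hxT
    (S := M.base ∪ Sg.u '' T) (M.base_countable.union (hTc.image _)) (Sg.A_le_U hTcl)
    (cs_mono Set.subset_union_left) (ψ := ψ) (a := a) ha hperp
  rw [halg] at hya hyb
  have hyy : y * star y = 1 := (Unitary.mem_iff.1 hyu).2
  have hyy' : star y * y = 1 := (Unitary.mem_iff.1 hyu).1
  have hpsa : ∀ n, star (M.p n) = M.p n := fun n => (M.p_dec.proj n).isSelfAdjoint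
  have hpid : ∀ n, M.p n * M.p n = M.p n := fun n => (M.p_dec.proj n).isIdempotentElem
  set e : ℕ → 𝔹 := fun n => y * M.p n * star y with he_def
  have hedec : DecProj e := decProj_conj M.p_dec hyy'
  have hemem : ∀ n, e n ∈ Sg.A (Sg.ch i) := by
    intro n
    have h1 : e n = 1 - (y * (1 - M.p n)) * star (y * (1 - M.p n)) := by
      simp only [he_def, star_mul, star_sub, star_one, hpsa]
      have : y * (1 - M.p n) * ((1 - M.p n) * star y) =
          y * star y - y * M.p n * star y - y * M.p n * star y + y * (M.p n * M.p n) * star y := by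
        noncomm_ring
      rw [this, hpid, hyy]
      noncomm_ring
    rw [h1]
    exact sub_mem (one_mem _) (mul_mem (hya n) (star_mem (hya n)))
  have hemU : ∀ n, e n ∈ Sg.A Set.univ := fun n => Sg.A_mono (Set.subset_univ _) (hemem n)
  have he : Exc (Sg.A (Sg.ch i)) (R120.conj M.φ y) e :=
    exc_of_N0 M.p_dec M.φ_one M.φ_p hyu hemem hyb
  have heU : Exc (Sg.A {j | j < i}) (R120.conj M.φ y) e := Sg.R1 hcli hclt hchlt he
  have hqe := decProj_map π hedec hemU
  obtain ⟨ζ, hζ, hζfix⟩ := decProj_lim hqe ξ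
  have hζ0 : ζ ≠ 0 := by
    intro h0
    rw [h0] at hζ
    have h1 := (tendsto_zero_iff_norm_tendsto_zero).1 hζ
    have h2 : ∀ n, 1 / 2 ≤ ‖π ⟨e n, hemU n⟩ ξ‖ ^ 2 := by
      intro n
      have h3 := hsn ⟨e n, hemU n⟩
      rw [← h3, sn_proj_sq ψ (hedec.proj n)]
      exact hyd n
    have h3 := ge_of_tendsto' (h1.pow 2) h2
    norm_num at h3
  have hn : ‖ζ‖ ≠ 0 := norm_ne_zero_iff.2 hζ0
  obtain ⟨ψ', hψ'1, hψ'⟩ := exists_state_ext (Sg.A Set.univ) hπ1
    (ξ := ((‖ζ‖ : ℂ))⁻¹ • ζ)
    (by rw [norm_smul, norm_inv, Complex.norm_real, norm_norm, inv_mul_cancel₀ hn])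
  have hsn' : ∀ T : Sg.A Set.univ, sn ψ' (T : 𝔹) = ‖π T (((‖ζ‖ : ℂ))⁻¹ • ζ)‖ :=
    sn_eq_of_vector hψ'
  have hψ'e : ∀ n, ψ' (e n) = 1 := by
    intro n
    have h3 := hψ' ⟨e n, hemU n⟩
    have h4 : π ⟨e n, hemU n⟩ ((‖ζ‖ : ℂ)⁻¹ • ζ) = (‖ζ‖ : ℂ)⁻¹ • ζ := by
      rw [map_smul, hζfix n]
    rw [h4, inner_self_eq_norm_sq_to_K, norm_smul, norm_inv, Complex.norm_real, norm_norm,
      inv_mul_cancel₀ hn] at h3
    simpa using h3
  have heq : ∀ b ∈ Sg.A {j | j < i}, ψ' b = R120.conj M.φ y b :=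
    heU.eq_of_tendsto hψ'1 (by simp_rw [hψ'e]; exact tendsto_const_nhds)
  have hvc : ∀ b ∈ M.alg Sg.u {j | j < i}, b * y ∈ C0 M.p := by
    intro b hb
    have hbU : b ∈ Sg.A Set.univ := Sg.A_mono (Set.subset_univ _) hb
    have hsb : Tendsto (fun m => sn (R120.conj M.φ y) (M.p m * b)) atTop (𝓝 0) := by
      have h5 : ∀ m, sn (R120.conj M.φ y) (M.p m * b) =
          ‖π ⟨M.p m, hpm m⟩ (π ⟨b, hbU⟩ (((‖ζ‖ : ℂ))⁻¹ • ζ))‖ := by
        intro m
        have h6 := hsn' (⟨M.p m, hpm m⟩ * ⟨b, hbU⟩)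
        rw [map_mul] at h6
        have h7 : sn (R120.conj M.φ y) (M.p m * b) = sn ψ' (M.p m * b) := by
          have h8 := sn_sq (R120.conj M.φ y) (M.p m * b)
          have h9 := sn_sq ψ' (M.p m * b)
          have hmem : star (M.p m * b) * (M.p m * b) ∈ Sg.A {j | j < i} :=
            mul_mem (star_mem (mul_mem (Sg.p_mem _ m) hb)) (mul_mem (Sg.p_mem _ m) hb)
          rw [← heq _ hmem, ← h9] at h8
          exact (sq_eq_sq₀ (sn_nonneg _ _) (sn_nonneg _ _)).1 h8
        rw [h7]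
        exact h6
      simp_rw [h5]
      exact (tendsto_zero_iff_norm_tendsto_zero).1 (hzero _)
    unfold C0
    rw [Set.mem_ofPred_eq, Metric.tendsto_atTop]
    intro ε hε
    obtain ⟨m, hm⟩ := ((tendsto_order.1 hsb).2 ε hε).exists
    have h1 := heU.norm_mul_tendsto (mul_mem (Sg.p_mem _ m) hb)
    obtain ⟨N, hN⟩ := eventually_atTop.1 ((tendsto_order.1 h1).2 ε hm)
    refine ⟨max N m, fun n hn => ?_⟩
    rw [dist_zero_right, norm_norm]
    have h2 : M.p n * (b * y) * M.p n = M.p n * (M.p m * b * e n) * y := by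
      have h3 : e n * y = y * M.p n := by
        simp only [he_def]
        rw [mul_assoc, hyy', mul_one]
      have h4 : M.p n * M.p m = M.p n := by
        have := M.p_dec.mul m n (le_trans (le_max_right _ _) hn)
        have h5 := congrArg star this
        rwa [star_mul, hpsa, hpsa] at h5
      calc M.p n * (b * y) * M.p n = M.p n * b * (y * M.p n) := by noncomm_ring
        _ = (M.p n * M.p m) * b * (e n * y) := by rw [h3, h4]
        _ = _ := by noncomm_ring
    rw [h2]
    rw [CStarRing.norm_mul_mem_unitary _ hyu]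
    calc ‖M.p n * (M.p m * b * e n)‖ ≤ ‖M.p n‖ * ‖M.p m * b * e n‖ := norm_mul_le _ _
      _ ≤ 1 * ‖M.p m * b * e n‖ := by
          gcongr
          exact (M.p_dec.proj n).norm_le
      _ = ‖M.p m * b * e n‖ := by ring
      _ < ε := hN n (le_trans (le_max_left _ _) hn)
  obtain ⟨hval, δ, hδ, hδn⟩ := hi ⟨y, ⟨hcli, hyu, hya, hyb, hvc⟩, 1 / 2, by norm_num, hyd⟩
  -- contradiction
  have huU : Sg.u i ∈ Sg.A Set.univ := Sg.u_mem (Set.mem_univ _)
  have h1 : ∀ n, δ ≤ ‖π ⟨M.p n, hpm n⟩ (π (star ⟨Sg.u i, huU⟩) ξ)‖ ^ 2 := by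
    intro n
    have h2 := hsn (⟨M.p n, hpm n⟩ * star ⟨Sg.u i, huU⟩)
    rw [map_mul] at h2
    have h3 : ((⟨M.p n, hpm n⟩ * star ⟨Sg.u i, huU⟩ : Sg.A Set.univ) : 𝔹) =
      M.p n * star (Sg.u i) := rfl
    rw [h3] at h2
    have h4 := sn_sq ψ (M.p n * star (Sg.u i))
    rw [star_mul, star_star, hpsa] at h4
    have h5 : Sg.u i * M.p n * (M.p n * star (Sg.u i)) = Sg.u i * M.p n * star (Sg.u i) := by
      calc _ = Sg.u i * (M.p n * M.p n) * star (Sg.u i) := by noncomm_ring
        _ = _ := by rw [hpid]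
    rw [h5, h2] at h4
    have h6 := hδn n
    rw [← h4] at h6
    exact h6
  have h2 := (tendsto_zero_iff_norm_tendsto_zero).1 (hzero (π (star ⟨Sg.u i, huU⟩) ξ))
  have h3 := ge_of_tendsto' (h2.pow 2) h1
  norm_num at h3
  linarith


/-- the abstract version of the final theorem -/
theorem main_of_PP [Uncountable X] (M : PP 𝔹 X) (hinf : ¬ FiniteDimensional ℂ (cs M.base)) :
    ∃ (A : Type) (_ : CStarAlgebra A),
      ¬ FiniteDimensional ℂ A ∧
      (∀ I : TwoSidedIdeal A, IsClosed (I : Set A) → I = ⊥ ∨ I = ⊤) ∧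
      (∃ τ : A →ₗ[ℂ] ℂ, Crest.OpAlg.IsFaithfulTracialState τ) ∧
      ∀ (H₁ : Type) [NormedAddCommGroup H₁] [InnerProductSpace ℂ H₁] [CompleteSpace H₁]
        (H₂ : Type) [NormedAddCommGroup H₂] [InnerProductSpace ℂ H₂] [CompleteSpace H₂]
        (π₁ : A →⋆ₙₐ[ℂ] (H₁ →L[ℂ] H₁)) (π₂ : A →⋆ₙₐ[ℂ] (H₂ →L[ℂ] H₂)),
        Crest.OpAlg.IsIrreducibleRep π₁ → Crest.OpAlg.IsIrreducibleRep π₂ →
          Crest.OpAlg.AreUnitarilyEquivalent π₁ π₂ := by
  obtain ⟨I, _, _, Sg, hrich⟩ := exists_sys M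
  have hcl : IsClosed (Sg.A Set.univ : Set 𝔹) := cs_isClosed _
  have hclU : IsCl Sg.ch Set.univ := fun i _ => Set.subset_univ _
  have hAU : Sg.A Set.univ ≤ M.U Set.univ :=
    (Sg.A_le_U hclU).trans (M.U_mono _ _ (Set.subset_univ _))
  refine ⟨Sg.A Set.univ, inferInstance, ?_, ?_, ?_, ?_⟩
  · intro hfin
    apply hinf
    have hle : cs M.base ≤ Sg.A Set.univ := cs_mono Set.subset_union_left
    exact FiniteDimensional.of_injective
      (StarSubalgebra.inclusion hle).toAlgHom.toLinearMap (Set.inclusion_injective hle)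
  · intro J hJ
    exact Sg.simple J hJ
  · refine ⟨M.τ.toLinearMap ∘ₗ (Sg.A Set.univ).toSubalgebra.val.toLinearMap, ?_, ?_, ?_, ?_⟩
    · exact M.τ_one
    · intro a
      have h : (0 : ℂ) ≤ M.τ (star (a : 𝔹) * a) := by
        have := OrderHomClass.mono M.τ (star_mul_self_nonneg (a : 𝔹))
        simpa using this
      have h2 := Complex.le_def.1 h
      exact ⟨h2.2.symm, h2.1⟩
    · intro a ha
      exact Subtype.ext (M.τ_faithful a (hAU a.2) ha)
    · intro a b
      exact M.τ_comm a b (hAU a.2) (hAU b.2)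
  · intro H₁ _ _ _ H₂ _ _ _ π₁ π₂ h₁ h₂
    obtain ⟨ζ₁, hζ₁, hf₁⟩ := Sg.exists_fixed hrich h₁
    obtain ⟨ζ₂, hζ₂, hf₂⟩ := Sg.exists_fixed hrich h₂
    have hexc : Exc (Sg.A Set.univ) (R120.conj M.φ 1) (fun n => 1 * M.p n * star 1) := by
      refine exc_of_N0 M.p_dec M.φ_one M.φ_p (one_mem _) ?_ ?_
      · intro n; rw [star_one, one_mul, mul_one]; exact Sg.p_mem _ n
      · intro b hb
        rw [star_one, one_mul, mul_one]
        exact Sg.A_N0 hclU b hb
    have key : ∀ (H : Type) [NormedAddCommGroup H] [InnerProductSpace ℂ H] [CompleteSpace H]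
        (π : Sg.A Set.univ →⋆ₙₐ[ℂ] (H →L[ℂ] H)), Crest.OpAlg.IsIrreducibleRep π → ∀ ζ : H,
        ‖ζ‖ = 1 → (∀ (n : ℕ) (h : M.p n ∈ Sg.A Set.univ), π ⟨M.p n, h⟩ ζ = ζ) →
        ∀ a : Sg.A Set.univ, inner ℂ ζ (π a ζ) = R120.conj M.φ 1 (a : 𝔹) := by
      intro H _ _ _ π hπ ζ hζ hf a
      obtain ⟨ψ, hψ1, hψ⟩ := exists_state_ext (Sg.A Set.univ) (irrep_one hπ) hζ
      rw [← hψ]
      refine hexc.eq_of_tendsto hψ1 ?_ a a.2
      have : ∀ n, ψ (1 * M.p n * star 1) = 1 := by
        intro n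
        rw [star_one, one_mul, mul_one]
        have h3 := hψ ⟨M.p n, Sg.p_mem _ n⟩
        rw [hf, inner_self_eq_norm_sq_to_K, hζ] at h3
        simpa using h3
      simp_rw [this]
      exact tendsto_const_nhds
    refine unitarilyEquivalent_of_states h₁ h₂ hζ₁ hζ₂ fun a => ?_
    rw [key H₁ π₁ h₁ ζ₁ hζ₁ hf₁, key H₂ π₂ h₂ ζ₂ hζ₂ hf₂]

end Crest.Agent.R120
end

-- ▼ part R120/ModelDefs
section

/-!
# The concrete model: definitions and interface (blueprint section 0)

* `PPG Γ X` : abstract ping-pong data in a group `Γ` (constructed in `ModelGroup.lean`);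
* `HH Γ = ℓ²(Γ)`, its basis `dl`, matrix coefficients `coef`, left translations `lam`,
  coordinate projections `prj W`, the algebras `UU Λ`, the trace `tau`, the projections `pn k n`
  (lemmas in `ModelOps.lean`, limits in `ModelLim.lean`).
-/

set_option autoImplicit false

namespace Crest.Agent.R120

open scoped ComplexOrder InnerProductSpace
open Filter Topology

/-- Abstract ping-pong data in a group: `k n` are the commuting involutions, `g x` the free
involutions, `W x` the reduced words starting with `g x`, `L Y` the subgroup generated by the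
`k n` and the `g y`, `y ∈ Y`. -/
structure PPG (Γ : Type) [Group Γ] (X : Type) where
  k : ℕ → Γ
  g : X → Γ
  W : X → Set Γ
  L : Set X → Subgroup Γ
  k_sq : ∀ n, k n * k n = 1
  k_comm : ∀ m n, k m * k n = k n * k m
  k_indep : ∀ n, k n ∉ Subgroup.closure (k '' {i | i < n})
  g_sq : ∀ x, g x * g x = 1
  k_mem : ∀ n Y, k n ∈ L Y
  g_mem : ∀ x Y, x ∈ Y → g x ∈ L Y
  L_mono : ∀ Y Z, Y ⊆ Z → L Y ≤ L Z
  g_iff : ∀ x γ, g x * γ ∈ W x ↔ γ ∉ W x
  ping : ∀ (Y : Set X) (x x' : X) (l γ : Γ), x ∉ Y → x' ∉ Y → l ∈ L Y → γ ∈ W x' →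
    l * γ ∈ W x → l = 1 ∧ x = x'

section ops

/-- `ℓ²(Γ)` -/
abbrev HH (Γ : Type) : Type := lp (fun _ : Γ => ℂ) 2

/-- bounded operators on `ℓ²(Γ)` -/
abbrev BB (Γ : Type) : Type := HH Γ →L[ℂ] HH Γ

/-- The standard Hilbert basis. -/
noncomputable def bs (Γ : Type) : HilbertBasis Γ ℂ (HH Γ) := ⟨LinearIsometryEquiv.refl ℂ (HH Γ)⟩

/-- The basis vector `δ_a`. -/
noncomputable def dl {Γ : Type} (a : Γ) : HH Γ := bs Γ a

/-- matrix coefficients -/
noncomputable def coef {Γ : Type} (T : BB Γ) (a b : Γ) : ℂ := ⟪dl a, T (dl b)⟫_ℂ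

/-- the orthogonal projection onto `ℓ²(W)` -/
noncomputable def prj {Γ : Type} (W : Set Γ) : BB Γ :=
  (Submodule.span ℂ (dl '' W)).topologicalClosure.starProjection

section noGroup

variable {Γ : Type}

theorem orthonormal_dl : Orthonormal ℂ (dl : Γ → HH Γ) := (bs Γ).orthonormal

theorem prj_dl_mem {W : Set Γ} {a : Γ} (h : a ∈ W) : prj W (dl a) = dl a := by
  unfold prj
  rw [Submodule.starProjection_eq_self_iff]
  exact Submodule.le_topologicalClosure _ (Submodule.subset_span ⟨a, h, rfl⟩)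

theorem prj_dl_notMem {W : Set Γ} {a : Γ} (h : a ∉ W) : prj W (dl a) = 0 := by
  unfold prj
  rw [Submodule.starProjection_apply_eq_zero_iff]
  rw [Submodule.orthogonal_closure]
  rw [Submodule.mem_orthogonal]
  intro u hu
  induction hu using Submodule.span_induction with
  | mem x hx =>
    obtain ⟨b, hb, rfl⟩ := hx
    exact orthonormal_dl.inner_eq_zero (by rintro rfl; exact h hb)
  | zero => simp
  | add x y _ _ hx hy => simp [inner_add_left, hx, hy]
  | smul c x _ hx => simp [inner_smul_left, hx]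

theorem ext_dl {v w : HH Γ} (h : ∀ a, ⟪dl a, v⟫_ℂ = ⟪dl a, w⟫_ℂ) : v = w := by
  apply (bs Γ).repr.injective
  ext a
  rw [(bs Γ).repr_apply_apply, (bs Γ).repr_apply_apply]
  exact h a

theorem ext_on_dl {S T : BB Γ} (h : ∀ a, S (dl a) = T (dl a)) : S = T := by
  have hd := (bs Γ).dense_span
  apply ContinuousLinearMap.ext_on (s := Set.range (bs Γ))
  · rw [← Submodule.dense_iff_topologicalClosure_eq_top] at hd
    exact hd
  · rintro _ ⟨a, rfl⟩
    exact h a

theorem ext_coef {S T : BB Γ} (h : ∀ a b, coef S a b = coef T a b) : S = T :=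
  ext_on_dl fun b => ext_dl fun a => h a b

theorem coef_add (S T : BB Γ) (a b : Γ) : coef (S + T) a b = coef S a b + coef T a b := by
  simp [coef]

theorem coef_smul (c : ℂ) (T : BB Γ) (a b : Γ) : coef (c • T) a b = c * coef T a b := by
  simp [coef]


theorem coef_star (T : BB Γ) (a b : Γ) : coef (star T) a b = star (coef T b a) := by
  simp only [coef, ContinuousLinearMap.star_eq_adjoint, ContinuousLinearMap.adjoint_inner_right]
  exact (inner_conj_symm _ _).symm

theorem hasSum_coef_mul (S T : BB Γ) (a b : Γ) :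
    HasSum (fun c => coef S a c * coef T c b) (coef (S * T) a b) := by
  have h := (bs Γ).hasSum_inner_mul_inner (star S (dl a)) (T (dl b))
  have e : ∀ v : HH Γ, ⟪(star S) (dl a), v⟫_ℂ = ⟪dl a, S v⟫_ℂ := by
    intro v
    rw [ContinuousLinearMap.star_eq_adjoint, ContinuousLinearMap.adjoint_inner_left]
  simp only [e] at h
  exact h

theorem norm_dl (a : Γ) : ‖(dl a : HH Γ)‖ = 1 := orthonormal_dl.1 a


open Classical in
theorem coef_one (a b : Γ) : coef (1 : BB Γ) a b = if a = b then 1 else 0 := by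
  simp only [coef, one_apply_eq_self]
  exact orthonormal_iff_ite.1 orthonormal_dl a b

end noGroup

variable {Γ : Type} [Group Γ]

theorem orthonormal_dl_mul (g : Γ) : Orthonormal ℂ (fun a : Γ => (dl (g * a) : HH Γ)) :=
  orthonormal_dl.comp _ (mul_right_injective g)

theorem dense_dl_mul (g : Γ) :
    ⊤ ≤ (Submodule.span ℂ (Set.range (fun a : Γ => (dl (g * a) : HH Γ)))).topologicalClosure := by
  have h : Set.range (fun a : Γ => (dl (g * a) : HH Γ)) = Set.range (dl : Γ → HH Γ) := by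
    ext v
    constructor
    · rintro ⟨a, rfl⟩; exact ⟨g * a, rfl⟩
    · rintro ⟨a, rfl⟩; exact ⟨g⁻¹ * a, by simp⟩
  rw [h]
  exact (bs Γ).dense_span.ge

/-- left translation as a unitary -/
noncomputable def lamE (g : Γ) : HH Γ ≃ₗᵢ[ℂ] HH Γ :=
  (bs Γ).repr.trans (HilbertBasis.mk (orthonormal_dl_mul g) (dense_dl_mul g)).repr.symm

/-- left translation: `lam g (dl a) = dl (g * a)` -/
noncomputable def lam (g : Γ) : BB Γ := (lamE g : HH Γ →L[ℂ] HH Γ)

theorem lam_dl (g a : Γ) : lam g (dl a) = dl (g * a) := by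
  classical
  simp only [lam, lamE, dl]
  show (HilbertBasis.mk (orthonormal_dl_mul g) (dense_dl_mul g)).repr.symm ((bs Γ).repr (bs Γ a)) = _
  rw [HilbertBasis.repr_self, HilbertBasis.repr_symm_single, HilbertBasis.coe_mk]
  rfl

open Classical in
theorem coef_lam (g a b : Γ) : coef (lam g) a b = if a = g * b then 1 else 0 := by
  simp only [coef, lam_dl]
  exact orthonormal_iff_ite.1 orthonormal_dl a (g * b)

/-- The algebra of operators commuting with right translations (`coef T (a*g) (b*g) = coef T a b`)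
and with the projection on `ℓ²(L)` (`coef T a b = 0` unless `a * b⁻¹ ∈ L`). -/
noncomputable def UU (L : Subgroup Γ) : StarSubalgebra ℂ (BB Γ) where
  carrier := {T | (∀ a b g, coef T (a * g) (b * g) = coef T a b) ∧
    ∀ a b, a * b⁻¹ ∉ L → coef T a b = 0}
  mul_mem' := by
    rintro S T ⟨hS1, hS2⟩ ⟨hT1, hT2⟩
    constructor
    · intro a b g
      have h1 := hasSum_coef_mul S T (a * g) (b * g)
      have h2 := hasSum_coef_mul S T a b
      rw [← (Equiv.mulRight g).hasSum_iff] at h1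
      refine h1.unique ?_
      convert h2 using 1
      ext c
      simp only [Function.comp, Equiv.coe_mulRight, hS1, hT1]
    · intro a b hab
      have h2 := hasSum_coef_mul S T a b
      refine h2.unique ?_
      convert hasSum_zero using 1
      ext c
      by_cases hc : a * c⁻¹ ∈ L
      · have : c * b⁻¹ ∉ L := by
          intro hcb
          apply hab
          have := L.mul_mem hc hcb
          simpa [mul_assoc] using this
        rw [hT2 _ _ this, mul_zero]
      · rw [hS2 _ _ hc, zero_mul]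
  add_mem' := by
    rintro S T ⟨hS1, hS2⟩ ⟨hT1, hT2⟩
    constructor
    · intro a b g
      rw [coef_add, coef_add, hS1, hT1]
    · intro a b hab
      rw [coef_add, hS2 _ _ hab, hT2 _ _ hab, add_zero]
  algebraMap_mem' := by
    intro r
    have : (algebraMap ℂ (BB Γ)) r = r • 1 := Algebra.algebraMap_eq_smul_one r
    rw [this]
    classical
    constructor
    · intro a b g
      rw [coef_smul, coef_smul, coef_one, coef_one]
      simp
    · intro a b hab
      rw [coef_smul, coef_one]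
      rw [if_neg, mul_zero]
      rintro rfl
      exact hab (by simp [L.one_mem])
  star_mem' := by
    rintro T ⟨hT1, hT2⟩
    constructor
    · intro a b g
      rw [coef_star, coef_star, hT1]
    · intro a b hab
      rw [coef_star, hT2, star_zero]
      intro h
      apply hab
      have := L.inv_mem h
      simpa using this

theorem mem_UU {L : Subgroup Γ} {T : BB Γ} : T ∈ UU L ↔
    (∀ a b g, coef T (a * g) (b * g) = coef T a b) ∧ ∀ a b, a * b⁻¹ ∉ L → coef T a b = 0 :=
  Iff.rfl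

/-- a vector state (not necessarily normalised) -/
noncomputable def vst (ξ : HH Γ) : BB Γ →ₚ[ℂ] ℂ where
  toFun T := ⟪ξ, T ξ⟫_ℂ
  map_add' S T := by simp
  map_smul' c T := by simp
  monotone' S T h := by
    have h' := (ContinuousLinearMap.le_def _ _).1 h
    have h2 := h'.inner_nonneg_right ξ
    simp only [sub_apply, inner_sub_right] at h2
    exact sub_nonneg.1 h2

/-- the trace -/
noncomputable def tau : BB Γ →ₚ[ℂ] ℂ := vst (dl (1 : Γ))

theorem tau_eq (T : BB Γ) : tau T = coef T 1 1 := rfl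


/-- the projections `p_n = ∏_{i<n} (1 + λ(k_i))/2` -/
noncomputable def pn (k : ℕ → Γ) : ℕ → BB Γ
  | 0 => 1
  | n + 1 => pn k n * ((1 / 2 : ℂ) • (1 + lam (k n)))

end ops

end Crest.Agent.R120
end

-- ▼ part R120/ModelOps
section

/-!
# Operators on `ℓ²(Γ)` (blueprint section 0)
-/

set_option autoImplicit false

namespace Crest.Agent.R120

open scoped ComplexOrder InnerProductSpace
open Filter Topology

variable {Γ : Type} [Group Γ]

/-! ### translations -/

theorem lam_one : lam (1 : Γ) = 1 := by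
  apply ext_on_dl
  intro a
  simp [lam_dl]

theorem lam_mul (g h : Γ) : lam (g * h) = lam g * lam h := by
  apply ext_on_dl
  intro a
  simp [lam_dl, mul_assoc]

theorem star_lam (g : Γ) : star (lam g) = lam g⁻¹ := by
  classical
  apply ext_coef
  intro a b
  rw [coef_star, coef_lam, coef_lam]
  by_cases h : b = g * a
  · subst h; simp
  · rw [if_neg h, if_neg, star_zero]
    rintro rfl
    exact h (by simp)

theorem lam_mem_UU {L : Subgroup Γ} {g : Γ} (h : g ∈ L) : lam g ∈ UU L := by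
  classical
  rw [mem_UU]
  constructor
  · intro a b c
    rw [coef_lam, coef_lam]
    simp [← mul_assoc]
  · intro a b hab
    rw [coef_lam, if_neg]
    rintro rfl
    exact hab (by simpa using h)



theorem linearIndependent_lam : LinearIndependent ℂ (lam : Γ → BB Γ) := by
  have h : LinearIndependent ℂ (dl : Γ → HH Γ) := orthonormal_dl.linearIndependent
  let f : BB Γ →ₗ[ℂ] HH Γ :=
    { toFun := fun T => T (dl 1), map_add' := fun S T => by simp, map_smul' := fun c T => by simp }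
  apply LinearIndependent.of_comp f
  have hf : (f ∘ lam : Γ → HH Γ) = dl := by
    ext g : 1
    simp [f, lam_dl]
  rw [hf]
  exact h

/-! ### the algebras `UU L` -/

omit [Group Γ] in
theorem continuous_coef (a b : Γ) : Continuous (fun T : BB Γ => coef T a b) := by
  unfold coef
  fun_prop

theorem UU_isClosed (L : Subgroup Γ) : IsClosed (UU L : Set (BB Γ)) := by
  have : (UU L : Set (BB Γ)) = (⋂ a, ⋂ b, ⋂ g, {T | coef T (a * g) (b * g) = coef T a b}) ∩
      (⋂ a, ⋂ b, ⋂ _ : a * b⁻¹ ∉ L, {T | coef T a b = 0}) := by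
    ext T
    simp only [SetLike.mem_coe, mem_UU, Set.mem_inter_iff, Set.mem_iInter, Set.mem_ofPred_eq]
  rw [this]
  apply IsClosed.inter
  · refine isClosed_iInter fun a => isClosed_iInter fun b => isClosed_iInter fun g => ?_
    exact isClosed_eq (continuous_coef _ _) (continuous_coef _ _)
  · refine isClosed_iInter fun a => isClosed_iInter fun b => isClosed_iInter fun h => ?_
    exact isClosed_eq (continuous_coef _ _) continuous_const

theorem UU_mono {L L' : Subgroup Γ} (h : L ≤ L') : UU L ≤ UU L' := by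
  rintro T ⟨h1, h2⟩
  exact ⟨h1, fun a b hab => h2 a b fun h' => hab (h h')⟩

/-- membership in `UU L` passes to strong limits along the basis. -/
theorem mem_UU_of_tendsto {L : Subgroup Γ} {T : BB Γ} {S : ℕ → BB Γ} (hS : ∀ n, S n ∈ UU L)
    (h : ∀ a, Tendsto (fun n => S n (dl a)) atTop (𝓝 (T (dl a)))) : T ∈ UU L := by
  have hc : ∀ a b, Tendsto (fun n => coef (S n) a b) atTop (𝓝 (coef T a b)) := by
    intro a b
    exact (tendsto_const_nhds (x := dl a)).inner (h b)
  rw [mem_UU]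
  constructor
  · intro a b g
    refine tendsto_nhds_unique (hc (a * g) (b * g)) ?_
    have : (fun n => coef (S n) (a * g) (b * g)) = fun n => coef (S n) a b := by
      ext n; exact (hS n).1 a b g
    rw [this]
    exact hc a b
  · intro a b hab
    refine tendsto_nhds_unique (hc a b) ?_
    have : (fun n => coef (S n) a b) = fun n => 0 := by
      ext n; exact (hS n).2 a b hab
    rw [this]
    exact tendsto_const_nhds

/-! ### projections -/

omit [Group Γ] in
open Classical in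
theorem prj_dl (W : Set Γ) (a : Γ) : prj W (dl a) = if a ∈ W then dl a else 0 := by
  split_ifs with h
  · exact prj_dl_mem h
  · exact prj_dl_notMem h

omit [Group Γ] in
theorem prj_isStarProjection (W : Set Γ) : IsStarProjection (prj W) := by
  unfold prj
  exact isStarProjection_starProjection

omit [Group Γ] in
theorem prj_mul_prj_of_disjoint {W W' : Set Γ} (h : Disjoint W W') : prj W * prj W' = 0 := by
  classical
  apply ext_on_dl
  intro a
  simp only [mul_apply_eq_comp, prj_dl, zero_apply]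
  by_cases ha : a ∈ W'
  · rw [if_pos ha, prj_dl, if_neg]
    exact fun ha' => (Set.disjoint_left.1 h) ha' ha
  · rw [if_neg ha, map_zero]

omit [Group Γ] in
theorem prj_ne_zero {W : Set Γ} (h : W.Nonempty) : prj W ≠ 0 := by
  obtain ⟨a, ha⟩ := h
  intro h0
  have := prj_dl_mem ha
  rw [h0] at this
  have h1 := norm_dl a
  rw [← this] at h1
  simp at h1

omit [Group Γ] in
open Classical in
theorem coef_mul_prj (W : Set Γ) (T : BB Γ) (a b : Γ) :
    coef (T * prj W) a b = if b ∈ W then coef T a b else 0 := by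
  simp only [coef, mul_apply_eq_comp, prj_dl]
  split_ifs with h
  · rfl
  · simp

omit [Group Γ] in
open Classical in
theorem coef_prj_mul (W : Set Γ) (T : BB Γ) (a b : Γ) :
    coef (prj W * T) a b = if a ∈ W then coef T a b else 0 := by
  have h : prj W * T = star (star T * prj W) := by
    rw [star_mul, star_star, (prj_isStarProjection W).isSelfAdjoint.star_eq]
  rw [h, coef_star, coef_mul_prj]
  split_ifs with h
  · rw [coef_star, star_star]
  · simp

/-! ### the trace -/

theorem tau_one : tau (1 : BB Γ) = 1 := by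
  rw [tau_eq, coef_one, if_pos rfl]

theorem tau_comm {S T : BB Γ} (hS : S ∈ UU (⊤ : Subgroup Γ)) (hT : T ∈ UU (⊤ : Subgroup Γ)) :
    tau (S * T) = tau (T * S) := by
  rw [tau_eq, tau_eq]
  have h1 := hasSum_coef_mul S T 1 1
  have h2 := hasSum_coef_mul T S 1 1
  rw [← (Equiv.inv Γ).hasSum_iff] at h2
  refine h1.unique ?_
  convert h2 using 1
  ext c
  simp only [Function.comp, Equiv.inv_apply]
  have e1 := hS.1 1 c c⁻¹
  have e2 := hT.1 c 1 c⁻¹
  simp only [one_mul, mul_inv_cancel] at e1 e2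
  rw [← e1, ← e2, mul_comm]

/-- for `T ∈ UU ⊤`, `‖T δ_a‖² = τ(T⋆T)`. -/
theorem norm_apply_dl_sq {T : BB Γ} (hT : T ∈ UU (⊤ : Subgroup Γ)) (a : Γ) :
    ((‖T (dl a)‖ ^ 2 : ℝ) : ℂ) = tau (star T * T) := by
  have h1 : star T * T ∈ UU (⊤ : Subgroup Γ) := mul_mem (star_mem hT) hT
  have h2 := h1.1 1 1 a
  rw [one_mul] at h2
  rw [tau_eq, ← h2]
  simp only [coef, mul_apply_eq_comp]
  rw [ContinuousLinearMap.star_eq_adjoint, ContinuousLinearMap.adjoint_inner_right,
    inner_self_eq_norm_sq_to_K]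
  simp

theorem tau_faithful {T : BB Γ} (hT : T ∈ UU (⊤ : Subgroup Γ)) (h : tau (star T * T) = 0) :
    T = 0 := by
  apply ext_on_dl
  intro a
  have := norm_apply_dl_sq hT a
  rw [h] at this
  have h2 : ‖T (dl a)‖ ^ 2 = 0 := by exact_mod_cast this
  simpa using h2

omit [Group Γ] in
/-- uniformly bounded operators going to `0` on the basis go to `0` strongly. -/
theorem tendsto_apply_zero {S : ℕ → BB Γ} {C : ℝ} (hC : ∀ n, ‖S n‖ ≤ C)
    (h : ∀ a : Γ, Tendsto (fun n => S n (dl a)) atTop (𝓝 0)) (ζ : HH Γ) :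
    Tendsto (fun n => S n ζ) atTop (𝓝 0) := by
  have hC0 : 0 ≤ C := le_trans (norm_nonneg _) (hC 0)
  -- the set of good vectors is a closed subspace
  have hspan : ∀ v ∈ Submodule.span ℂ (Set.range (bs Γ)),
      Tendsto (fun n => S n v) atTop (𝓝 0) := by
    intro v hv
    induction hv using Submodule.span_induction with
    | mem x hx =>
      obtain ⟨a, rfl⟩ := hx
      exact h a
    | zero => simp
    | add x y _ _ hx hy => simpa using hx.add hy
    | smul c x _ hx => simpa using hx.const_smul c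
  have hd : ζ ∈ closure (Submodule.span ℂ (Set.range (bs Γ)) : Set (HH Γ)) := by
    have := (bs Γ).dense_span
    rw [← Submodule.topologicalClosure_coe, this]
    trivial
  rw [Metric.tendsto_atTop]
  intro ε hε
  have hε2 : 0 < ε / (2 * (C + 1)) := by positivity
  obtain ⟨v, hv, hvd⟩ := Metric.mem_closure_iff.1 hd _ hε2
  obtain ⟨N, hN⟩ := Metric.tendsto_atTop.1 (hspan v hv) (ε / 2) (by positivity)
  refine ⟨N, fun n hn => ?_⟩
  have h1 := hN n hn
  rw [dist_zero_right] at h1 ⊢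
  have h2 : S n ζ = S n (ζ - v) + S n v := by simp
  calc ‖S n ζ‖ ≤ ‖S n (ζ - v)‖ + ‖S n v‖ := by rw [h2]; exact norm_add_le _ _
    _ ≤ C * ‖ζ - v‖ + ‖S n v‖ := by
        gcongr
        exact ((S n).le_opNorm _).trans (by gcongr; exact hC n)
    _ < C * ‖ζ - v‖ + ε / 2 := by gcongr
    _ ≤ (C + 1) * (ε / (2 * (C + 1))) + ε / 2 := by
        rw [dist_eq_norm] at hvd
        gcongr
        linarith
    _ = ε := by field_simp; ring

/-- projections in `UU ⊤` with trace going to zero go to zero strongly. -/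
theorem tendsto_proj_apply_zero {e : ℕ → BB Γ} (he : ∀ n, IsStarProjection (e n))
    (hU : ∀ n, e n ∈ UU (⊤ : Subgroup Γ)) (h : Tendsto (fun n => tau (e n)) atTop (𝓝 0))
    (ζ : HH Γ) : Tendsto (fun n => e n ζ) atTop (𝓝 0) := by
  apply tendsto_apply_zero (C := 1) (fun n => (he n).norm_le)
  intro a
  rw [tendsto_zero_iff_norm_tendsto_zero]
  have h1 : ∀ n, ‖e n (dl a)‖ ^ 2 = (tau (e n)).re := by
    intro n
    have := norm_apply_dl_sq (hU n) a
    rw [(he n).isSelfAdjoint.star_eq, (he n).isIdempotentElem.eq] at this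
    rw [← this, Complex.ofReal_re]
  have h2 : Tendsto (fun n => ‖e n (dl a)‖ ^ 2) atTop (𝓝 0) := by
    simp only [h1]
    have := (Complex.continuous_re.tendsto 0).comp h
    rw [Complex.zero_re] at this
    exact this
  have h3 := h2.sqrt
  simpa [Real.sqrt_sq] using h3

/-! ### the fields of `PP` proved here -/

variable {X : Type} (D : PPG Γ X)

theorem PPG.W_nonempty (x : X) : (D.W x).Nonempty := by
  by_cases h : (1 : Γ) ∈ D.W x
  · exact ⟨1, h⟩
  · exact ⟨D.g x * 1, (D.g_iff x 1).2 h⟩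

theorem PPG.W_disjoint {x x' : X} (h : x ≠ x') : Disjoint (D.W x) (D.W x') := by
  rw [Set.disjoint_left]
  intro γ h1 h2
  exact h (D.ping ∅ x x' 1 γ (by simp) (by simp) (one_mem _) h2 (by simpa using h1)).2

theorem PPG.G_eq (x : X) :
    lam (D.g x) = prj (D.W x) * lam (D.g x) + lam (D.g x) * prj (D.W x) := by
  classical
  apply ext_on_dl
  intro a
  simp only [add_apply, mul_apply_eq_comp, lam_dl, prj_dl]
  by_cases h : a ∈ D.W x
  · have h' : D.g x * a ∉ D.W x := fun h' => (D.g_iff x a).1 h' h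
    rw [if_pos h, if_neg h', lam_dl, zero_add]
  · have h' : D.g x * a ∈ D.W x := (D.g_iff x a).2 h
    rw [if_neg h, if_pos h', map_zero, add_zero]

theorem PPG.PTP_same (Y : Set X) (x : X) (T : BB Γ) (hx : x ∉ Y) (hT : T ∈ UU (D.L Y)) :
    prj (D.W x) * T * prj (D.W x) = tau T • prj (D.W x) := by
  classical
  apply ext_coef
  intro a b
  rw [coef_mul_prj, coef_prj_mul, coef_smul]
  have hp : coef (prj (D.W x)) a b = if b ∈ D.W x then (if a = b then 1 else 0) else 0 := by
    have := coef_mul_prj (D.W x) (1 : BB Γ) a b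
    rw [one_mul] at this
    rw [this, coef_one]
  rw [hp]
  by_cases hb : b ∈ D.W x
  · rw [if_pos hb, if_pos hb]
    by_cases ha : a ∈ D.W x
    · rw [if_pos ha]
      by_cases hab : a = b
      · subst hab
        rw [if_pos rfl, mul_one, tau_eq]
        have := hT.1 1 1 a
        rw [one_mul] at this
        exact this
      · rw [if_neg hab, mul_zero]
        apply hT.2
        intro hl
        apply hab
        have := (D.ping Y x x (a * b⁻¹) b hx hx hl hb (by simpa using ha)).1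
        exact mul_inv_eq_one.1 this
    · rw [if_neg ha, if_neg, mul_zero]
      rintro rfl
      exact ha hb
  · rw [if_neg hb, if_neg hb, mul_zero]

theorem PPG.PTP_ne (Y : Set X) (x x' : X) (T : BB Γ) (hx : x ∉ Y) (hx' : x' ∉ Y) (hne : x ≠ x')
    (hT : T ∈ UU (D.L Y)) : prj (D.W x) * T * prj (D.W x') = 0 := by
  classical
  apply ext_coef
  intro a b
  have h0 : coef (0 : BB Γ) a b = 0 := by simp [coef]
  rw [coef_mul_prj, coef_prj_mul, h0]
  split_ifs with hb ha
  · apply hT.2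
    intro hl
    exact hne (D.ping Y x x' (a * b⁻¹) b hx hx' hl hb (by simpa using ha)).2
  · rfl
  · rfl

end Crest.Agent.R120
end

-- ▼ part R120/ModelLim
section

/-!
# The base involutions, the projections `p n`, limits (row 120, concrete model)
-/

set_option autoImplicit false

namespace Crest.Agent.R120

open scoped ComplexOrder InnerProductSpace
open Filter Topology

namespace PPG

variable {Γ : Type} [Group Γ] {X : Type} (D : PPG Γ X)

/-- the base involution `λ(k_n)` -/
noncomputable def u (n : ℕ) : BB Γ := lam (D.k n)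

/-- the set of base involutions -/
def base : Set (BB Γ) := Set.range D.u

theorem base_countable : D.base.Countable := Set.countable_range _

theorem u_mul_self (n : ℕ) : D.u n * D.u n = 1 := by
  unfold u
  rw [← lam_mul, D.k_sq, lam_one]

theorem u_comm (m n : ℕ) : Commute (D.u m) (D.u n) := by
  unfold u
  show _ * _ = _ * _
  rw [← lam_mul, ← lam_mul, D.k_comm]

theorem k_inv (n : ℕ) : (D.k n)⁻¹ = D.k n := by
  rw [inv_eq_iff_mul_eq_one, D.k_sq]

theorem star_u (n : ℕ) : star (D.u n) = D.u n := by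
  unfold u
  rw [star_lam, D.k_inv]

/-- the projection `(1 + λ(k_n))/2` -/
noncomputable def q (n : ℕ) : BB Γ := (1 / 2 : ℂ) • (1 + D.u n)

/-- the subgroup generated by the first `n` involutions -/
def K (n : ℕ) : Subgroup Γ := Subgroup.closure (D.k '' {i | i < n})

theorem K_mono (n : ℕ) : D.K n ≤ D.K (n + 1) := by
  apply Subgroup.closure_mono
  apply Set.image_mono
  intro i (hi : i < n)
  exact Nat.lt_succ_of_lt hi

theorem K_le (n : ℕ) : D.K n ≤ D.L ∅ := by
  unfold K
  rw [Subgroup.closure_le]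
  rintro _ ⟨i, _, rfl⟩
  exact D.k_mem i ∅

/-- span of the `λ(g)` with `g` in the group generated by the first `n` involutions -/
noncomputable def S (n : ℕ) : Submodule ℂ (BB Γ) := Submodule.span ℂ (lam '' (D.K n : Set Γ))

theorem S_mono (n : ℕ) : D.S n ≤ D.S (n + 1) :=
  Submodule.span_mono (Set.image_mono (D.K_mono n))

theorem mul_u_mem {n : ℕ} {T : BB Γ} (hT : T ∈ D.S n) : T * D.u n ∈ D.S (n + 1) := by
  refine Submodule.span_induction (p := fun T _ => T * D.u n ∈ D.S (n + 1)) ?_ ?_ ?_ ?_ hT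
  · rintro T ⟨g, hg, rfl⟩
    apply Submodule.subset_span
    refine ⟨g * D.k n, ?_, ?_⟩
    · refine mul_mem (D.K_mono n hg) (Subgroup.subset_closure ⟨n, Nat.lt_succ_self n, rfl⟩)
    · unfold u
      rw [← lam_mul]
  · rw [zero_mul]; exact Submodule.zero_mem _
  · intro a b _ _ ha hb
    rw [add_mul]; exact Submodule.add_mem _ ha hb
  · intro c a _ ha
    rw [smul_mul_assoc]; exact Submodule.smul_mem _ c ha

theorem mem_UU_of_mem {n : ℕ} {T : BB Γ} (hT : T ∈ D.S n) : T ∈ UU (D.L ∅) := by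
  refine Submodule.span_induction (p := fun T _ => T ∈ UU (D.L ∅)) ?_ ?_ ?_ ?_ hT
  · rintro T ⟨g, hg, rfl⟩
    exact lam_mem_UU (D.K_le n hg)
  · exact zero_mem _
  · intro a b _ _ ha hb
    exact add_mem ha hb
  · intro c a _ ha
    exact SMulMemClass.smul_mem c ha

theorem mem_UU_top {T : BB Γ} {L : Subgroup Γ} (hT : T ∈ UU L) : T ∈ UU (⊤ : Subgroup Γ) :=
  UU_mono le_top hT

theorem tau_lam_ne {g : Γ} (hg : g ≠ 1) : tau (lam g) = 0 := by
  classical
  rw [tau_eq, coef_lam, if_neg]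
  intro h
  rw [mul_one] at h
  exact hg h.symm

theorem tau_mul_u {n : ℕ} {T : BB Γ} (hT : T ∈ D.S n) : tau (T * D.u n) = 0 := by
  refine Submodule.span_induction (p := fun T _ => tau (T * D.u n) = 0) ?_ ?_ ?_ ?_ hT
  · rintro T ⟨g, hg, rfl⟩
    unfold u
    rw [← lam_mul, tau_lam_ne]
    intro h
    apply D.k_indep n
    have h1 : D.k n = g⁻¹ := (inv_eq_of_mul_eq_one_right h).symm
    rw [h1]
    exact inv_mem hg
  · rw [zero_mul, map_zero]
  · intro a b _ _ ha hb
    rw [add_mul, map_add, ha, hb, add_zero]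
  · intro c a _ ha
    rw [smul_mul_assoc, map_smul, ha, smul_zero]

/-- projections of trace `2⁻ⁿ` built from the first `n` involutions -/
structure Nice (n : ℕ) (z : BB Γ) : Prop where
  cs : z ∈ cs D.base
  S : z ∈ D.S n
  proj : IsStarProjection z
  comm : ∀ i, Commute z (D.u i)
  tr : tau z = (1 / 2 : ℂ) ^ n

theorem u_mem_cs (n : ℕ) : D.u n ∈ Crest.Agent.R120.cs D.base :=
  subset_cs _ ⟨n, rfl⟩

theorem q_proj (n : ℕ) : IsStarProjection (D.q n) := by
  rw [isStarProjection_iff']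
  constructor
  · unfold q
    rw [smul_mul_smul_comm, add_mul, mul_add, mul_add, D.u_mul_self, one_mul, one_mul, mul_one]
    have h : (1 : BB Γ) + D.u n + (D.u n + 1) = (2 : ℂ) • (1 + D.u n) := by
      rw [two_smul]; abel
    rw [h, smul_smul]
    norm_num
  · unfold q
    rw [star_smul, star_add, star_one, D.star_u]
    norm_num

theorem q_mem_cs (n : ℕ) : D.q n ∈ Crest.Agent.R120.cs D.base := by
  unfold q
  exact SMulMemClass.smul_mem _ (add_mem (one_mem _) (D.u_mem_cs n))

theorem commute_q {z : BB Γ} {n : ℕ} (h : Commute z (D.u n)) : Commute z (D.q n) := by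
  unfold q
  exact ((Commute.one_right z).add_right h).smul_right _

theorem one_sub_q (n : ℕ) : 1 - D.q n = (1 / 2 : ℂ) • (1 - D.u n) := by
  unfold q
  have h : (1 : BB Γ) = (1 / 2 : ℂ) • (1 : BB Γ) + (1 / 2 : ℂ) • (1 : BB Γ) := by
    rw [← add_smul]; norm_num
  rw [smul_add, smul_sub]
  nth_rewrite 1 [h]
  abel

theorem mul_q_eq (z : BB Γ) (n : ℕ) : z * D.q n = (1 / 2 : ℂ) • (z + z * D.u n) := by
  unfold q
  rw [mul_smul_comm, mul_add, mul_one]

theorem mul_one_sub_q_eq (z : BB Γ) (n : ℕ) :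
    z * (1 - D.q n) = (1 / 2 : ℂ) • (z - z * D.u n) := by
  rw [D.one_sub_q, mul_smul_comm, mul_sub, mul_one]

theorem isStarProjection_mul {x y : BB Γ} (hx : IsStarProjection x) (hy : IsStarProjection y)
    (h : Commute x y) : IsStarProjection (x * y) := by
  rw [isStarProjection_iff'] at *
  refine ⟨?_, ?_⟩
  · rw [mul_assoc, ← mul_assoc y x y, ← h.eq, mul_assoc x y y, hy.1, ← mul_assoc, hx.1]
  · rw [star_mul, hx.2, hy.2, h.eq]

variable {D}

theorem Nice.mul_q {n : ℕ} {z : BB Γ} (h : D.Nice n z) : D.Nice (n + 1) (z * D.q n) where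
  cs := mul_mem h.cs (D.q_mem_cs n)
  S := by
    rw [D.mul_q_eq]
    exact Submodule.smul_mem _ _ (Submodule.add_mem _ (D.S_mono n h.S) (D.mul_u_mem h.S))
  proj := isStarProjection_mul h.proj (D.q_proj n) (D.commute_q (h.comm n))
  comm i := (h.comm i).mul_left (D.commute_q (D.u_comm i n)).symm
  tr := by
    rw [D.mul_q_eq, map_smul, map_add, D.tau_mul_u h.S, h.tr, add_zero, pow_succ', smul_eq_mul]

theorem Nice.mul_one_sub_q {n : ℕ} {z : BB Γ} (h : D.Nice n z) :
    D.Nice (n + 1) (z * (1 - D.q n)) where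
  cs := mul_mem h.cs (sub_mem (one_mem _) (D.q_mem_cs n))
  S := by
    rw [D.mul_one_sub_q_eq]
    exact Submodule.smul_mem _ _ (Submodule.sub_mem _ (D.S_mono n h.S) (D.mul_u_mem h.S))
  proj := isStarProjection_mul h.proj (D.q_proj n).one_sub
    ((Commute.one_right z).sub_right (D.commute_q (h.comm n)))
  comm i := (h.comm i).mul_left
    ((Commute.one_left _).sub_left (D.commute_q (D.u_comm i n)).symm)
  tr := by
    rw [D.mul_one_sub_q_eq, map_smul, map_sub, D.tau_mul_u h.S, h.tr, sub_zero, pow_succ',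
      smul_eq_mul]

variable (D)

theorem nice_one : D.Nice 0 1 where
  cs := one_mem _
  S := by
    apply Submodule.subset_span
    exact ⟨1, one_mem _, lam_one⟩
  proj := IsStarProjection.one _
  comm i := Commute.one_left _
  tr := by rw [tau_one, pow_zero]

theorem pn_succ (n : ℕ) : pn D.k (n + 1) = pn D.k n * D.q n := rfl

theorem nice_pn (n : ℕ) : D.Nice n (pn D.k n) := by
  induction n with
  | zero => exact D.nice_one
  | succ n ih => exact ih.mul_q

theorem pn_mul {n m : ℕ} (h : n ≤ m) : pn D.k n * pn D.k m = pn D.k m := by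
  induction m, h using Nat.le_induction with
  | base => exact (D.nice_pn n).proj.isIdempotentElem
  | succ m _ ih => rw [pn_succ, ← mul_assoc, ih]

theorem decProj_pn : DecProj (pn D.k) where
  proj n := (D.nice_pn n).proj
  mul _ _ h := D.pn_mul h

theorem pn_mul_u {i n : ℕ} (h : i < n) : pn D.k n * D.u i = pn D.k n := by
  induction n, h using Nat.le_induction with
  | base =>
    rw [pn_succ, mul_assoc]
    congr 1
    unfold q
    rw [smul_mul_assoc, add_mul, D.u_mul_self, one_mul, add_comm]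
  | succ n _ ih =>
    rw [((D.nice_pn (n + 1)).comm i).eq, pn_succ, ← mul_assoc, ← ((D.nice_pn n).comm i).eq, ih]

theorem u_mul_pn {i n : ℕ} (h : i < n) : D.u i * pn D.k n = pn D.k n := by
  rw [← ((D.nice_pn n).comm i).eq, D.pn_mul_u h]

/-- the halving property -/
theorem halving (ψ : BB Γ →ₚ[ℂ] ℂ) (hψ : ψ 1 = 1) (n : ℕ) : ∃ z, D.Nice n z ∧ ψ z ≠ 0 := by
  induction n with
  | zero => exact ⟨1, D.nice_one, by rw [hψ]; exact one_ne_zero⟩
  | succ n ih =>
    obtain ⟨z, hz, hψz⟩ := ih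
    by_cases h : ψ (z * D.q n) = 0
    · refine ⟨z * (1 - D.q n), hz.mul_one_sub_q, ?_⟩
      rw [mul_sub, mul_one, map_sub, h, sub_zero]
      exact hψz
    · exact ⟨z * D.q n, hz.mul_q, h⟩

theorem pn_mem_UU (n : ℕ) : pn D.k n ∈ UU (D.L ∅) := D.mem_UU_of_mem (D.nice_pn n).S

/-! ### strong convergence -/

theorem tendsto_half_pow : Tendsto (fun n : ℕ => ((1 / 2 : ℂ) ^ n)) atTop (𝓝 0) :=
  tendsto_pow_atTop_nhds_zero_of_norm_lt_one (by norm_num)

theorem tendsto_pn (x : HH Γ) : Tendsto (fun n => pn D.k n x) atTop (𝓝 0) := by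
  apply tendsto_proj_apply_zero (fun n => (D.nice_pn n).proj)
    (fun n => mem_UU_top (D.pn_mem_UU n))
  simp only [(D.nice_pn _).tr]
  exact tendsto_half_pow

theorem tendsto_one_sub_pn (x : HH Γ) : Tendsto (fun n => (1 - pn D.k n) x) atTop (𝓝 x) := by
  have h := (tendsto_const_nhds (x := x)).sub (D.tendsto_pn x)
  simpa using h

/-- (SC) -/
theorem mem_of_forall_mem {Y : Set X} {y : BB Γ} (h : ∀ n, y * (1 - pn D.k n) ∈ UU (D.L Y)) :
    y ∈ UU (D.L Y) :=
  mem_UU_of_tendsto h fun a => (y.continuous.tendsto _).comp (D.tendsto_one_sub_pn (dl a))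

/-! ### limits of unitaries -/

section lim

variable {V : ℕ → BB Γ} {k : ℕ → ℕ}

theorem V_mul_eq (hk : StrictMono k)
    (hV : ∀ n, V (n + 1) * (1 - pn D.k (k n)) = V n * (1 - pn D.k (k n))) {n m : ℕ} (h : n ≤ m) :
    V m * (1 - pn D.k (k n)) = V n * (1 - pn D.k (k n)) := by
  induction m, h using Nat.le_induction with
  | base => rfl
  | succ m hm ih =>
    have h1 : (1 - pn D.k (k m)) * (1 - pn D.k (k n)) = 1 - pn D.k (k n) := by
      have h2 : pn D.k (k m) * pn D.k (k n) = pn D.k (k m) := by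
        have h3 := congrArg star (D.pn_mul (hk.monotone hm))
        rwa [star_mul, (D.nice_pn _).proj.isSelfAdjoint.star_eq,
          (D.nice_pn _).proj.isSelfAdjoint.star_eq] at h3
      rw [sub_mul, one_mul, mul_sub, mul_one, h2, sub_self, sub_zero]
    rw [← ih, ← h1, ← mul_assoc, ← mul_assoc, hV m]

/-- the projections `V_n p_{k_n} V_n⋆` -/
theorem conj_proj {W p : BB Γ} (hW : W ∈ unitary (BB Γ)) (hp : IsStarProjection p) :
    IsStarProjection (W * p * star W) := by
  rw [isStarProjection_iff'] at *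
  have h1 := (Unitary.mem_iff.1 hW).1
  constructor
  · calc W * p * star W * (W * p * star W) = W * p * (star W * W) * p * star W := by
          simp only [mul_assoc]
      _ = W * (p * p) * star W := by rw [h1, mul_one]; simp only [mul_assoc]
      _ = _ := by rw [hp.1]
  · simp only [star_mul, star_star, hp.2, mul_assoc]

theorem tendsto_conj (hk : StrictMono k) (hu : ∀ n, V n ∈ unitary (BB Γ))
    (hU : ∀ n, V n ∈ UU (D.L Set.univ)) (x : HH Γ) :
    Tendsto (fun n => (V n * pn D.k (k n) * star (V n)) x) atTop (𝓝 0) := by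
  have hU' : ∀ n, V n ∈ UU (⊤ : Subgroup Γ) := fun n => mem_UU_top (hU n)
  have hp' : ∀ n, pn D.k (k n) ∈ UU (⊤ : Subgroup Γ) := fun n => mem_UU_top (D.pn_mem_UU _)
  apply tendsto_proj_apply_zero (fun n => conj_proj (hu n) (D.nice_pn _).proj)
    (fun n => mul_mem (mul_mem (hU' n) (hp' n)) (star_mem (hU' n)))
  have h1 : ∀ n, tau (V n * pn D.k (k n) * star (V n)) = (1 / 2 : ℂ) ^ (k n) := by
    intro n
    rw [mul_assoc, tau_comm (hU' n) (mul_mem (hp' n) (star_mem (hU' n))), mul_assoc,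
      (Unitary.mem_iff.1 (hu n)).1, mul_one, (D.nice_pn _).tr]
  simp only [h1]
  exact tendsto_half_pow.comp hk.tendsto_atTop

theorem norm_unitary_apply {W : BB Γ} (hW : W ∈ unitary (BB Γ)) (x : HH Γ) : ‖W x‖ = ‖x‖ :=
  ContinuousLinearMap.norm_map_of_mem_unitary hW x

/-- a sequence that is eventually within `2‖w n‖` with `w n → 0` is Cauchy -/
theorem exists_lim_of_dist_le {z w : ℕ → HH Γ} (hw : Tendsto w atTop (𝓝 0))
    (h : ∀ n m, n ≤ m → ‖z m - z n‖ ≤ 2 * ‖w n‖) : ∃ l, Tendsto z atTop (𝓝 l) := by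
  apply cauchySeq_tendsto_of_complete
  rw [Metric.cauchySeq_iff']
  intro ε hε
  obtain ⟨N, hN⟩ := Metric.tendsto_atTop.1 hw (ε / 4) (by positivity)
  refine ⟨N, fun n hn => ?_⟩
  have h1 := hN N le_rfl
  rw [dist_zero_right] at h1
  rw [dist_eq_norm]
  calc ‖z n - z N‖ ≤ 2 * ‖w N‖ := h N n hn
    _ < ε := by linarith

/-- (LIM) -/
theorem exists_lim (hk : StrictMono k) (hu : ∀ n, V n ∈ unitary (BB Γ))
    (hU : ∀ n, V n ∈ UU (D.L Set.univ))
    (hV : ∀ n, V (n + 1) * (1 - pn D.k (k n)) = V n * (1 - pn D.k (k n))) :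
    ∃ y ∈ unitary (BB Γ), ∀ n, y * (1 - pn D.k (k n)) = V n * (1 - pn D.k (k n)) := by
  -- the two strong limits
  have h1 : ∀ x, ∃ l, Tendsto (fun n => V n x) atTop (𝓝 l) := by
    intro x
    apply exists_lim_of_dist_le (w := fun n => pn D.k (k n) x)
      ((D.tendsto_pn x).comp hk.tendsto_atTop)
    intro n m hnm
    have e1 : V m x - V n x = V m (pn D.k (k n) x) - V n (pn D.k (k n) x) := by
      have e2 := congrArg (fun T => T x) (D.V_mul_eq hk hV hnm)
      have e3 : V m ((1 - pn D.k (k n)) x) = V n ((1 - pn D.k (k n)) x) := e2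
      have e4 : (1 - pn D.k (k n)) x = x - pn D.k (k n) x := rfl
      rw [e4, map_sub, map_sub] at e3
      exact sub_eq_sub_iff_sub_eq_sub.1 e3
    rw [e1]
    calc _ ≤ ‖V m (pn D.k (k n) x)‖ + ‖V n (pn D.k (k n) x)‖ := norm_sub_le _ _
      _ = 2 * ‖pn D.k (k n) x‖ := by
        rw [norm_unitary_apply (hu m), norm_unitary_apply (hu n)]; ring
  have h2 : ∀ x, ∃ l, Tendsto (fun n => star (V n) x) atTop (𝓝 l) := by
    intro x
    apply exists_lim_of_dist_le (w := fun n => (V n * pn D.k (k n) * star (V n)) x)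
      (D.tendsto_conj hk hu hU x)
    intro n m hnm
    set e := V n * pn D.k (k n) * star (V n) with he
    have hVn := Unitary.mem_iff.1 (hu n)
    have hVm := Unitary.mem_iff.1 (hu m)
    -- `V m⋆ (1 - e) = V n⋆ (1 - e)`
    have e0 : 1 - e = V n * (1 - pn D.k (k n)) * star (V n) := by
      rw [mul_sub, mul_one, sub_mul, hVn.2]
    have e1 : star (V m) * (1 - e) = star (V n) * (1 - e) := by
      calc star (V m) * (1 - e) = star (V m) * (V m * (1 - pn D.k (k n))) * star (V n) := by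
            rw [e0, D.V_mul_eq hk hV hnm, ← mul_assoc]
        _ = (1 - pn D.k (k n)) * star (V n) := by rw [← mul_assoc, hVm.1, one_mul]
        _ = star (V n) * (1 - e) := by
            rw [e0, ← mul_assoc, ← mul_assoc, hVn.1, one_mul]
    have e2 : star (V m) x - star (V n) x = star (V m) (e x) - star (V n) (e x) := by
      have e3 : star (V m) ((1 - e) x) = star (V n) ((1 - e) x) := congrArg (fun T => T x) e1
      have e4 : (1 - e) x = x - e x := rfl
      rw [e4, map_sub, map_sub] at e3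
      exact sub_eq_sub_iff_sub_eq_sub.1 e3
    rw [e2]
    calc _ ≤ ‖star (V m) (e x)‖ + ‖star (V n) (e x)‖ := norm_sub_le _ _
      _ = 2 * ‖e x‖ := by
        rw [norm_unitary_apply (Unitary.star_mem (hu m)),
          norm_unitary_apply (Unitary.star_mem (hu n))]; ring
  choose f hf using h1
  choose g hg using h2
  let y : BB Γ := continuousLinearMapOfTendsto (fun n => V n) (f := f) (tendsto_pi_nhds.2 hf)
  let y' : BB Γ := continuousLinearMapOfTendsto (fun n => star (V n)) (f := g)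
    (tendsto_pi_nhds.2 hg)
  have hy : ∀ x, Tendsto (fun n => V n x) atTop (𝓝 (y x)) := hf
  have hy' : ∀ x, Tendsto (fun n => star (V n) x) atTop (𝓝 (y' x)) := hg
  have hstar : star y = y' := by
    rw [ContinuousLinearMap.star_eq_adjoint]
    symm
    rw [ContinuousLinearMap.eq_adjoint_iff]
    intro a b
    have t1 : Tendsto (fun n => ⟪star (V n) a, b⟫_ℂ) atTop (𝓝 ⟪y' a, b⟫_ℂ) :=
      (hy' a).inner tendsto_const_nhds
    have t2 : Tendsto (fun n => ⟪a, V n b⟫_ℂ) atTop (𝓝 ⟪a, y b⟫_ℂ) :=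
      tendsto_const_nhds.inner (hy b)
    have t3 : (fun n => ⟪star (V n) a, b⟫_ℂ) = fun n => ⟪a, V n b⟫_ℂ := by
      funext n
      rw [ContinuousLinearMap.star_eq_adjoint, ContinuousLinearMap.adjoint_inner_left]
    rw [t3] at t1
    exact tendsto_nhds_unique t1 t2
  have hny : ∀ x, ‖y x‖ = ‖x‖ := by
    intro x
    have t1 := (hy x).norm
    have t2 : (fun n => ‖V n x‖) = fun _ => ‖x‖ := by
      funext n; exact norm_unitary_apply (hu n) x
    rw [t2] at t1
    exact tendsto_nhds_unique t1 tendsto_const_nhds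
  have hny' : ∀ x, ‖(star y) x‖ = ‖x‖ := by
    intro x
    rw [hstar]
    have t1 := (hy' x).norm
    have t2 : (fun n => ‖star (V n) x‖) = fun _ => ‖x‖ := by
      funext n; exact norm_unitary_apply (Unitary.star_mem (hu n)) x
    rw [t2] at t1
    exact tendsto_nhds_unique t1 tendsto_const_nhds
  refine ⟨y, ?_, ?_⟩
  · rw [Unitary.mem_iff]
    constructor
    · rw [ContinuousLinearMap.star_eq_adjoint]
      exact (ContinuousLinearMap.norm_map_iff_adjoint_comp_self y).1 hny
    · have h3 := (ContinuousLinearMap.norm_map_iff_adjoint_comp_self (star y)).1 hny'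
      rw [← ContinuousLinearMap.star_eq_adjoint, star_star] at h3
      exact h3
  · intro n
    ext1 x
    have t1 : Tendsto (fun m => (V m * (1 - pn D.k (k n))) x) atTop
        (𝓝 ((y * (1 - pn D.k (k n))) x)) := hy ((1 - pn D.k (k n)) x)
    have t2 : Tendsto (fun m => (V m * (1 - pn D.k (k n))) x) atTop
        (𝓝 ((V n * (1 - pn D.k (k n))) x)) := by
      apply tendsto_const_nhds.congr'
      filter_upwards [eventually_ge_atTop n] with m hm
      rw [D.V_mul_eq hk hV hm]
    exact tendsto_nhds_unique t1 t2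

end lim

/-! ### the limit state `φ` -/

section phi

/-- unit vectors in the range of `p n` -/
noncomputable def xi (n : ℕ) : HH Γ := ((‖pn D.k n (dl 1)‖⁻¹ : ℝ) : ℂ) • pn D.k n (dl 1)

theorem pn_dl_ne (n : ℕ) : pn D.k n (dl (1 : Γ)) ≠ 0 := by
  intro h
  have h1 : tau (pn D.k n) = 0 := by
    rw [tau_eq, coef, h, inner_zero_right]
  rw [(D.nice_pn n).tr] at h1
  exact pow_ne_zero n (by norm_num) h1

theorem norm_xi (n : ℕ) : ‖D.xi n‖ = 1 := by
  unfold xi
  rw [norm_smul, Complex.norm_real, norm_inv, norm_norm,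
    inv_mul_cancel₀ (norm_ne_zero_iff.2 (D.pn_dl_ne n))]

theorem pn_xi {m n : ℕ} (h : m ≤ n) : pn D.k m (D.xi n) = D.xi n := by
  unfold xi
  rw [map_smul]
  congr 1
  exact congrArg (fun T : BB Γ => T (dl 1)) (D.pn_mul h)

theorem u_xi {i n : ℕ} (h : i < n) : D.u i (D.xi n) = D.xi n := by
  unfold xi
  rw [map_smul]
  congr 1
  exact congrArg (fun T : BB Γ => T (dl 1)) (D.u_mul_pn h)

theorem norm_inner_xi_le (n : ℕ) (T : BB Γ) : ‖⟪D.xi n, T (D.xi n)⟫_ℂ‖ ≤ ‖T‖ := by
  calc ‖⟪D.xi n, T (D.xi n)⟫_ℂ‖ ≤ ‖D.xi n‖ * ‖T (D.xi n)‖ := norm_inner_le_norm _ _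
    _ ≤ ‖D.xi n‖ * (‖T‖ * ‖D.xi n‖) := by gcongr; exact T.le_opNorm _
    _ = ‖T‖ := by rw [D.norm_xi]; ring

theorem exists_ulim (T : BB Γ) :
    ∃ l : ℂ, Tendsto (fun n => ⟪D.xi n, T (D.xi n)⟫_ℂ) (hyperfilter ℕ : Filter ℕ) (𝓝 l) := by
  obtain ⟨l, -, hl⟩ := (isCompact_closedBall (0 : ℂ) ‖T‖).ultrafilter_le_nhds
    ((hyperfilter ℕ).map fun n => ⟪D.xi n, T (D.xi n)⟫_ℂ) (by
      rw [le_principal_iff, Ultrafilter.coe_map, mem_map]
      filter_upwards with n
      simpa using D.norm_inner_xi_le n T)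
  exact ⟨l, hl⟩

/-- the ultrafilter limit of the vector states `xi n` -/
noncomputable def phiFun (T : BB Γ) : ℂ := (D.exists_ulim T).choose

theorem tendsto_phiFun (T : BB Γ) :
    Tendsto (fun n => ⟪D.xi n, T (D.xi n)⟫_ℂ) (hyperfilter ℕ : Filter ℕ) (𝓝 (D.phiFun T)) :=
  (D.exists_ulim T).choose_spec

theorem phiFun_eq {T : BB Γ} {l : ℂ}
    (h : Tendsto (fun n => ⟪D.xi n, T (D.xi n)⟫_ℂ) (hyperfilter ℕ : Filter ℕ) (𝓝 l)) :
    D.phiFun T = l := tendsto_nhds_unique (D.tendsto_phiFun T) h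

theorem eventually_hyper {p : ℕ → Prop} (N : ℕ) (h : ∀ n, N ≤ n → p n) :
    ∀ᶠ n in (hyperfilter ℕ : Filter ℕ), p n := by
  have h1 : ∀ᶠ n in (atTop : Filter ℕ), p n := by
    filter_upwards [eventually_ge_atTop N] with n hn using h n hn
  rw [← Nat.cofinite_eq_atTop] at h1
  exact hyperfilter_le_cofinite h1

/-- the limit state -/
noncomputable def phi : BB Γ →ₚ[ℂ] ℂ :=
  PositiveLinearMap.mk₀
    { toFun := D.phiFun
      map_add' := fun S T => by
        apply D.phiFun_eq
        refine ((D.tendsto_phiFun S).add (D.tendsto_phiFun T)).congr fun n => ?_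
        rw [← inner_add_right]; rfl
      map_smul' := fun c T => by
        apply D.phiFun_eq
        refine ((D.tendsto_phiFun T).const_mul c).congr fun n => ?_
        rw [← inner_smul_right]; rfl } (by
    intro T hT
    have h := (ContinuousLinearMap.nonneg_iff_isPositive T).1 hT
    exact ge_of_tendsto' (D.tendsto_phiFun T) fun n => h.inner_nonneg_right _)

theorem phi_apply (T : BB Γ) : D.phi T = D.phiFun T := rfl

theorem phi_one : D.phi 1 = 1 := by
  rw [phi_apply]
  apply D.phiFun_eq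
  refine tendsto_const_nhds.congr fun n => ?_
  show (1 : ℂ) = ⟪D.xi n, D.xi n⟫_ℂ
  rw [inner_self_eq_norm_sq_to_K, D.norm_xi]
  simp

theorem phi_pn (m : ℕ) : D.phi (pn D.k m) = 1 := by
  rw [← D.phi_one, phi_apply, phi_apply]
  apply D.phiFun_eq
  refine (D.tendsto_phiFun 1).congr' ?_
  apply eventually_hyper m
  intro n hn
  show ⟪D.xi n, D.xi n⟫_ℂ = ⟪D.xi n, pn D.k m (D.xi n)⟫_ℂ
  rw [D.pn_xi hn]

theorem phi_u_mul (i : ℕ) (T : BB Γ) : D.phi (D.u i * T) = D.phi T := by
  rw [phi_apply, phi_apply]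
  apply D.phiFun_eq
  refine (D.tendsto_phiFun T).congr' ?_
  apply eventually_hyper (i + 1)
  intro n hn
  show ⟪D.xi n, T (D.xi n)⟫_ℂ = ⟪D.xi n, D.u i (T (D.xi n))⟫_ℂ
  rw [← ContinuousLinearMap.adjoint_inner_left (D.u i), ← ContinuousLinearMap.star_eq_adjoint,
    D.star_u, D.u_xi (by omega)]

theorem norm_phi_le (T : BB Γ) : ‖D.phi T‖ ≤ ‖T‖ := by
  rw [phi_apply]
  exact le_of_tendsto' (D.tendsto_phiFun T).norm fun n => D.norm_inner_xi_le n T

theorem norm_pn_le (n : ℕ) : ‖pn D.k n‖ ≤ 1 := (D.nice_pn n).proj.norm_le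

theorem norm_compress_le (n : ℕ) (T : BB Γ) :
    ‖pn D.k n * T * pn D.k n - D.phi T • pn D.k n‖ ≤ 2 * ‖T‖ := by
  have h := D.norm_pn_le n
  calc ‖pn D.k n * T * pn D.k n - D.phi T • pn D.k n‖
      ≤ ‖pn D.k n * T * pn D.k n‖ + ‖D.phi T • pn D.k n‖ := norm_sub_le _ _
    _ ≤ ‖pn D.k n‖ * ‖T‖ * ‖pn D.k n‖ + ‖D.phi T‖ * ‖pn D.k n‖ := by
        rw [norm_smul]
        gcongr
        exact (norm_mul_le _ _).trans (by gcongr; exact norm_mul_le _ _)
    _ ≤ 1 * ‖T‖ * 1 + ‖T‖ * 1 := by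
        gcongr
        exact D.norm_phi_le T
    _ = 2 * ‖T‖ := by ring

theorem isClosed_N0 : IsClosed (N0 (pn D.k) D.phi) := by
  rw [← isSeqClosed_iff_isClosed]
  intro x T hx hT
  show Tendsto (fun n => ‖pn D.k n * T * pn D.k n - D.phi T • pn D.k n‖) atTop (𝓝 0)
  rw [Metric.tendsto_atTop]
  intro ε hε
  obtain ⟨j, hj⟩ := (Metric.tendsto_atTop.1 hT (ε / 4) (by positivity))
  have hj' := hj j le_rfl
  rw [dist_eq_norm] at hj'
  obtain ⟨N, hN⟩ := Metric.tendsto_atTop.1 (hx j) (ε / 2) (by positivity)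
  refine ⟨N, fun n hn => ?_⟩
  have h1 := hN n hn
  rw [Real.dist_eq, sub_zero, abs_of_nonneg (norm_nonneg _)] at h1 ⊢
  have h2 : pn D.k n * T * pn D.k n - D.phi T • pn D.k n =
      (pn D.k n * x j * pn D.k n - D.phi (x j) • pn D.k n) -
      (pn D.k n * (x j - T) * pn D.k n - D.phi (x j - T) • pn D.k n) := by
    rw [map_sub, sub_smul, mul_sub, sub_mul]
    abel
  rw [h2]
  have h3 := D.norm_compress_le n (x j - T)
  calc _ ≤ _ := norm_sub_le _ _
    _ < ε / 2 + 2 * (ε / 4) := by linarith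
    _ = ε := by ring

theorem base_N0 : ∀ b ∈ cs D.base, b ∈ N0 (pn D.k) D.phi := by
  have hu : ∀ i, ∀ x ∈ N0 (pn D.k) D.phi, D.u i * x ∈ N0 (pn D.k) D.phi := by
    intro i x hx
    show Tendsto (fun n => ‖pn D.k n * (D.u i * x) * pn D.k n - D.phi (D.u i * x) • pn D.k n‖)
      atTop (𝓝 0)
    refine Tendsto.congr' ?_ hx
    filter_upwards [eventually_ge_atTop (i + 1)] with n hn
    rw [D.phi_u_mul, ← mul_assoc (pn D.k n) (D.u i) x, D.pn_mul_u (by omega)]
  apply mem_of_left_stable D.isClosed_N0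
  · intro x hx y hy
    show Tendsto (fun n => ‖pn D.k n * (x + y) * pn D.k n - D.phi (x + y) • pn D.k n‖) atTop (𝓝 0)
    refine squeeze_zero (fun _ => norm_nonneg _) (fun n => ?_) (by simpa using hx.add hy)
    have : pn D.k n * (x + y) * pn D.k n - D.phi (x + y) • pn D.k n =
        (pn D.k n * x * pn D.k n - D.phi x • pn D.k n) +
        (pn D.k n * y * pn D.k n - D.phi y • pn D.k n) := by
      rw [map_add, add_smul, mul_add, add_mul]
      abel
    rw [this]
    exact norm_add_le _ _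
  · intro c x hx
    show Tendsto (fun n => ‖pn D.k n * (c • x) * pn D.k n - D.phi (c • x) • pn D.k n‖) atTop (𝓝 0)
    have h1 : (fun n => ‖pn D.k n * (c • x) * pn D.k n - D.phi (c • x) • pn D.k n‖) =
        fun n => ‖c‖ * ‖pn D.k n * x * pn D.k n - D.phi x • pn D.k n‖ := by
      funext n
      rw [← norm_smul, smul_sub, map_smul, mul_smul_comm, smul_mul_assoc, smul_eq_mul, mul_smul]
    rw [h1]
    simpa using hx.const_mul ‖c‖
  · show Tendsto (fun n => ‖pn D.k n * 1 * pn D.k n - D.phi 1 • pn D.k n‖) atTop (𝓝 0)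
    have h1 : (fun n => ‖pn D.k n * 1 * pn D.k n - D.phi 1 • pn D.k n‖) = fun _ => 0 := by
      funext n
      rw [mul_one, D.phi_one, one_smul, (D.nice_pn n).proj.isIdempotentElem.eq, sub_self, norm_zero]
    rw [h1]
    exact tendsto_const_nhds
  · rintro _ ⟨i, rfl⟩ x hx
    exact hu i x hx
  · rintro _ ⟨i, rfl⟩ x hx
    show star (D.u i) * x ∈ _
    rw [D.star_u]
    exact hu i x hx

end phi

/-! ### infinite dimension -/

theorem k_injective : Function.Injective D.k := by
  have key : ∀ m n : ℕ, m < n → D.k m ≠ D.k n := by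
    intro m n h he
    apply D.k_indep n
    rw [← he]
    exact Subgroup.subset_closure ⟨m, h, rfl⟩
  intro m n h
  rcases lt_trichotomy m n with h1 | h1 | h1
  · exact absurd h (key m n h1)
  · exact h1
  · exact absurd h.symm (key n m h1)

theorem not_finiteDimensional : ¬ FiniteDimensional ℂ (cs D.base) := by
  intro hfd
  have h1 : LinearIndependent ℂ (fun n => D.u n) :=
    linearIndependent_lam.comp D.k D.k_injective
  have h2 : LinearIndependent ℂ (fun n => (⟨D.u n, D.u_mem_cs n⟩ : cs D.base)) :=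
    LinearIndependent.of_comp (cs D.base).toSubalgebra.toSubmodule.subtype h1
  have h3 := h2.finite
  exact not_finite ℕ

end PPG

end Crest.Agent.R120
end

-- ▼ part R120/PPGroup
section

/-!
# Row 120: abstract ping-pong data on a group (blueprint section 0)
-/

set_option autoImplicit false

namespace Crest.Agent.R120

/-- Ping-pong data on a group `Γ`: free involutions `g x`, commuting involutions `k n`,
`K s = ∏_{i ∈ s} k i`, the sets `W x` of reduced words starting with `g x`,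
and the subgroups `Λ Y` generated by the `k n` and the `g y`, `y ∈ Y`. -/
structure PPGroup (Γ : Type) [Group Γ] (X : Type) where
  /-- the free involutions -/
  g : X → Γ
  /-- the commuting involutions -/
  k : ℕ → Γ
  /-- finite products of the commuting involutions -/
  K : Finset ℕ → Γ
  /-- the embedding of the base group -/
  κ : Multiplicative (ℕ →₀ ZMod 2) →* Γ
  /-- the words starting with `g x` -/
  W : X → Set Γ
  /-- the subgroup generated by all `k n` and `g y`, `y ∈ Y` -/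
  Λ : Set X → Subgroup Γ
  g_sq : ∀ x, g x * g x = 1
  k_sq : ∀ n, k n * k n = 1
  k_comm : ∀ m n, k m * k n = k n * k m
  K_empty : K ∅ = 1
  K_insert : ∀ n s, n ∉ s → K (insert n s) = k n * K s
  K_eq_one : ∀ s, K s = 1 → s = ∅
  k_injective : Function.Injective k
  κ_injective : Function.Injective κ
  κ_single : ∀ n, κ (Multiplicative.ofAdd (Finsupp.single n 1)) = k n
  Λ_eq : ∀ Y, Λ Y = Subgroup.closure (Set.range k ∪ g '' Y)
  Λ_mono : ∀ Y Z, Y ⊆ Z → Λ Y ≤ Λ Z
  k_mem : ∀ n Y, k n ∈ Λ Y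
  g_mem : ∀ x Y, x ∈ Y → g x ∈ Λ Y
  W_disj : ∀ x x' γ, γ ∈ W x → γ ∈ W x' → x = x'
  g_mem_W : ∀ x, g x ∈ W x
  one_notMem_W : ∀ x, 1 ∉ W x
  g_mul_mem_W : ∀ x γ, g x * γ ∈ W x ↔ γ ∉ W x
  pingpong : ∀ (Y : Set X) (x x' : X) (l γ : Γ), x ∉ Y → x' ∉ Y → l ∈ Λ Y →
    γ ∈ W x' → l * γ ∈ W x → l = 1 ∧ x = x'

end Crest.Agent.R120
end

-- ▼ part R120/ModelGroup
section

/-!
# Row 120: a group with ping-pong data: `(∏ ℤ/2) * (*_X ℤ/2)`
-/

set_option autoImplicit false

namespace Crest.Agent.R120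

namespace MG

open Monoid Monoid.CoprodI

section general

variable {ι : Type} {F : ι → Type} [∀ i, Group (F i)] [DecidableEq ι] [∀ i, DecidableEq (F i)]

theorem smul_eq_cons {i : ι} (m : F i) (hm : m ≠ 1) (w : Word F) (hw : w.fstIdx ≠ some i) :
    (of m : CoprodI F) • w = Word.cons m w hw hm :=
  (Word.cons_eq_smul (m := m) (ls := w) (h1 := hw) (h2 := hm)).symm

theorem fstIdx_smul {i : ι} (m : F i) (hm : m ≠ 1) (w : Word F) (hw : w.fstIdx ≠ some i) :
    ((of m : CoprodI F) • w).fstIdx = some i := by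
  rw [smul_eq_cons m hm w hw, Word.fstIdx_cons]

/-- the involution `m` maps the words starting with the two-element factor `F i` to the others. -/
theorem fstIdx_smul_two {i : ι} (m : F i) (hm : m * m = 1) (h2 : ∀ a : F i, a = 1 ∨ a = m)
    (w : Word F) (hw : w.fstIdx = some i) :
    ((of m : CoprodI F) • w).fstIdx ≠ some i := by
  have h := Word.equivPair_head_smul_equivPair_tail (i := i) w
  rcases h2 (Word.equivPair i w).head with h1 | h1
  · exfalso
    rw [h1, map_one, one_smul] at h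
    apply (Word.equivPair i w).fstIdx_ne
    rw [h, hw]
  · rw [h1] at h
    rw [← h, ← mul_smul, ← map_mul, hm, map_one, one_smul]
    exact (Word.equivPair i w).fstIdx_ne

/-- left multiplication by a reduced word `w` of a word with different first index. -/
theorem fstIdx_prod_smul (S : Set ι) (w : Word F) (hw : ∀ l ∈ w.toList, l.1 ∈ S)
    (u : Word F) (i : ι) (hi : i ∉ S) (hu : u.fstIdx = some i) :
    (w = Word.empty → ((w.prod : CoprodI F) • u).fstIdx = some i) ∧
      (w ≠ Word.empty → ((w.prod : CoprodI F) • u).fstIdx = w.fstIdx) := by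
  induction w using Word.consRecOn with
  | empty => simp [hu]
  | cons j m w h1 h2 ih =>
    have hj : j ∈ S := hw ⟨j, m⟩ (by simp [Word.cons])
    have ih' := ih (fun l hl => hw l (by simp [Word.cons, hl]))
    have hne : ((w.prod : CoprodI F) • u).fstIdx ≠ some j := by
      by_cases hwe : w = Word.empty
      · rw [ih'.1 hwe]
        intro h
        have : i = j := Option.some.inj h
        exact hi (this ▸ hj)
      · rw [ih'.2 hwe]; exact h1
    refine ⟨fun h => ?_, fun _ => ?_⟩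
    · exfalso
      have := congrArg Word.toList h
      simp [Word.cons, Word.empty] at this
    · rw [Word.prod_cons, mul_smul, Word.fstIdx_cons, fstIdx_smul m h2 _ hne]

theorem letters_smul (S : Set ι) {j : ι} (hj : j ∈ S) (m : F j) (w : Word F)
    (hw : ∀ l ∈ w.toList, l.1 ∈ S) : ∀ l ∈ ((of m : CoprodI F) • w).toList, l.1 ∈ S := by
  rintro ⟨i, m₁⟩ hl
  rw [Word.mem_smul_iff] at hl
  rcases hl with ⟨_, h⟩ | ⟨_, h, _⟩
  · exact hw _ h
  · subst h; exact hj

theorem letters_closure (S : Set ι) (l : CoprodI F)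
    (hl : l ∈ Subgroup.closure (⋃ j ∈ S, Set.range (of : F j →* CoprodI F))) :
    ∀ a ∈ (Word.equiv l).toList, a.1 ∈ S := by
  suffices h : ∀ w : Word F, (∀ a ∈ w.toList, a.1 ∈ S) → ∀ a ∈ (l • w).toList, a.1 ∈ S by
    exact h Word.empty (by simp [Word.empty])
  induction hl using Subgroup.closure_induction with
  | mem x hx =>
    intro w hw
    simp only [Set.mem_iUnion] at hx
    obtain ⟨j, hj, m, rfl⟩ := hx
    exact letters_smul S hj m w hw
  | one => intro w hw; rwa [one_smul]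
  | mul x y _ _ hx hy => intro w hw; rw [mul_smul]; exact hx _ (hy _ hw)
  | inv x hx ih =>
    -- the set of generators is closed under inverses
    have hclo : x⁻¹ ∈ Submonoid.closure (⋃ j ∈ S, Set.range (of : F j →* CoprodI F)) := by
      have h1 : x⁻¹ ∈ Subgroup.closure (⋃ j ∈ S, Set.range (of : F j →* CoprodI F)) :=
        inv_mem hx
      rw [← Subgroup.mem_toSubmonoid, Subgroup.closure_toSubmonoid] at h1
      refine Submonoid.closure_mono ?_ h1
      rintro y (hy | hy)
      · exact hy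
      · simp only [Set.mem_inv, Set.mem_iUnion] at hy ⊢
        obtain ⟨j, hj, m, hm⟩ := hy
        exact ⟨j, hj, m⁻¹, by rw [map_inv, hm, inv_inv]⟩
    clear ih hx
    generalize x⁻¹ = y at hclo ⊢
    clear x
    induction hclo using Submonoid.closure_induction with
    | mem x hx =>
      intro w hw
      simp only [Set.mem_iUnion] at hx
      obtain ⟨j, hj, m, rfl⟩ := hx
      exact letters_smul S hj m w hw
    | one => intro w hw; rwa [one_smul]
    | mul x y _ _ hx hy => intro w hw; rw [mul_smul]; exact hx _ (hy _ hw)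

end general

/-- The factors. -/
def Fac (X : Type) : Option X → Type
  | none => Multiplicative (ℕ → ZMod 2)
  | some _ => Multiplicative (ZMod 2)

noncomputable instance (X : Type) : ∀ i, CommGroup (Fac X i)
  | none => inferInstanceAs (CommGroup (Multiplicative (ℕ → ZMod 2)))
  | some _ => inferInstanceAs (CommGroup (Multiplicative (ZMod 2)))

/-- the group -/
abbrev Gam (X : Type) := CoprodI (Fac X)

/-- an element of the base factor -/
def b (X : Type) (f : ℕ → ZMod 2) : Fac X none := Multiplicative.ofAdd f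

theorem b_mul (X : Type) (f h : ℕ → ZMod 2) : b X f * b X h = b X (f + h) := rfl

theorem b_zero (X : Type) : b X 0 = 1 := rfl

theorem b_inj (X : Type) (f h : ℕ → ZMod 2) (e : b X f = b X h) : f = h := e

/-- the involution in the factor `some x` -/
def c {X : Type} (x : X) : Fac X (some x) := Multiplicative.ofAdd (1 : ZMod 2)

theorem c_mul {X : Type} (x : X) : c x * c x = 1 := by
  change Multiplicative.ofAdd ((1 : ZMod 2) + 1) = Multiplicative.ofAdd (0 : ZMod 2)
  congr 1

theorem c_cases {X : Type} (x : X) (a : Fac X (some x)) : a = 1 ∨ a = c x := by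
  change (Multiplicative.toAdd (α := ZMod 2) a) = 0 ∨ (Multiplicative.toAdd (α := ZMod 2) a) = 1
  generalize (Multiplicative.toAdd (α := ZMod 2) a) = z
  revert z
  decide

theorem c_ne {X : Type} (x : X) : c x ≠ 1 := by
  intro h
  have : (1 : ZMod 2) = 0 := h
  revert this
  decide

/-- indicator -/
noncomputable def ind (s : Finset ℕ) : ℕ → ZMod 2 := fun i => if i ∈ s then 1 else 0

theorem ind_insert (n : ℕ) (s : Finset ℕ) (h : n ∉ s) :
    ind (insert n s) = ind {n} + ind s := by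
  funext i
  simp only [ind, Finset.mem_insert, Finset.mem_singleton, Pi.add_apply]
  by_cases h1 : i = n
  · subst h1; simp [h]
  · simp [h1]

theorem ind_eq_zero (s : Finset ℕ) (h : ind s = 0) : s = ∅ := by
  rw [Finset.eq_empty_iff_forall_notMem]
  intro i hi
  have := congrFun h i
  simp [ind, hi] at this

theorem ind_add_self (f : ℕ → ZMod 2) : f + f = 0 := by
  funext i
  simp only [Pi.add_apply, Pi.zero_apply]
  generalize f i = z
  revert z
  decide

end MG

/-- the embedding of the base factor, as a monoid homomorphism -/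
def MG.bHom (X : Type) : Multiplicative (ℕ →₀ ZMod 2) →* MG.Fac X none where
  toFun f := MG.b X (⇑(Multiplicative.toAdd f : ℕ →₀ ZMod 2))
  map_one' := MG.b_zero X
  map_mul' f h := by
    rw [MG.b_mul]; rfl

open MG Monoid Monoid.CoprodI in
open Classical in
/-- The concrete ping-pong group. -/
noncomputable def ppGroup (X : Type) : PPGroup (Gam X) X where
  g x := of (c x)
  k n := of (b X (ind {n}))
  K s := of (b X (ind s))
  κ := (of (i := none) (M := Fac X)).comp (bHom X)
  κ_injective f h e := by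
    have h1 := b_inj X _ _ (of_injective (M := Fac X) none e)
    exact DFunLike.coe_injective (F := ℕ →₀ ZMod 2) h1
  κ_single n := by
    have : (⇑(Finsupp.single n (1 : ZMod 2)) : ℕ → ZMod 2) = ind {n} := by
      funext i
      simp only [ind, Finset.mem_singleton, Finsupp.single_apply, eq_comm]
    change of (b X (⇑(Finsupp.single n (1 : ZMod 2)))) = of (b X (ind {n}))
    rw [this]
  W x := {γ | (Word.equiv γ).fstIdx = some (some x)}
  Λ Y := Subgroup.closure (Set.range (fun n => of (b X (ind {n}))) ∪ (fun x => of (c x)) '' Y)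
  g_sq x := by rw [← map_mul, c_mul, map_one]
  k_sq n := by rw [← map_mul, b_mul, ind_add_self, b_zero, map_one]
  k_comm m n := by rw [← map_mul, ← map_mul, b_mul, b_mul, add_comm]
  K_empty := by
    have : ind ∅ = 0 := by funext i; simp [ind]
    rw [this, b_zero, map_one]
  K_insert n s h := by rw [← map_mul, b_mul, ind_insert n s h]
  K_eq_one s h := by
    apply ind_eq_zero
    apply b_inj X
    apply of_injective (M := Fac X) none
    rw [h, b_zero, map_one]
  k_injective m n h := by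
    have h1 := b_inj X _ _ (of_injective (M := Fac X) none h)
    have h2 := congrFun h1 m
    by_contra hne
    simp [ind, hne] at h2
  Λ_eq Y := rfl
  Λ_mono Y Z h := Subgroup.closure_mono (Set.union_subset_union_right _ (Set.image_mono h))
  k_mem n Y := Subgroup.subset_closure (Or.inl ⟨n, rfl⟩)
  g_mem x Y hx := Subgroup.subset_closure (Or.inr ⟨x, hx, rfl⟩)
  W_disj x x' γ h h' := by
    simp only [Set.mem_ofPred_eq] at h h'
    rw [h] at h'
    exact Option.some.inj (Option.some.inj h')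
  g_mem_W x := by
    change ((of (c x) : Gam X) • (Word.empty : Word (Fac X))).fstIdx = some (some x)
    exact fstIdx_smul _ (c_ne x) _ (by simp [Word.fstIdx, Word.empty])
  one_notMem_W x := by
    change ¬ ((1 : Gam X) • (Word.empty : Word (Fac X))).fstIdx = some (some x)
    rw [one_smul]
    simp [Word.fstIdx, Word.empty]
  g_mul_mem_W x γ := by
    change ((of (c x) * γ : Gam X) • (Word.empty : Word (Fac X))).fstIdx = some (some x) ↔
      ¬ ((γ : Gam X) • (Word.empty : Word (Fac X))).fstIdx = some (some x)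
    rw [mul_smul]
    constructor
    · intro h h'
      exact fstIdx_smul_two (c x) (c_mul x) (c_cases x) _ h' h
    · intro h
      exact fstIdx_smul _ (c_ne x) _ h
  pingpong Y x x' l γ hx hx' hl hγ hlγ := by
    have hS : ∀ a ∈ (Word.equiv l).toList, a.1 ∈ insert none (some '' Y) := by
      apply letters_closure
      refine Subgroup.closure_mono ?_ hl
      rintro y (⟨n, rfl⟩ | ⟨z, hz, rfl⟩)
      · simp only [Set.mem_iUnion]
        exact ⟨none, Set.mem_insert _ _, _, rfl⟩
      · simp only [Set.mem_iUnion]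
        exact ⟨some z, Set.mem_insert_of_mem _ ⟨z, hz, rfl⟩, _, rfl⟩
    have hprod : (Word.equiv l).prod = l := Word.equiv.symm_apply_apply l
    have key := fstIdx_prod_smul (insert none (some '' Y)) (Word.equiv l) hS
      (Word.equiv γ) (some x') (by simp [hx']) hγ
    rw [hprod] at key
    have hlγ' : (l • Word.equiv γ).fstIdx = some (some x) := by
      change (l • (γ • (Word.empty : Word (Fac X)))).fstIdx = some (some x)
      rw [← mul_smul]
      exact hlγ
    by_cases he : Word.equiv l = Word.empty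
    · have h1 : l = 1 := by rw [← hprod, he, Word.prod_empty]
      refine ⟨h1, ?_⟩
      have h2 := key.1 he
      rw [hlγ'] at h2
      exact Option.some.inj (Option.some.inj h2)
    · exfalso
      have h2 := key.2 he
      rw [hlγ'] at h2
      -- first letter of `l` is in `some x`, `x ∉ Y`
      have h3 : ∃ a ∈ (Word.equiv l).toList, a.1 = some x := by
        unfold Word.fstIdx at h2
        cases hL : (Word.equiv l).toList with
        | nil => rw [hL] at h2; simp at h2
        | cons a t =>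
          rw [hL] at h2
          simp only [List.head?_cons, Option.map_some, Option.some.injEq] at h2
          exact ⟨a, by simp, h2.symm⟩
      obtain ⟨a, ha, hax⟩ := h3
      have := hS a ha
      rw [hax] at this
      simp only [Set.mem_insert_iff, reduceCtorEq, Set.mem_image, Option.some.injEq,
        exists_eq_right, false_or] at this
      exact hx this


end Crest.Agent.R120
end

-- ▼ part R120/ExistsPPG
section

/-!
# Row 120: the concrete ping-pong group as an instance of `PPG`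
-/

set_option autoImplicit false

namespace Crest.Agent.R120

theorem PPGroup.k_indep {Γ : Type} [Group Γ] {X : Type} (D : PPGroup Γ X) (n : ℕ) :
    D.k n ∉ Subgroup.closure (D.k '' {i | i < n}) := by
  intro hn
  let e : Multiplicative (ℕ →₀ ZMod 2) →* Multiplicative (ZMod 2) :=
    AddMonoidHom.toMultiplicative (Finsupp.applyAddHom n)
  have hle : Subgroup.closure (D.k '' {i | i < n}) ≤ Subgroup.map D.κ e.ker := by
    rw [Subgroup.closure_le]
    rintro _ ⟨i, hi, rfl⟩
    refine ⟨Multiplicative.ofAdd (Finsupp.single i 1), ?_, D.κ_single i⟩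
    change Multiplicative.ofAdd ((Finsupp.single i (1 : ZMod 2)) n) = 1
    have hi' : i ≠ n := ne_of_lt hi
    rw [Finsupp.single_eq_of_ne hi'.symm]
    rfl
  obtain ⟨f, hf, hfk⟩ := hle hn
  rw [← D.κ_single n] at hfk
  have h1 := D.κ_injective hfk
  subst h1
  have h2 : Multiplicative.ofAdd ((Finsupp.single n (1 : ZMod 2)) n) = 1 := hf
  rw [Finsupp.single_eq_same] at h2
  have h3 : (1 : ZMod 2) = 0 := h2
  revert h3
  decide

/-- The `PPG` structure of a `PPGroup`. -/
noncomputable def PPGroup.toPPG {Γ : Type} [Group Γ] {X : Type} (D : PPGroup Γ X) : PPG Γ X where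
  k := D.k
  g := D.g
  W := D.W
  L := D.Λ
  k_sq := D.k_sq
  k_comm := D.k_comm
  k_indep := D.k_indep
  g_sq := D.g_sq
  k_mem := D.k_mem
  g_mem := D.g_mem
  L_mono := D.Λ_mono
  g_iff := D.g_mul_mem_W
  ping := D.pingpong

theorem exists_ppg (X : Type) : ∃ (Γ : Type) (_ : Group Γ), Nonempty (PPG Γ X) :=
  ⟨MG.Gam X, inferInstance, ⟨(ppGroup X).toPPG⟩⟩

end Crest.Agent.R120
end

-- ▼ part R120/Model

/-!
# The concrete model (blueprint section 0)
-/

set_option autoImplicit false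

namespace Crest.Agent.R120

open scoped ComplexOrder
open Filter Topology

/-- The ping-pong structure of the concrete model. -/
noncomputable def PPG.toPP {Γ : Type} [Group Γ] {X : Type} (D : PPG Γ X) : PP (BB Γ) X where
  base := D.base
  p := pn D.k
  G x := lam (D.g x)
  P x := prj (D.W x)
  U Y := UU (D.L Y)
  τ := tau
  φ := D.phi
  U_closed Y := UU_isClosed _
  U_mono Y Z h := UU_mono (D.L_mono Y Z h)
  base_mem := by
    rintro _ ⟨n, rfl⟩
    exact lam_mem_UU (D.k_mem n ∅)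
  G_mem x Y h := lam_mem_UU (D.g_mem x Y h)
  G_sa x := by
    rw [star_lam, inv_eq_iff_mul_eq_one.2 (D.g_sq x)]
  G_sq x := by
    rw [← lam_mul, D.g_sq, lam_one]
  P_proj x := prj_isStarProjection _
  P_ne x := prj_ne_zero (D.W_nonempty x)
  P_orth x x' h := prj_mul_prj_of_disjoint (D.W_disjoint h)
  G_eq x := D.G_eq x
  PTP_same Y x T hx hT := D.PTP_same Y x T hx hT
  PTP_ne Y x x' T hx hx' hne hT := D.PTP_ne Y x x' T hx hx' hne hT
  τ_one := tau_one
  τ_comm S T hS hT := tau_comm (UU_mono le_top hS) (UU_mono le_top hT)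
  τ_faithful T hT h := tau_faithful (UU_mono le_top hT) h
  base_countable := D.base_countable
  p_dec := D.decProj_pn
  p_zero := rfl
  p_mem n := (D.nice_pn n).cs
  τ_p n := (D.nice_pn n).tr
  φ_one := D.phi_one
  φ_p n := D.phi_pn n
  base_N0 := D.base_N0
  halving ψ hψ n := by
    obtain ⟨z, hz, hz'⟩ := D.halving ψ hψ n
    exact ⟨z, hz.cs, hz.proj, hz', hz.tr⟩
  lim V k hk hu hU hV := D.exists_lim hk hu hU hV
  sc Y y h := D.mem_of_forall_mem h

theorem exists_model : ∃ (H : Type) (_ : NormedAddCommGroup H) (_ : InnerProductSpace ℂ H)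
    (_ : CompleteSpace H) (M : PP (H →L[ℂ] H) ℝ), ¬ FiniteDimensional ℂ (cs M.base) := by
  obtain ⟨Γ, hΓ, ⟨D⟩⟩ := exists_ppg ℝ
  exact ⟨HH Γ, inferInstance, inferInstance, inferInstance, D.toPP, D.not_finiteDimensional⟩

end Crest.Agent.R120
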